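import Vale.Agent.P247X.Spec

/-!
# P247, stage 2: interface file (manifold level)

The paper proof is in `notes/P247/stage2.md`.  Each `XX_statement : Prop` is one row; prove it
taking the statements of the rows it depends on as hypotheses (or import their proofs).
-/

set_option linter.all false

open scoped Manifold ContDiff Topology ComplexConjugate
open Set MeasureTheory Filter Metric

noncomputable section

namespace Vale.Agent.P247A

open Vale.Agent.P247X Vale.Agent.P247.SCY Vale.Agent.P247.SCY.HS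
open Vale.Agent.P247.H74 (R4 e)
open Vale.Agent.P247.H574 (tr)
open Vale.Agent.P290Z.Lat (Ev Sig)

section defs

variable {X : Type} [TopologicalSpace X] [ChartedSpace HS.E4 X]

/-- smooth maps to the unit circle -/
def Circ (g : X → ℂ) : Prop := ContMDiff (𝓡 4) 𝓘(ℝ, ℂ) ∞ g ∧ ∀ x, ‖g x‖ = 1

/-- the angular form `d arg g / 2 π` -/
def ang (g : X → ℂ) (x : X) (v : TangentSpace (𝓡 4) x) : ℝ :=
  (conj (g x) * dfc g x v).im / (2 * Real.pi)

/-- the differential of a real function -/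
def dfr (f : X → ℝ) (x : X) (v : TangentSpace (𝓡 4) x) : ℝ := mfderiv (𝓡 4) 𝓘(ℝ, ℝ) f x v

/-- smooth real functions -/
def SmR (f : X → ℝ) : Prop := ContMDiff (𝓡 4) 𝓘(ℝ, ℝ) ∞ f

/-- `β` is the product of the angular forms of `g` and `g'` -/
def IsCup (g g' : X → ℂ) (β : Form X 2) : Prop := ∀ x (u v : TangentSpace (𝓡 4) x),
  β x ![u, v] = ang g x u * ang g' x v - ang g x v * ang g' x u

/-- an integral basis of the first cohomology -/
structure H1B (X : Type) [TopologicalSpace X] [ChartedSpace HS.E4 X] (b : ℕ) where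
  g : Fin b → X → ℂ
  circ : ∀ i, Circ (g i)
  span : ∀ θ : Form X 1, SC θ → ∃ (h : Fin b → ℝ) (f : X → ℝ), SmR f ∧
    ∀ x v, θ x ![v] = ∑ i, h i * ang (g i) x v + dfr f x v
  indep : ∀ (h : Fin b → ℝ) (f : X → ℝ), SmR f →
    (∀ x v, ∑ i, h i * ang (g i) x v = dfr f x v) → h = 0
  lat : ∀ u : X → ℂ, Circ u → ∃ (m : Fin b → ℤ) (f : X → ℝ), SmR f ∧
    ∀ x v, ang u x v = ∑ i, (m i : ℝ) * ang (g i) x v + dfr f x v

/-- primitive classes -/
def PrimL [MeasurableSpace X] (μ : Form X 4) (L : LB X) : Prop :=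
  ∃ L' : LB X, pair μ L.F L'.F = 1

/-- the integral classes orthogonal to `w 0`, `w 1` are the multiples of the class of `L` -/
structure NSis [MeasurableSpace X] (μ : Form X 4) (w : Tri X) (L : LB X) : Prop where
  h0 : pair μ L.F (w 0) = 0
  h1 : pair μ L.F (w 1) = 0
  h2 : 0 < pair μ L.F (w 2)
  gen : ∀ L' : LB X, pair μ L'.F (w 0) = 0 → pair μ L'.F (w 1) = 0 →
    ∃ k : ℤ, Coh L'.F fun x => (k : ℝ) • L.F x

/-- the covariant derivative of the component `s` of a section, for the connection `A i + a` -/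
def nabX (L : LB X) (a : Form X 1) (i : Fin L.n) (s : X → ℂ) (x : X)
    (v : TangentSpace (𝓡 4) x) : ℂ :=
  dfc s x v - Complex.I * ((L.A i x ![v] + a x ![v] : ℝ) : ℂ) * s x

/-- The output of the Seiberg-Witten part; `F n` is the curvature of `A + a n`. -/
structure HiggsX [MeasurableSpace X] (μ : Form X 4) (w : Tri X) (L : LB X) where
  r : ℕ → ℝ
  a : ℕ → Form X 1
  F : ℕ → Form X 2
  σ : ℕ → Fin L.n → X → ℂ
  jac : ℕ → Form X 2
  r_pos : ∀ n, 0 < r n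
  r_lim : Tendsto r atTop atTop
  a_smooth : ∀ n, Smooth (a n)
  F_eq : ∀ n, DOn univ (a n) fun x => F n x - (2 * Real.pi) • L.F x
  σ_smooth : ∀ n i, ContMDiffOn (𝓡 4) 𝓘(ℝ, ℂ) ∞ (σ n i) (L.U i)
  σ_tr : ∀ n i j, ∀ x ∈ L.U i ∩ L.U j, σ n i x = L.g i j x * σ n j x
  jac_eq : ∀ n i, ∀ x ∈ L.U i, ∀ u v : TangentSpace (𝓡 4) x, jac n x ![u, v] =
    (1 - ‖σ n i x‖ ^ 2) * F n x ![u, v] +
      2 * (conj (nabX L (a n) i (σ n i) x u) * nabX L (a n) i (σ n i) x v).im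
  energy : ∀ (i : Fin L.n) (κ : OpenPartialHomeomorph X R4),
    ContMDiffOn (𝓡 4) 𝓘(ℝ, R4) ∞ κ κ.source → ContMDiffOn 𝓘(ℝ, R4) (𝓡 4) ∞ κ.symm κ.target →
    ∀ K : Set R4, IsCompact K → K ⊆ κ.target → κ.symm '' K ⊆ L.U i → ∃ C : ℝ, ∀ n,
      ∫ y in K, (∑ j, ‖nabX L (a n) i (σ n i) (κ.symm y) (dm4 κ.symm y (e j))‖ ^ 2 +
        r n * (1 - ‖σ n i (κ.symm y)‖ ^ 2) ^ 2 + (1 / r n) * ∑ j, ∑ k,
          F n (κ.symm y) ![dm4 κ.symm y (e j), dm4 κ.symm y (e k)] ^ 2) ≤ C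
  pos : ∀ φ : Form X 2, Cont φ → (∀ x v, 0 ≤ φ x ![v, Jw w x v]) → ∀ ε > 0, ∀ᶠ n in atTop,
    -ε ≤ pair μ (jac n) φ

/-- closed coframes -/
def Cofr (θ : Fin 4 → Form X 1) : Prop :=
  (∀ i, SC (θ i)) ∧ ∀ x (v : TangentSpace (𝓡 4) x), (∀ i, θ i x ![v] = 0) → v = 0

/-- `P` identifies `X` with the standard four-torus -/
structure IsT4 (P : R4 → X) : Prop where
  smooth : ContMDiff 𝓘(ℝ, R4) (𝓡 4) ∞ P
  imm : ∀ x, Function.Bijective (dm4 P x)
  surj : Function.Surjective P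
  fib : ∀ x y, P x = P y ↔ ∃ k, y = tr k x

/-- a basis of the second cohomology -/
structure H2B [MeasurableSpace X] (μ : Form X 4) {r : ℕ} (c : Fin r → Form X 2) : Prop where
  sc : ∀ i, SC (c i)
  span : ∀ α : Form X 2, SC α → ∃ v, Coh α (lc c v)
  nondeg : (Matrix.of fun i j => pair μ (c i) (c j)).det ≠ 0

end defs

/-! ## The final assembly -/

/-- block G: target 1 for every `b⁻ ≥ 19` -/
def ThmK19_statement : Prop := ∀ (X : Type) [Cl4 X] (μ : Form X 4), Top0 μ → BMinusGe μ 19 →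
  Q1For X μ

/-- block NO -/
def NO19_statement : Prop := ∀ (X : Type) [Cl4 X] (μ : Form X 4), Top0 μ → ∀ w : Tri X,
  Hypersymplectic μ w → BMinusGe μ 19

theorem asm2 (hA : BP_statement) (hN : NO19_statement) (hK : ThmK19_statement)
    (hB : B4_statement) : Q1_statement := by
  intro X _ μ hμ w hw hn
  have hbp := hA X μ hμ w hw
  by_cases h : B1Zero X
  · exact hK X μ ⟨hμ, h, hbp⟩ (hN X μ ⟨hμ, h, hbp⟩ w hw) w hw hn
  · exact hB X μ hμ hbp h w hw hn

/-! ## Block NO -/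

/-- `LAT8`: the signature of an even unimodular lattice is divisible by eight -/
def LAT8_statement : Prop := ∀ (r : ℕ) (G : Matrix (Fin r) (Fin r) ℤ), (∀ i j, G i j = G j i) →
  Ev G → IsUnit G.det → Sig G 3 → r % 8 = 6

/-- `CHI3`: the Euler number is divisible by three (from `PHQ`, `Z3Q`, `DICT3` of `SpecQ`) -/
def CHI3_statement : Prop := ∀ (X : Type) [Cl4 X] (μ : Form X 4), Top0 μ → ∀ w : Tri X,
  Hypersymplectic μ w → ∀ (r : ℕ) (c : Fin r → Form X 2), H2B μ c → 3 ∣ r + 2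

/-- `ASMN` -/
def ASMN_statement : Prop := EVEN_statement → LAT8_statement → CHI3_statement → NO19_statement

/-! ## Block B4 -/

/-- `H1Z` -/
def H1Z_statement : Prop := ∀ (X : Type) [Cl4 X], ∃ b, Nonempty (H1B X b)

/-- `CUP`: products of angular forms are Chern forms -/
def CUP_statement : Prop := ∀ (X : Type) [Cl4 X] (μ : Form X 4) (g g' : X → ℂ), Circ g → Circ g' →
  ∃ L : LB X, IsCup g g' L.F ∧ pair μ L.F L.F = 0

/-- `LATT`: primitive classes of given square -/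
def LATT_statement : Prop := ∀ (X : Type) [Cl4 X] (μ : Form X 4), Volume μ → BPlusLe3 μ →
  ∀ w : Tri X, Hypersymplectic μ w → ∀ m : ℕ,
  (∃ L : LB X, PrimL μ L ∧ pair μ L.F L.F = 2 * m) ∧
  ∀ L₀ L₁ : LB X, pair μ L₀.F L₀.F = 0 → pair μ L₁.F L₀.F ≠ 0 →
    ∃ L : LB X, PrimL μ L ∧ pair μ L.F L.F = 2 * m ∧ pair μ L.F L₀.F ≠ 0

/-- `MOVE`: a triple with prescribed Neron-Severi group of rank one -/
def MOVE_statement : Prop := ∀ (X : Type) [Cl4 X] (μ : Form X 4), Volume μ → BPlusLe3 μ →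
  ∀ w : Tri X, Hypersymplectic μ w → ∀ L : LB X, PrimL μ L → 0 ≤ pair μ L.F L.F →
  ∃ w' : Tri X, Hypersymplectic μ w' ∧ NSis μ w' L

/-- `MOD4` (block SW) -/
def MOD4_statement : Prop := ∀ (X : Type) [Cl4 X] (μ : Form X 4), Volume μ → BPlusLe3 μ →
  ∀ w : Tri X, Hypersymplectic μ w → ∀ b, H1B X b → 4 ∣ b

/-- `SWH` (block SW) -/
def SWH_statement : Prop := ∀ (X : Type) [Cl4 X] (μ : Form X 4), Volume μ → BPlusLe3 μ →
  ∀ w : Tri X, Hypersymplectic μ w → ∀ b, H1B X b → ∀ L : LB X, pair μ L.F (w 0) = 0 →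
  pair μ L.F (w 1) = 0 → 0 < pair μ L.F (w 2) →
  ((b : ℝ) - 2 ≤ pair μ L.F L.F ∨ (pair μ L.F L.F = (b : ℝ) - 4 ∧ ∃ (g g' : X → ℂ) (β : Form X 2),
    Circ g ∧ Circ g' ∧ IsCup g g' β ∧ pair μ L.F β ≠ 0)) → Nonempty (HiggsX μ w L)

/-- `BPH` (block SW) -/
def BPH_statement : Prop := H1Z_statement → BP_statement

/-- `ICURX`: the limit current -/
def ICURX_statement : Prop := ∀ (X : Type) [Cl4 X] (μ : Form X 4), Volume μ → ∀ w : Tri X,
  Hypersymplectic μ w → ∀ L : LB X, HiggsX μ w L → ∃ T, ICurX w T ∧ IsCls μ T L.F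

/-- `IRR1`: the current is an irreducible curve -/
def IRR1_statement : Prop := ∀ (X : Type) [Cl4 X] (μ : Form X 4), Volume μ → ∀ w : Tri X,
  Hypersymplectic μ w → ∀ L : LB X, NSis μ w L → ∀ T, ICurX w T → IsCls μ T L.F →
  ∃ K : Irr (Jw w), IsCls μ K.T L.F

/-- `COV` (from `BP`): if a nontrivial circle valued function has a logarithm on `U`, then closed
forms supported in `U` have nonpositive square (four lifts to the fourfold cyclic cover) -/
def COV_statement : Prop := ∀ (X : Type) [Cl4 X] (μ : Form X 4), Volume μ → ∀ w : Tri X,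
  Hypersymplectic μ w → ∀ b (B : H1B X b) (m : Fin b → ℤ), m ≠ 0 → ∀ (U : Set X) (f : X → ℝ),
  IsOpen U → ContinuousOn f U →
  (∀ x ∈ U, ∏ i, B.g i x ^ m i = Complex.exp (Complex.I * f x)) →
  ∀ α : Form X 2, SC α → SuppIn α U → pair μ α α ≤ 0

/-- `LEF`: the Lefschetz theorem.  If `∑ h i ang (g i)` has a primitive `f` on the curve, in the
sense that `f` differs locally by a constant from a primitive on `X`, then `h = 0`. -/
def LEF_statement : Prop := ∀ (X : Type) [Cl4 X] (μ : Form X 4), Volume μ → ∀ w : Tri X,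
  Hypersymplectic μ w → ∀ b (B : H1B X b) (K : Irr (Jw w)) (α : Form X 2), IsCls μ K.T α →
  0 < K.T α → ∀ (h : Fin b → ℝ) (f : X → ℝ),
  (∀ x ∈ K.K, ∃ (U : Set X) (p : X → ℝ), IsOpen U ∧ x ∈ U ∧ ContMDiffOn (𝓡 4) 𝓘(ℝ, ℝ) ∞ p U ∧
    (∀ y ∈ U, ∀ v, dfr p y v = ∑ i, h i * ang (B.g i) y v) ∧ ∀ y ∈ U ∩ K.K, f y = p y) → h = 0

/-- `BETTI` -/
def BETTI_statement : Prop := ∀ (X : Type) [Cl4 X] (μ : Form X 4), Volume μ → ∀ w : Tri X,
  Hypersymplectic μ w → ∀ b (B : H1B X b) (K : Irr (Jw w)) (α : Form X 2), IsCls μ K.T α →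
  0 < K.T α → (b : ℝ) ≤ K.T α + 2 ∧
    ((∀ i j β, IsCup (B.g i) (B.g j) β → K.T β = 0) → 2 * (b : ℝ) ≤ K.T α + 2)

/-- `TORX`: the curve is a torus -/
def TORX_statement : Prop := ∀ (X : Type) [Cl4 X] (μ : Form X 4), Volume μ → ∀ w : Tri X,
  Hypersymplectic μ w → ∀ (K : Irr (Jw w)) (α : Form X 2), IsCls μ K.T α → K.T α = 0 →
  ∀ (g g' : X → ℂ) (β : Form X 2), Circ g → Circ g' → IsCup g g' β → K.T β ≠ 0 →
  ∃ S : Tor (Jw w), S.set = K.K ∧ IsCls μ S.int α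

/-- `FOL`: the foliation by tori and the closed coframe -/
def FOL_statement : Prop := ∀ (X : Type) [Cl4 X] (μ : Form X 4), Volume μ → ∀ w : Tri X,
  Hypersymplectic μ w → ∀ L : LB X, NSis μ w L → pair μ L.F L.F = 0 →
  ∀ (g g' : X → ℂ) (β : Form X 2), Circ g → Circ g' → IsCup g g' β → pair μ L.F β ≠ 0 →
  ∀ S : Tor (Jw w), IsCls μ S.int L.F → ∃ θ : Fin 4 → Form X 1, Cofr θ

/-- `COF` -/
def COF_statement : Prop := ∀ (X : Type) [Cl4 X] (θ : Fin 4 → Form X 1), Cofr θ →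
  ∃ P : R4 → X, IsT4 P

/-- `TRF`: transfer of the theorem for the four-torus -/
def TRF_statement : Prop := ∀ (X : Type) [Cl4 X] (μ : Form X 4), Volume μ → ∀ P : R4 → X,
  IsT4 P → Q1For X μ

/-- `ASMB` -/
def ASMB_statement : Prop := H1Z_statement → CUP_statement → LATT_statement → MOVE_statement →
  MOD4_statement → SWH_statement → ICURX_statement → IRR1_statement → BETTI_statement →
  TORX_statement → FOL_statement → COF_statement → TRF_statement → B4_statement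

end Vale.Agent.P247A
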