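import Vale.Agent.P247A.AllQ1
import Vale.Agent.P247J.All
import Vale.Agent.P247W.Quant
import Vale.Agent.P247W.BSmap
import Vale.Agent.P247W.BApb
import Vale.Agent.P247W.BRge
import Vale.Agent.P247W.BUnq
import Vale.Agent.P247W.BNq
import Vale.Agent.P247W.BBse
import Vale.Agent.P247W.BDif
import Vale.Agent.P247W.BKr1

/-!
# P247: the full theorem
-/

namespace Vale.Agent.P247A

open Vale.Agent Vale.Agent.P247X Vale.Agent.P247W

theorem bpq : BPQ_statement :=
  Bp.bpq_of Bp.smap Bp.sol Bp.apb Bp.rge Bp.unq Bp.nqd Bp.bse Bp.dif Bp.kr1 Bp.kr2 Bp.nnd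

theorem q1 : Q1_statement := q1_of' bpq quant P247J.no19

end Vale.Agent.P247A
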