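import Vale.Agent.P247A.Spec2
import Vale.Agent.P247X.Base

/-!
# P247, stage 2: assembly of block B4
-/

set_option linter.all false

open scoped Manifold ContDiff Topology
open Set

noncomputable section

namespace Vale.Agent.P247A

open Vale.Agent.P247X Vale.Agent.P247.SCY Vale.Agent.P247.SCY.HS

theorem IsCup.uniq {X : Type} [TopologicalSpace X] [ChartedSpace HS.E4 X] {g g' : X → ℂ}
    {β β' : Form X 2} (h : IsCup g g' β) (h' : IsCup g g' β') : β = β' := by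
  funext x
  ext v
  have e : v = ![v 0, v 1] := by
    funext i
    fin_cases i <;> rfl
  rw [e, h, h']

theorem b1_of {X : Type} [TopologicalSpace X] [ChartedSpace HS.E4 X] (B : H1B X 0) :
    B1Zero X := fun θ hθ => by
  obtain ⟨h, f, h1, h2⟩ := B.span θ hθ
  exact ⟨f, h1, fun x v => by
    have := h2 x v
    rwa [Finset.univ_eq_empty, Finset.sum_empty, zero_add] at this⟩

theorem asmb : ASMB_statement := by
  intro h1z cup latt move mod4 swh icur irr1 betti torx fol cof trf X _ μ hμ hp hb w hw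
  obtain ⟨b, ⟨B⟩⟩ := h1z X
  obtain ⟨k, rfl⟩ := mod4 X μ hμ hp w hw b B
  obtain ⟨k, rfl⟩ : ∃ j, k = j + 1 := by
    cases k with
    | zero => exact absurd (b1_of B) hb
    | succ j => exact ⟨j, rfl⟩
  have k0 : (0 : ℝ) ≤ k := Nat.cast_nonneg k
  -- curves in a given primitive class
  have cv : ∀ L : LB X, PrimL μ L → 0 ≤ pair μ L.F L.F →
      ((((4 * (k + 1) : ℕ) : ℝ) - 2 ≤ pair μ L.F L.F ∨
        (pair μ L.F L.F = ((4 * (k + 1) : ℕ) : ℝ) - 4 ∧ ∃ (g g' : X → ℂ) (β : Form X 2),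
          Circ g ∧ Circ g' ∧ IsCup g g' β ∧ pair μ L.F β ≠ 0))) →
      ∃ w' : Tri X, Hypersymplectic μ w' ∧ NSis μ w' L ∧ ∃ K : Irr (Jw w'), IsCls μ K.T L.F := by
    intro L l1 l2 l3
    obtain ⟨w', hw', ns⟩ := move X μ hμ hp w hw L l1 l2
    obtain ⟨H⟩ := swh X μ hμ hp w' hw' _ B L ns.h0 ns.h1 ns.h2 l3
    obtain ⟨T, t1, t2⟩ := icur X μ hμ w' hw' L H
    exact ⟨w', hw', ns, irr1 X μ hμ w' hw' L ns T t1 t2⟩
  obtain ⟨L₁, p1, s1⟩ := (latt X μ hμ hp w hw (2 * k + 1)).1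
  push_cast at s1 cv
  obtain ⟨w₁, hw₁, -, K₁, c1⟩ := cv L₁ p1 (by linarith) (Or.inl (by linarith))
  have e1 := c1.2 _ c1.1
  have b2 := (betti X μ hμ w₁ hw₁ _ B K₁ _ c1 (by linarith)).2
  push_cast at b2
  obtain ⟨i, j, β, u1, u2⟩ : ∃ i j β, IsCup (B.g i) (B.g j) β ∧ K₁.T β ≠ 0 := by
    by_contra! h
    linarith [b2 h]
  obtain ⟨L₀, v1, v2⟩ := cup X μ _ _ (B.circ i) (B.circ j)
  obtain rfl := u1.uniq v1
  rw [c1.2 _ L₀.F_sc] at u2
  obtain ⟨L, p, s, t⟩ := (latt X μ hμ hp w hw (2 * k)).2 L₀ L₁ v2 u2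
  push_cast at s
  obtain ⟨w₂, hw₂, ns, K, c⟩ := cv L p (by linarith)
    (Or.inr ⟨by linarith, _, _, _, B.circ i, B.circ j, v1, t⟩)
  have e := c.2 _ c.1
  have z : pair μ L.F L.F = 0 := by
    by_contra h
    have := (betti X μ hμ w₂ hw₂ _ B K _ c (by rw [e]; exact lt_of_le_of_ne (by linarith) (Ne.symm h))).1
    push_cast at this
    linarith
  obtain ⟨S, -, hS⟩ := torx X μ hμ w₂ hw₂ K _ c (e.trans z) _ _ _ (B.circ i) (B.circ j) v1
    (by rw [c.2 _ L₀.F_sc]; exact t)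
  obtain ⟨θ, hθ⟩ := fol X μ hμ w₂ hw₂ L ns z _ _ _ (B.circ i) (B.circ j) v1 t S hS
  obtain ⟨P, hP⟩ := cof X θ hθ
  exact trf X μ hμ P hP w hw

end Vale.Agent.P247A
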