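import Mathlib

/-!
# P247, row `COF`: developing maps of compact translation manifolds

(adapted from `P247C/RTDev.lean`)
-/

set_option linter.all false

open scoped Topology
open Set Filter Metric

noncomputable section

namespace Vale.Agent.P247A.Cof

variable {M V : Type} [TopologicalSpace M] [NormedAddCommGroup V] [NormedSpace ℝ V]

/-- an atlas whose changes of coordinates are locally translations -/
structure TrA (M V : Type) [TopologicalSpace M] [NormedAddCommGroup V] where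
  A : Set (OpenPartialHomeomorph M V)
  cov : ∀ x, ∃ e ∈ A, x ∈ e.source
  tr : ∀ e ∈ A, ∀ e' ∈ A, ∀ x ∈ e.source, x ∈ e'.source →
    ∀ᶠ y in 𝓝 x, e' y - e' x = e y - e x

/-- `s` is near `z` the inverse of a chart, up to a translation -/
def DevAt (T : TrA M V) (s : V → M) (z : V) : Prop :=
  ContinuousAt s z ∧ ∃ e ∈ T.A, s z ∈ e.source ∧ ∀ᶠ w in 𝓝 z, e (s w) - e (s z) = w - z

variable {T : TrA M V} {s s' : V → M} {z : V}

theorem DevAt.all (h : DevAt T s z) {e : OpenPartialHomeomorph M V} (he : e ∈ T.A)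
    (hz : s z ∈ e.source) : ∀ᶠ w in 𝓝 z, s w ∈ e.source ∧ e (s w) - e (s z) = w - z := by
  obtain ⟨hc, e₀, he₀, hz₀, hev⟩ := h
  have h1 := hc.eventually (T.tr e₀ he₀ e he _ hz₀ hz)
  have h2 : ∀ᶠ w in 𝓝 z, s w ∈ e.source := hc.eventually (e.open_source.mem_nhds hz)
  filter_upwards [hev, h1, h2] with w a b c
  exact ⟨c, by rw [b, a]⟩

theorem DevAt.congr (h : DevAt T s z) (he : s =ᶠ[𝓝 z] s') : DevAt T s' z := by
  obtain ⟨hc, e₀, he₀, hz₀, hev⟩ := h
  have h0 : s z = s' z := he.eq_of_nhds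
  refine ⟨hc.congr he, e₀, he₀, h0 ▸ hz₀, ?_⟩
  filter_upwards [hev, he] with w a b
  rw [← b, ← h0, a]

theorem DevAt.evEq (h : DevAt T s z) (h' : DevAt T s' z) (h0 : s z = s' z) : s =ᶠ[𝓝 z] s' := by
  obtain ⟨e, he, hz⟩ := T.cov (s z)
  filter_upwards [h.all he hz, h'.all he (h0 ▸ hz)] with w a b
  refine e.injOn a.1 b.1 ?_
  have := a.2
  rw [← b.2, h0] at this
  exact sub_left_injective this

theorem dev_unique [T2Space M] {U : Set V} (hU : IsPreconnected U) (h : ∀ z ∈ U, DevAt T s z)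
    (h' : ∀ z ∈ U, DevAt T s' z) {z₀ : V} (hz₀ : z₀ ∈ U) (h0 : s z₀ = s' z₀) : EqOn s s' U := by
  have hu : IsOpen {z | s =ᶠ[𝓝 z] s'} := isOpen_setOf_eventually_nhds
  have hv : IsOpen {z | ∀ᶠ w in 𝓝 z, s w ≠ s' w} := isOpen_setOf_eventually_nhds
  have hsub : U ⊆ {z | s =ᶠ[𝓝 z] s'} := by
    refine hU.subset_left_of_subset_union hu hv ?_ ?_ ⟨z₀, hz₀, (h z₀ hz₀).evEq (h' z₀ hz₀) h0⟩
    · rw [Set.disjoint_left]
      intro z a b
      exact (b : ∀ᶠ w in 𝓝 z, s w ≠ s' w).self_of_nhds (a : s =ᶠ[𝓝 z] s').eq_of_nhds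
    · intro z hz
      by_cases hh : s z = s' z
      · exact Or.inl ((h z hz).evEq (h' z hz) hh)
      · exact Or.inr (((h z hz).1.prodMk (h' z hz).1).eventually
          (isClosed_diagonal.isOpen_compl.mem_nhds hh))
  exact fun z hz => (hsub hz : s =ᶠ[𝓝 z] s').eq_of_nhds

theorem DevAt.shift {c : V} (h : DevAt T s (z + c)) : DevAt T (fun w => s (w + c)) z := by
  obtain ⟨hc, e₀, he₀, hz₀, hev⟩ := h
  have ht : Tendsto (fun w => w + c) (𝓝 z) (𝓝 (z + c)) := (continuous_add_right c).continuousAt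
  refine ⟨hc.comp_of_eq (continuous_add_right c).continuousAt rfl, e₀, he₀, hz₀, ?_⟩
  filter_upwards [ht.eventually hev] with w a
  rw [a]; abel

theorem DevAt.image (h : DevAt T s z) {V : Set V} (hV : V ∈ 𝓝 z) : s '' V ∈ 𝓝 (s z) := by
  obtain ⟨e, he, hz⟩ := T.cov (s z)
  have h1 := (h.all he hz).and hV
  have ht : Tendsto (fun y => z + (e y - e (s z))) (𝓝 (s z)) (𝓝 z) := by
    have : ContinuousAt (fun y => z + (e y - e (s z))) (s z) :=
      continuousAt_const.add ((e.continuousAt hz).sub continuousAt_const)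
    simpa [ContinuousAt] using this
  filter_upwards [ht.eventually h1, e.open_source.mem_nhds hz] with y a b
  refine ⟨_, a.2, e.injOn a.1.1 b ?_⟩
  have := a.1.2
  rw [add_sub_cancel_left] at this
  exact sub_left_injective this

theorem DevAt.inj (h : DevAt T s z) : ∀ᶠ w in 𝓝 z, s w = s z → w = z := by
  obtain ⟨hc, e₀, he₀, hz₀, hev⟩ := h
  filter_upwards [hev] with w a b
  rw [b, sub_self] at a
  exact (sub_eq_zero.1 a.symm)

/-- a developing map on the disc of radius `r`, starting at `x` -/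
def Gd (T : TrA M V) (r : ℝ) (x : M) : Prop := ∃ s : V → M, s 0 = x ∧ ∀ z ∈ ball (0 : V) r, DevAt T s z

theorem Gd.mono {r r' : ℝ} {x : M} (h : Gd T r x) (hr : r' ≤ r) : Gd T r' x := by
  obtain ⟨s, h1, h2⟩ := h
  exact ⟨s, h1, fun z hz => h2 z (ball_subset_ball hr hz)⟩

theorem gd_local (T : TrA M V) (x : M) : ∃ r > 0, Gd T r x := by
  obtain ⟨e, he, hx⟩ := T.cov x
  obtain ⟨r, hr, hb⟩ := Metric.isOpen_iff.1 e.open_target _ (e.map_source hx)
  refine ⟨r, hr, fun w => e.symm (e x + w), by simp [e.left_inv hx], fun z hz => ?_⟩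
  have hm : ∀ w ∈ ball (0 : V) r, e x + w ∈ e.target := fun w hw => hb (by simpa using hw)
  refine ⟨(e.continuousAt_symm (hm z hz)).comp (by fun_prop), e, he, e.map_target (hm z hz), ?_⟩
  filter_upwards [isOpen_ball.mem_nhds hz] with w hw
  rw [e.right_inv (hm w hw), e.right_inv (hm z hz)]; abel

theorem gd_unif [CompactSpace M] (T : TrA M V) : ∃ r > 0, ∀ x, Gd T r x := by
  have key : ∃ r > 0, ∀ x ∈ (univ : Set M), Gd T r x := by
    refine isCompact_univ.induction_on (p := fun S => ∃ r > 0, ∀ x ∈ S, Gd T r x)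
      ⟨1, one_pos, fun _ h => h.elim⟩ ?_ ?_ ?_
    · rintro S S' hS ⟨r, hr, h⟩
      exact ⟨r, hr, fun x hx => h x (hS hx)⟩
    · rintro S S' ⟨r, hr, h⟩ ⟨r', hr', h'⟩
      refine ⟨min r r', lt_min hr hr', fun x hx => ?_⟩
      rcases hx with hx | hx
      · exact (h x hx).mono (min_le_left _ _)
      · exact (h' x hx).mono (min_le_right _ _)
    · intro x _
      obtain ⟨r, hr, s, h0, hs⟩ := gd_local T x
      refine ⟨s '' ball 0 (r / 2), mem_nhdsWithin_of_mem_nhds ?_, r / 2, by positivity, ?_⟩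
      · rw [← h0]
        exact (hs 0 (mem_ball_self hr)).image (ball_mem_nhds _ (by positivity))
      · rintro _ ⟨c, hc, rfl⟩
        refine ⟨fun w => s (w + c), by simp, fun z hz => (hs _ ?_).shift⟩
        rw [mem_ball_zero_iff] at *
        calc ‖z + c‖ ≤ ‖z‖ + ‖c‖ := norm_add_le _ _
          _ < r := by linarith
  obtain ⟨r, hr, h⟩ := key
  exact ⟨r, hr, fun x => h x trivial⟩

theorem gd_extend [T2Space M] {r R : ℝ} (hr : 0 < r) (hR : 0 < R) (hall : ∀ x, Gd T r x) {x : M}
    (h : Gd T R x) : Gd T (R + r) x := by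
  obtain ⟨s, h0, hs⟩ := h
  choose E hE0 hE using hall
  have hD : ∀ c, ∀ w ∈ ball c r, DevAt T (fun w => E (s c) (w + -c)) w := by
    intro c w hw
    refine (hE (s c) _ ?_).shift
    rw [mem_ball_zero_iff, ← sub_eq_add_neg, ← dist_eq_norm]; exact hw
  have hA : ∀ c ∈ ball (0 : V) R, EqOn (fun w => E (s c) (w + -c)) s (ball c r ∩ ball 0 R) := by
    intro c hc
    refine dev_unique ((convex_ball _ _).inter (convex_ball _ _)).isPreconnected
      (fun w hw => hD c w hw.1) (fun w hw => hs w hw.2) (z₀ := c) ⟨mem_ball_self hr, hc⟩ ?_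
    simp [hE0]
  have hB : ∀ c ∈ ball (0 : V) R, ∀ c' ∈ ball (0 : V) R, ∀ w ∈ ball c r ∩ ball c' r,
      E (s c) (w + -c) = E (s c') (w + -c') := by
    intro c hc c' hc' w hw
    have hd : dist c c' < 2 * r := by
      have h1 := dist_triangle_left c c' w
      have h2 := mem_ball.1 hw.1
      have h3 := mem_ball.1 hw.2
      linarith
    have hm1 : midpoint ℝ c c' ∈ ball c r := by
      rw [mem_ball, dist_midpoint_left]
      simp only [Real.norm_ofNat]; linarith
    have hm2 : midpoint ℝ c c' ∈ ball c' r := by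
      rw [mem_ball, dist_midpoint_right]
      simp only [Real.norm_ofNat]; linarith
    have hm3 : midpoint ℝ c c' ∈ ball (0 : V) R := (convex_ball _ _).midpoint_mem hc hc'
    refine dev_unique ((convex_ball _ _).inter (convex_ball _ _)).isPreconnected
      (fun w hw => hD c w hw.1) (fun w hw => hD c' w hw.2) ⟨hm1, hm2⟩ ?_ hw
    exact (hA c hc ⟨hm1, hm3⟩).trans (hA c' hc' ⟨hm2, hm3⟩).symm
  set t : ℝ := R / (R + r) with ht
  have hRr : 0 < R + r := by linarith
  have hc1 : ∀ z ∈ ball (0 : V) (R + r), t • z ∈ ball (0 : V) R := by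
    intro z hz
    rw [mem_ball_zero_iff] at *
    rw [norm_smul, Real.norm_eq_abs, abs_of_pos (by positivity), ht,
      div_mul_eq_mul_div, div_lt_iff₀ hRr]
    exact mul_lt_mul_of_pos_left hz hR
  have hc2 : ∀ z ∈ ball (0 : V) (R + r), z ∈ ball (t • z) r := by
    intro z hz
    rw [mem_ball_zero_iff] at hz
    have e1 : z - t • z = (r / (R + r) : ℝ) • z := by
      have : (r / (R + r) : ℝ) = 1 - t := by rw [ht]; field_simp; ring
      rw [this, sub_smul, one_smul]
    rw [mem_ball, dist_eq_norm, e1, norm_smul, Real.norm_eq_abs,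
      abs_of_pos (by positivity), div_mul_eq_mul_div, div_lt_iff₀ hRr]
    exact mul_lt_mul_of_pos_left hz hr
  refine ⟨fun z => E (s (t • z)) (z + -(t • z)), by simp [hE0, h0], fun z hz => ?_⟩
  refine (hD _ z (hc2 z hz)).congr ?_
  filter_upwards [isOpen_ball.mem_nhds hz, isOpen_ball.mem_nhds (hc2 z hz)] with w hw hw'
  exact hB _ (hc1 z hz) _ (hc1 w hw) w ⟨hw', hc2 w hw⟩

theorem dev_exists [CompactSpace M] [T2Space M] (T : TrA M V) (x : M) :
    ∃ u : V → M, u 0 = x ∧ ∀ z, DevAt T u z := by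
  obtain ⟨r, hr, hall⟩ := gd_unif T
  have hn : ∀ n : ℕ, Gd T ((n + 1) * r) x := by
    intro n
    induction n with
    | zero => simpa using hall x
    | succ n ih =>
      have := gd_extend hr (by positivity) hall ih
      convert this using 1
      push_cast; ring
  choose s hs0 hs using hn
  have hN : ∀ z : V, ∃ n : ℕ, z ∈ ball (0 : V) ((n + 1) * r) := by
    intro z
    obtain ⟨n, hn⟩ := exists_nat_gt (‖z‖ / r)
    refine ⟨n, ?_⟩
    rw [mem_ball_zero_iff]
    rw [div_lt_iff₀ hr] at hn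
    nlinarith
  choose N hN using hN
  refine ⟨fun z => s (N z) z, hs0 _, fun z => (hs _ z (hN z)).congr ?_⟩
  filter_upwards [isOpen_ball.mem_nhds (hN z)] with w hw
  refine dev_unique ((convex_ball _ _).inter (convex_ball _ _)).isPreconnected
    (fun y hy => hs (N z) y hy.1) (fun y hy => hs (N w) y hy.2) (z₀ := 0)
    ⟨mem_ball_self (by positivity), mem_ball_self (by positivity)⟩ ?_ ⟨hw, hN w⟩
  rw [hs0, hs0]

theorem dev_shift [T2Space M] {u v : V → M} (hu : ∀ z, DevAt T u z) (hv : ∀ z, DevAt T v z)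
    {a b : V} (h : u a = v b) (w : V) : u (w + a) = v (w + b) :=
  dev_unique (T := T) (s := fun w => u (w + a)) (s' := fun w => v (w + b)) isPreconnected_univ
    (fun z _ => (hu _).shift) (fun z _ => (hv _).shift) (z₀ := 0) trivial (by simpa using h) trivial

theorem dev_surj [CompactSpace M] [T2Space M] [ConnectedSpace M] {u : V → M}
    (hu : ∀ z, DevAt T u z) : Function.Surjective u := by
  have ho : ∀ v : V → M, (∀ z, DevAt T v z) → IsOpen (range v) := by
    intro v hv
    rw [isOpen_iff_mem_nhds]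
    rintro _ ⟨z, rfl⟩
    simpa using (hv z).image univ_mem
  have hc : IsClosed (range u) := by
    rw [← isOpen_compl_iff, isOpen_iff_mem_nhds]
    intro x hx
    obtain ⟨v, hv0, hv⟩ := dev_exists T x
    filter_upwards [(ho v hv).mem_nhds ⟨0, hv0⟩] with y hy
    rintro ⟨a, ha⟩
    obtain ⟨b, hb⟩ := hy
    refine hx ⟨-b + a, ?_⟩
    rw [dev_shift hu hv (ha.trans hb.symm), neg_add_cancel, hv0]
  have := (isClopen_iff.1 ⟨hc, ho u hu⟩).resolve_left (range_nonempty u).ne_empty
  exact range_eq_univ.1 this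

/-- a basis of a discrete cobounded subgroup -/
theorem exists_basis [FiniteDimensional ℝ V] {n : ℕ} (hn : Module.finrank ℝ V = n)
    (Γ : AddSubgroup V) (hd : ∃ ρ > 0, ∀ w ∈ Γ, ‖w‖ < ρ → w = 0)
    (hc : ∃ R : ℝ, ∀ v, ∃ w ∈ Γ, ‖v - w‖ ≤ R) :
    ∃ A : (Fin n → ℝ) ≃L[ℝ] V, ∀ w, w ∈ Γ ↔ ∃ k : Fin n → ℤ, w = A fun i => k i := by
  set L : Submodule ℤ V := AddSubgroup.toIntSubmodule Γ with hL
  have hmem : ∀ w, w ∈ L ↔ w ∈ Γ := fun w => Iff.rfl
  obtain ⟨ρ, hρ, hd⟩ := hd
  obtain ⟨R, hR⟩ := hc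
  have hdisc : DiscreteTopology L := by
    apply discreteTopology_of_isOpen_singleton_zero
    rw [Metric.isOpen_iff]
    intro x hx
    rw [mem_singleton_iff] at hx
    subst hx
    refine ⟨ρ, hρ, fun y hy => ?_⟩
    rw [mem_ball, dist_zero_right] at hy
    have := hd y.1 ((hmem _).1 y.2) hy
    rw [mem_singleton_iff]
    exact Subtype.ext this
  have hspan : Submodule.span ℝ (L : Set V) = ⊤ := by
    by_contra hne
    obtain ⟨f, hf0, hf⟩ := Submodule.exists_le_ker_of_lt_top _ (lt_top_iff_ne_top.2 hne)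
    apply hf0
    set fc : V →L[ℝ] ℝ := LinearMap.toContinuousLinearMap f with hfc
    have hb : ∀ v, |f v| ≤ ‖fc‖ * R := by
      intro v
      obtain ⟨w, hw, hvw⟩ := hR v
      have h1 : f w = 0 := hf (Submodule.subset_span ((hmem w).2 hw))
      have h2 : f v = fc (v - w) := by
        show f v = f (v - w)
        rw [map_sub, h1, sub_zero]
      rw [h2]
      calc |fc (v - w)| ≤ ‖fc‖ * ‖v - w‖ := fc.le_opNorm _
        _ ≤ ‖fc‖ * R := by gcongr
    refine LinearMap.ext fun v => ?_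
    by_contra hv
    have hv' : 0 < |f v| := abs_pos.2 hv
    have h3 := hb (((‖fc‖ * R + 1) / |f v|) • v)
    rw [map_smul, smul_eq_mul, abs_mul, abs_div, abs_abs, div_mul_cancel₀ _ hv'.ne'] at h3
    have h4 := le_abs_self (‖fc‖ * R + 1)
    linarith
  have : IsZLattice ℝ L := ⟨hspan⟩
  have := ZLattice.module_free ℝ L
  have := ZLattice.module_finite ℝ L
  have hrank : Module.finrank ℤ L = n := by
    rw [ZLattice.rank ℝ L, hn]
  let B : Module.Basis (Fin n) ℤ L := Module.finBasisOfFinrankEq ℤ L hrank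
  let B' := B.ofZLatticeBasis ℝ L
  have hB : ∀ i, B' i = (B i : V) := fun i => B.ofZLatticeBasis_apply ℝ L i
  refine ⟨B'.equivFun.symm.toContinuousLinearEquiv, fun w => ?_⟩
  have hA : ∀ k : Fin n → ℤ, B'.equivFun.symm.toContinuousLinearEquiv (fun i => (k i : ℝ)) =
      ∑ i, k i • (B i : V) := by
    intro k
    show B'.equivFun.symm _ = _
    rw [Module.Basis.equivFun_symm_apply]
    exact Finset.sum_congr rfl fun i _ => by rw [hB, Int.cast_smul_eq_zsmul]
  constructor
  · intro hw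
    refine ⟨fun i => B.repr ⟨w, hw⟩ i, ?_⟩
    rw [hA]
    have h2 := congrArg (Subtype.val) (B.sum_repr ⟨w, hw⟩)
    simp only [AddSubmonoidClass.coe_finset_sum, Submodule.coe_smul] at h2
    exact h2.symm
  · rintro ⟨k, rfl⟩
    rw [hA]
    exact Γ.sum_mem fun i _ => Γ.zsmul_mem (B i).2 _

/-- A compact connected translation manifold is a torus. -/
theorem dev_torus [CompactSpace M] [T2Space M] [ConnectedSpace M] [FiniteDimensional ℝ V] {n : ℕ}
    (hn : Module.finrank ℝ V = n) (T : TrA M V) :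
    ∃ (u : V → M) (A : (Fin n → ℝ) ≃L[ℝ] V), (∀ z, DevAt T u z) ∧ Function.Surjective u ∧
      ∀ z z', u z = u z' ↔ ∃ k : Fin n → ℤ, z' = z + A fun i => k i := by
  obtain ⟨x⟩ : Nonempty M := inferInstance
  obtain ⟨u, -, hu⟩ := dev_exists T x
  have hs := dev_surj hu
  let Γ : AddSubgroup V :=
    { carrier := {w | u w = u 0}
      zero_mem' := rfl
      add_mem' := by
        intro a b ha hb
        have := dev_shift hu hu (show u b = u 0 from hb) a
        rw [add_zero] at this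
        exact this.trans ha
      neg_mem' := by
        intro a ha
        have := dev_shift hu hu (show u a = u 0 from ha) (-a)
        rw [neg_add_cancel, add_zero] at this
        exact this.symm }
  have hΓ : ∀ z z', u z = u z' ↔ z' - z ∈ Γ := by
    intro z z'
    constructor
    · intro h
      have := dev_shift hu hu h (-z)
      rw [neg_add_cancel, neg_add_eq_sub] at this
      exact this.symm
    · intro h
      have := dev_shift hu hu (show u (z' - z) = u 0 from h) z
      rw [add_sub_cancel, add_zero] at this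
      exact this.symm
  obtain ⟨A, hb⟩ := exists_basis hn Γ (by
    obtain ⟨ρ, hρ, h⟩ := Metric.eventually_nhds_iff_ball.1 (hu 0).inj
    exact ⟨ρ, hρ, fun w hw hn => h w (mem_ball_zero_iff.2 hn) hw⟩) (by
    have key : ∃ R : ℝ, ∀ y ∈ (univ : Set M), y ∈ u '' ball 0 R := by
      refine isCompact_univ.induction_on (p := fun S => ∃ R : ℝ, ∀ y ∈ S, y ∈ u '' ball 0 R)
        ⟨1, fun _ h => h.elim⟩ ?_ ?_ ?_
      · rintro S S' hS ⟨r, h⟩
        exact ⟨r, fun x hx => h x (hS hx)⟩
      · rintro S S' ⟨r, h⟩ ⟨r', h'⟩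
        refine ⟨max r r', fun x hx => ?_⟩
        rcases hx with hx | hx
        · exact image_mono (ball_subset_ball (le_max_left _ _)) (h x hx)
        · exact image_mono (ball_subset_ball (le_max_right _ _)) (h' x hx)
      · intro y _
        obtain ⟨z, rfl⟩ := hs y
        refine ⟨u '' ball 0 (‖z‖ + 1), mem_nhdsWithin_of_mem_nhds ((hu z).image ?_), _,
          fun _ h => h⟩
        exact isOpen_ball.mem_nhds (by simp)
    obtain ⟨R, hR⟩ := key
    refine ⟨R, fun v => ?_⟩
    obtain ⟨z, hz, hzv⟩ := hR (u v) trivial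
    refine ⟨v - z, (hΓ z v).1 hzv, ?_⟩
    rw [sub_sub_cancel]
    exact (mem_ball_zero_iff.1 hz).le)
  refine ⟨u, A, hu, hs, fun z z' => (hΓ z z').trans ((hb _).trans ?_)⟩
  constructor
  · rintro ⟨k, h⟩
    exact ⟨k, by rw [← h]; abel⟩
  · rintro ⟨k, h⟩
    exact ⟨k, by rw [h]; abel⟩

end Vale.Agent.P247A.Cof
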