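import Vale.Agent.P247A.Spec2
import Vale.Agent.P247A.Cof0
import Vale.Agent.P247M.PB

/-!
# P247, row `COF`: a closed four-manifold with a closed coframe is the four-torus
-/

set_option linter.all false

open scoped Manifold ContDiff Topology
open Set Filter Metric Function

noncomputable section

namespace Vale.Agent.P247A

open Vale.Agent.P247.SCY hiding dm
open Vale.Agent.P247.SCY.HS
open Vale.Agent.P247X
open Vale.Agent.P247M
open Vale.Agent.P247.H74 (R4)
open Vale.Agent.P247.H574 (tr)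

namespace Cof

theorem ift {E F : Type} [NormedAddCommGroup E] [NormedSpace ℝ E] [CompleteSpace E]
    [NormedAddCommGroup F] [NormedSpace ℝ F] [CompleteSpace F] {G : E → F} {O : Set E}
    (hO : IsOpen O) (hG : ∀ z ∈ O, ContDiffAt ℝ ∞ G z) {z0 : E} (h0 : z0 ∈ O)
    (hb : Function.Bijective (fderiv ℝ G z0)) :
    ∃ φ : OpenPartialHomeomorph E F, z0 ∈ φ.source ∧ φ.source ⊆ O ∧ (∀ z, φ z = G z) ∧
      ∀ y ∈ φ.target, ContDiffAt ℝ ∞ φ.symm y := by
  set A : E ≃L[ℝ] F := ContinuousLinearEquiv.ofBijective (fderiv ℝ G z0)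
    (LinearMap.ker_eq_bot.2 hb.1) (LinearMap.range_eq_top.2 hb.2) with hA
  have hA' : (A : E →L[ℝ] F) = fderiv ℝ G z0 := rfl
  have hd : HasFDerivAt G (A : E →L[ℝ] F) z0 :=
    ((hG z0 h0).differentiableAt (by simp)).hasFDerivAt
  set φ0 := (hG z0 h0).toOpenPartialHomeomorph G hd (by simp)
  have h1 : ∀ᶠ z in 𝓝 z0, z ∈ O ∧ fderiv ℝ G z ∈ range ((↑) : (E ≃L[ℝ] F) → E →L[ℝ] F) := by
    refine Filter.Eventually.and (hO.mem_nhds h0) ?_
    exact ((hG z0 h0).fderiv_right (m := ∞) (by simp)).continuousAt.eventually (A.nhds)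
  obtain ⟨O', h2, h3, h4⟩ := _root_.mem_nhds_iff.1 h1
  refine ⟨φ0.restrOpen O' h3, ⟨(hG z0 h0).mem_toOpenPartialHomeomorph_source hd (by simp), h4⟩,
    fun z hz => (h2 hz.2).1, fun z => rfl, fun y hy => ?_⟩
  have h5 := (φ0.restrOpen O' h3).map_target hy
  obtain ⟨h6, B, h7⟩ := h2 h5.2
  refine (φ0.restrOpen O' h3).contDiffAt_symm (f₀' := B) hy ?_ (hG _ h6)
  rw [h7]
  exact ((hG _ h6).differentiableAt (by simp)).hasFDerivAt

theorem surj4 (L : R4 →L[ℝ] E4) (h : Injective L) : Surjective L :=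
  (LinearMap.injective_iff_surjective_of_finrank_eq_finrank (f := (L : R4 →ₗ[ℝ] E4))
    (by simp)).1 h

variable {X : Type} [Cl4 X]

theorem ball_ex (p : X) {W : Set X} (hW : W ∈ 𝓝 p) : ∃ B : Set X, IsOpen B ∧ p ∈ B ∧ B ⊆ W ∧
    B ⊆ (chartAt E4 p).source ∧ Convex ℝ (chartAt E4 p '' B) := by
  set e := chartAt E4 p with he
  have hp : p ∈ e.source := mem_chart_source E4 p
  have h1 : e.target ∩ e.symm ⁻¹' W ∈ 𝓝 (e p) :=
    inter_mem (e.open_target.mem_nhds (e.map_source hp)) (tendsto_symm hp hW)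
  obtain ⟨r, hr, hb⟩ := Metric.mem_nhds_iff.1 h1
  have him : e '' (e.source ∩ e ⁻¹' ball (e p) r) = ball (e p) r := by
    refine Subset.antisymm ?_ fun z hz => ?_
    · rintro _ ⟨y, hy, rfl⟩
      exact hy.2
    · refine ⟨e.symm z, ⟨e.map_target (hb hz).1, ?_⟩, e.right_inv (hb hz).1⟩
      show e (e.symm z) ∈ ball (e p) r
      rwa [e.right_inv (hb hz).1]
  refine ⟨_, e.isOpen_inter_preimage isOpen_ball, ⟨hp, mem_ball_self hr⟩, fun y hy => ?_,
    inter_subset_left, him.symm ▸ convex_ball _ _⟩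
  have h2 : e.symm (e y) ∈ W := (hb hy.2).2
  rwa [e.left_inv hy.1] at h2

/-- charts whose coordinates are potentials of the coframe -/
def Good (θ : Fin 4 → Form X 1) (κ : OpenPartialHomeomorph X R4) : Prop :=
  (∀ y ∈ κ.source, ∀ i, SmF (fun y => κ y i) y ∧ d0 (fun y => κ y i) y = rf (θ i) y) ∧
    ∀ z ∈ κ.target, ContMDiffAt 𝓘(ℝ, R4) (𝓡 4) ∞ κ.symm z

theorem good_ex {θ : Fin 4 → Form X 1} (hθ : Cofr θ) (x : X) :
    ∃ κ, Good θ κ ∧ x ∈ κ.source := by
  obtain ⟨B, h1, h2, -, h4, h5⟩ := ball_ex x univ_mem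
  have hc := chart_mem_atlas E4 x
  choose f k1 k2 using fun i => exists_prim1 hc h1 h4 h5
    (fun y _ => (sc_iff.1 (hθ.1 i)).1 y) fun y _ => (sc_iff.1 (hθ.1 i)).2 y
  set c := chartAt E4 x with hcx
  let G : E4 → R4 := fun z i => f i (c.symm z)
  have hO : IsOpen (c.target ∩ c.symm ⁻¹' B) := c.isOpen_inter_preimage_symm h1
  have hG : ∀ z ∈ c.target ∩ c.symm ⁻¹' B, ContDiffAt ℝ ∞ G z := by
    intro z hz
    refine contDiffAt_pi.2 fun i => ?_
    have := (k1 i _ hz.2).chart hc (c.map_target hz.1)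
    rwa [c.right_inv hz.1] at this
  have hx : c x ∈ c.target ∩ c.symm ⁻¹' B :=
    ⟨c.map_source (h4 h2), by show c.symm (c x) ∈ B; rwa [c.left_inv (h4 h2)]⟩
  have hinj : Injective (fderiv ℝ G (c x)) := by
    refine (injective_iff_map_eq_zero _).2 fun v hv => hθ.2 x v fun i => ?_
    have h6 : fderiv ℝ G (c x) = ContinuousLinearMap.pi fun i => Df (f i) x :=
      fderiv_pi fun i => (k1 i x h2).diff
    rw [h6] at hv
    have h7 : Df (f i) x v = 0 := congrFun hv i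
    have h8 : d0 (f i) x ![v] = rf (θ i) x ![v] := by rw [k2 i x h2]
    exact h8.symm.trans h7
  have hb : Bijective (fderiv ℝ G (c x)) :=
    ⟨hinj, (LinearMap.injective_iff_surjective_of_finrank_eq_finrank
      (f := (fderiv ℝ G (c x) : E4 →ₗ[ℝ] R4)) (by simp)).1 hinj⟩
  obtain ⟨φ, p1, p2, p3, p4⟩ := ift hO hG hx hb
  refine ⟨c.trans φ, ⟨fun y hy i => ?_, fun z hz => ?_⟩, h4 h2, p1⟩
  · have hB : y ∈ B := by
      have h6 : c.symm (c y) ∈ B := (p2 hy.2).2
      rwa [c.left_inv hy.1] at h6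
    have he : (fun y => (c.trans φ) y i) =ᶠ[𝓝 y] f i := by
      filter_upwards [c.open_source.mem_nhds hy.1] with y' hy'
      show φ (c y') i = _
      rw [p3]
      show f i (c.symm (c y')) = _
      rw [c.left_inv hy']
    refine ⟨(k1 i y hB).congr_of_eventuallyEq he, ?_⟩
    rw [d0, Df_congr he]
    exact k2 i y hB
  · have h6 : ContMDiffAt (𝓡 4) (𝓡 4) ∞ c.symm (φ.symm z) :=
      contMDiffAt_symm_of_mem_maximalAtlas (IsManifold.subset_maximalAtlas hc) hz.2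
    exact h6.comp z (contMDiffAt_iff_contDiffAt.2 (p4 z hz.1))

theorem good_tr {θ : Fin 4 → Form X 1} {κ κ' : OpenPartialHomeomorph X R4} (h : Good θ κ)
    (h' : Good θ κ') {x : X} (hx : x ∈ κ.source) (hx' : x ∈ κ'.source) :
    ∀ᶠ y in 𝓝 x, κ' y - κ' x = κ y - κ x := by
  obtain ⟨B, h1, h2, h3, h4, h5⟩ := ball_ex x
    ((κ.open_source.inter κ'.open_source).mem_nhds ⟨hx, hx'⟩)
  have key : ∀ i, ∃ r : ℝ, ∀ y ∈ B, κ' y i - κ y i = r := fun i =>
    exists_const (chart_mem_atlas E4 x) h1 h4 h5 (f := fun y => κ' y i - κ y i)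
      (fun y hy => (h'.1 y (h3 hy).2 i).1.sub (h.1 y (h3 hy).1 i).1) fun y hy => by
        rw [d0, Df_sub (h'.1 y (h3 hy).2 i).1 (h.1 y (h3 hy).1 i).1, map_sub]
        exact sub_eq_zero.2 ((h'.1 y (h3 hy).2 i).2.trans (h.1 y (h3 hy).1 i).2.symm)
  filter_upwards [h1.mem_nhds h2] with y hy
  funext i
  obtain ⟨r, hr⟩ := key i
  have e1 := hr y hy
  have e2 := hr x h2
  simp only [Pi.sub_apply]
  linarith

end Cof

open Cof in
theorem cof : COF_statement := by
  intro X _ θ hθ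
  let T : TrA X R4 :=
    { A := {κ | Good θ κ}
      cov := fun x => good_ex hθ x
      tr := fun e he e' he' x hx hx' => good_tr he he' hx hx' }
  obtain ⟨u, A, hu, hs, hf⟩ := dev_torus (n := 4) (by simp) T
  have hA : ContMDiff 𝓘(ℝ, R4) 𝓘(ℝ, R4) ∞ A := A.contDiff.contMDiff
  have key : ∀ z, ContMDiffAt 𝓘(ℝ, R4) (𝓡 4) ∞ (fun w => u (A w)) z ∧
      Injective (dm4 (fun w => u (A w)) z) := by
    intro z
    obtain ⟨κ, hκ, hz⟩ := T.cov (u (A z))
    have h1 := A.continuous.continuousAt.eventually ((hu (A z)).all hκ hz)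
    have h2 : ∀ᶠ w in 𝓝 z, κ (u (A w)) = κ (u (A z)) + (A w - A z) := by
      filter_upwards [h1] with w hw
      rw [← hw.2]; abel
    have h3 : (fun w => u (A w)) =ᶠ[𝓝 z] fun w => κ.symm (κ (u (A z)) + (A w - A z)) := by
      filter_upwards [h1, h2] with w hw hw'
      rw [← hw', κ.left_inv hw.1]
    have h4 : ContMDiffAt 𝓘(ℝ, R4) (𝓡 4) ∞ (fun w => u (A w)) z := by
      refine ContMDiffAt.congr_of_eventuallyEq ?_ h3
      refine ContMDiffAt.comp z (g := κ.symm) (hκ.2 _ ?_) ?_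
      · simpa using κ.map_source hz
      · exact (contDiff_const.add (A.contDiff.sub contDiff_const)).contMDiff z
    refine ⟨h4, ?_⟩
    have h5 : ContMDiffAt (𝓡 4) 𝓘(ℝ, R4) ∞ κ (u (A z)) :=
      contMDiffAt_pi_space.2 fun i => (hκ.1 _ hz i).1
    have h6 := mfderiv_comp z (h5.mdifferentiableAt (by simp)) (h4.mdifferentiableAt (by simp))
    have h7 : HasFDerivAt (κ ∘ fun w => u (A w)) (A : R4 →L[ℝ] R4) z :=
      ((A.hasFDerivAt.sub_const (A z)).const_add (κ (u (A z)))).congr_of_eventuallyEq h2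
    rw [mfderiv_eq_fderiv, h7.fderiv] at h6
    intro a b hab
    refine A.injective ?_
    have ha := congrArg (fun L => L a) h6
    have hb := congrArg (fun L => L b) h6
    refine Eq.trans ha (Eq.trans ?_ hb.symm)
    exact congrArg (mfderiv (𝓡 4) 𝓘(ℝ, R4) κ (u (A z))) hab
  refine ⟨fun w => u (A w), fun z => (key z).1, fun z => ⟨(key z).2, ?_⟩, hs.comp A.surjective,
    fun x y => (hf _ _).trans ?_⟩
  · exact surj4 (mfderiv 𝓘(ℝ, R4) (𝓡 4) (fun w => u (A w)) z) (key z).2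
  · refine exists_congr fun k => ?_
    rw [← map_add, A.injective.eq_iff]
    rfl

end Vale.Agent.P247A
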