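import Vale.Agent.P247E.QSta
import Vale.Agent.P247A.Spec2

/-!
# P247, stage 2: the Euler number (rows of block NO on `QM`)
-/

set_option linter.all false

open scoped ContDiff Topology ENNReal ComplexConjugate
open Set MeasureTheory Filter

noncomputable section

namespace Vale.Agent.P247A

open Vale.Agent.P204.GX Vale.Agent.P204.T4 Vale.Agent.P247E
open Vale.Agent.P247.H74 (e)
open Vale.Agent.P247.H647 (Sp)

section defs

variable {X : Type} [MetricSpace X]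

/-- the Jacobian determinant of a section of `t1`, in the preferred chart -/
def jdet (Q : QM X) (φ : X → Sp) (x : X) : ℝ :=
  (Matrix.of fun c i => vec (fderiv ℝ (Q.t1.lo (Q.ch x) φ) (Q.cy x) (e i)) c).det

/-- smooth sections with nondegenerate zeros -/
def NDZ (Q : QM X) (φ : X → Sp) : Prop := φ ∈ Q.t1.Sm ∧ ∀ x, φ x = 0 → jdet Q φ x ≠ 0

open Classical in
/-- the signed number of zeros -/
def chi (Q : QM X) (φ : X → Sp) : ℤ :=
  ∑ᶠ x ∈ {x | φ x = 0}, if 0 < jdet Q φ x then (1 : ℤ) else -1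

/-- a basis of the second cohomology -/
structure H2Q (M : CM X) {r : ℕ} (c : Fin r → X → L2) : Prop where
  mem : ∀ i, c i ∈ M.Om
  closed : ∀ i a, Closed (M.cf a (c i))
  span : ∀ u ∈ M.Om, (∀ a, Closed (M.cf a u)) → ∃ (v : Fin r → ℝ) (η : X → V4), M.Sm1 η ∧
    u = ∑ i, v i • c i + M.dX η
  indep : ∀ (v : Fin r → ℝ) (η : X → V4), M.Sm1 η → ∑ i, v i • c i = M.dX η → v = 0

end defs

/-- `PHQ`: the theorem of Poincare and Hopf -/
def PHQ_statement : Prop := ForAllQ fun X _ _ _ _ _ Q _ => B1 Q.toCM →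
  ∀ (r : ℕ) (c : Fin r → X → L2), H2Q Q.toCM c →
  ∃ ε : ℤ, (ε = 1 ∨ ε = -1) ∧ ∀ φ, NDZ Q φ → chi Q φ = ε * (r + 2)

/-- `Z3Q`: divisibility by three -/
def Z3Q_statement : Prop := ForAllQ fun _ _ _ _ _ _ Q _ =>
  ∃ φ φ', NDZ Q φ ∧ NDZ Q φ' ∧ 3 ∣ chi Q φ + chi Q φ'

open Vale.Agent.P247X Vale.Agent.P247.SCY in
/-- `DICT3` -/
def DICT3_statement : Prop := ∀ (X : Type) [i : Cl4 X] (μ : HS.Form X 4), HS.Volume μ →
  ∀ w : Tri X, HS.Hypersymplectic μ w → B1Zero X → ∀ (r : ℕ) (c : Fin r → HS.Form X 2),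
  H2B μ c → ∃ (d : MetricSpace X) (_ : d.toPseudoMetricSpace.toUniformSpace.toTopologicalSpace =
      i.toTopologicalSpace) (Q : QM X) (c' : Fin r → X → L2), B1 Q.toCM ∧ H2Q Q.toCM c'

/-- `ASM3` -/
def ASM3_statement : Prop := PHQ_statement → Z3Q_statement → DICT3_statement → CHI3_statement

/-- `DEG0`: on the threefold product the local degrees of a smooth map add up to zero; here in the
form for nondegenerate zeros, `a k` and `y k` being the charts and the coordinates of the zeros -/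
def DEG0_statement : Prop := ∀ (X : Type) [MetricSpace X] [CompactSpace X] (M : CM X)
  (f : X × X × X → (V4 × V4 × V4)),
  (∀ a b c, ContDiff ℝ ∞ fun y : V4 × V4 × V4 => f (M.ψ a y.1, M.ψ b y.2.1, M.ψ c y.2.2)) →
  ∀ (ι : Type) [Fintype ι] (a : ι → M.A × M.A × M.A) (y : ι → V4 × V4 × V4),
  Function.Injective (fun k => (M.ψ (a k).1 (y k).1, M.ψ (a k).2.1 (y k).2.1,
    M.ψ (a k).2.2 (y k).2.2)) →
  (∀ x, f x = 0 ↔ ∃ k, x = (M.ψ (a k).1 (y k).1, M.ψ (a k).2.1 (y k).2.1,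
    M.ψ (a k).2.2 (y k).2.2)) →
  ∀ s : ι → ℝ, (∀ k, s k = (fderiv ℝ (fun z : V4 × V4 × V4 =>
    f (M.ψ (a k).1 z.1, M.ψ (a k).2.1 z.2.1, M.ψ (a k).2.2 z.2.2)) (y k)).det) →
  (∀ k, s k ≠ 0) → ∑ k, (SignType.sign (s k) : ℤ) = 0

end Vale.Agent.P247A
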