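import Vale.Agent.P247A.Dg2
import Vale.Agent.P247A.SpecQ

/-!
# P247, stage 2: row DEG0
-/

set_option linter.all false

open MeasureTheory Set Topology Filter Metric
open scoped ContDiff

noncomputable section

namespace Vale.Agent.P247A

namespace Dg

open Vale.Agent.P205.TI.Deg (sg)

variable {E F Y Z : Type} [NormedAddCommGroup E] [NormedSpace ℝ E] [TopologicalSpace Y]
  [NormedAddCommGroup F] [NormedSpace ℝ F] [TopologicalSpace Z]

theorem det_conj (e : F ≃L[ℝ] E) (g : E → E) (y : F) :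
    (fderiv ℝ (fun z => e.symm (g (e z))) y).det = (fderiv ℝ g (e y)).det := by
  have h : fderiv ℝ (fun z => e.symm (g (e z))) y =
      (e.symm : E →L[ℝ] F).comp ((fderiv ℝ g (e y)).comp (e : F →L[ℝ] E)) := by
    rw [← e.comp_right_fderiv, ← e.symm.comp_fderiv]
    rfl
  rw [h]
  exact LinearMap.det_conj (fderiv ℝ g (e y) : E →ₗ[ℝ] E) e.symm.toLinearEquiv

/-- change of the model space -/
def At.tr (M : At E Y) (e : F ≃L[ℝ] E) : At F Y where
  A := M.A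
  fA := M.fA
  ψ a y := M.ψ a (e y)
  ψo a := (M.ψo a).comp e.toHomeomorph.isOpenEmbedding
  τ a b y := e.symm (M.τ a b (e y))
  τ_spec a b y := fun ⟨z, hz⟩ => by rw [e.apply_symm_apply, M.τ_spec a b _ ⟨_, hz⟩]
  τ_diff a b y := fun ⟨z, hz⟩ => e.symm.differentiableAt.comp y
    ((M.τ_diff a b _ ⟨_, hz⟩).comp y e.differentiableAt)
  τ_det a b y := fun ⟨z, hz⟩ => by rw [det_conj]; exact M.τ_det a b _ ⟨_, hz⟩
  ζ := M.ζ
  ζ_sm a b := (M.ζ_sm a b).comp e.contDiff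
  ζ_sum := M.ζ_sum
  C a := e.symm '' M.C a
  C_cpt a := (M.C_cpt a).image e.symm.continuous
  ζ_supp a x hx := M.ζ_supp a x fun ⟨y, h1, h2⟩ =>
    hx ⟨e.symm y, mem_image_of_mem _ h1, by simp only [e.apply_symm_apply, h2]⟩

/-- products -/
def At.prod [FiniteDimensional ℝ E] [FiniteDimensional ℝ F] (M : At E Y) (N : At F Z) :
    At (E × F) (Y × Z) where
  A := M.A × N.A
  fA := inferInstance
  ψ a y := (M.ψ a.1 y.1, N.ψ a.2 y.2)
  ψo a := (M.ψo a.1).prodMap (N.ψo a.2)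
  τ a b := Prod.map (M.τ a.1 b.1) (N.τ a.2 b.2)
  τ_spec a b y := fun ⟨z, hz⟩ => Prod.ext (M.τ_spec _ _ _ ⟨_, congrArg Prod.fst hz⟩)
    (N.τ_spec _ _ _ ⟨_, congrArg Prod.snd hz⟩)
  τ_diff a b y := fun ⟨z, hz⟩ => (M.τ_diff _ _ _ ⟨_, congrArg Prod.fst hz⟩).prodMap y
    (N.τ_diff _ _ _ ⟨_, congrArg Prod.snd hz⟩)
  τ_det a b y := fun ⟨z, hz⟩ => by
    rw [((M.τ_diff _ _ _ ⟨_, congrArg Prod.fst hz⟩).hasFDerivAt.prodMap y
      (N.τ_diff _ _ _ ⟨_, congrArg Prod.snd hz⟩).hasFDerivAt).fderiv]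
    exact (mul_pos (M.τ_det _ _ _ ⟨_, congrArg Prod.fst hz⟩)
      (N.τ_det _ _ _ ⟨_, congrArg Prod.snd hz⟩)).trans_eq (LinearMap.det_prodMap _ _).symm
  ζ a x := M.ζ a.1 x.1 * N.ζ a.2 x.2
  ζ_sm a b := ((M.ζ_sm a.1 b.1).comp contDiff_fst).mul ((N.ζ_sm a.2 b.2).comp contDiff_snd)
  ζ_sum x := by
    rw [Fintype.sum_prod_type]
    simp only [← Finset.mul_sum, N.ζ_sum, mul_one, M.ζ_sum]
  C a := M.C a.1 ×ˢ N.C a.2
  C_cpt a := (M.C_cpt _).prod (N.C_cpt _)
  ζ_supp a x hx := by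
    by_contra c
    obtain ⟨y, h1, h2⟩ : x.1 ∈ M.ψ a.1 '' M.C a.1 :=
      by_contra fun k => left_ne_zero_of_mul c (M.ζ_supp _ _ k)
    obtain ⟨z, h3, h4⟩ : x.2 ∈ N.ψ a.2 '' N.C a.2 :=
      by_contra fun k => right_ne_zero_of_mul c (N.ζ_supp _ _ k)
    exact hx ⟨(y, z), ⟨h1, h3⟩, Prod.ext h2 h4⟩

/-- the signed number of zeros of a smooth map to the model space vanishes -/
theorem At.deg0 [FiniteDimensional ℝ E] [T2Space Y] (M : At E Y) (hn : 0 < Module.finrank ℝ E)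
    {f : Y → E} (h : ∀ a, ContDiff ℝ ∞ fun y => f (M.ψ a y)) {ι : Type} [Fintype ι] (a : ι → M.A)
    (y : ι → E) (inj : Function.Injective fun k => M.ψ (a k) (y k))
    (hz : ∀ x, f x = 0 ↔ ∃ k, x = M.ψ (a k) (y k))
    (hd : ∀ k, (fderiv ℝ (fun z => f (M.ψ (a k) z)) (y k)).det ≠ 0) :
    ∑ k, sg (fderiv ℝ (fun z => f (M.ψ (a k) z)) (y k)).det = 0 := by
  let e : (Fin (Module.finrank ℝ E) → ℝ) ≃L[ℝ] E :=
    (Module.finBasis ℝ E).equivFunL.symm
  have d : ∀ k, (fderiv ℝ (fun z => e.symm (f ((M.tr e).ψ (a k) z))) (e.symm (y k))).det =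
      (fderiv ℝ (fun z => f (M.ψ (a k) z)) (y k)).det := fun k => by
    have := det_conj e (fun z => f (M.ψ (a k) z)) (e.symm (y k))
    rwa [e.apply_symm_apply] at this
  have p : ∀ k, (M.tr e).ψ (a k) (e.symm (y k)) = M.ψ (a k) (y k) := fun k =>
    congrArg (M.ψ (a k)) (e.apply_symm_apply _)
  have := At.Sm.deg0 (M := M.tr e) (f := fun x => e.symm (f x)) hn
    (fun b => e.symm.contDiff.comp ((h b).comp e.contDiff)) a (fun k => e.symm (y k))
    (by simpa only [p] using inj) (fun x => by simpa only [p, map_eq_zero_iff _ e.symm.injective] using hz x)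
    fun k => by rw [d]; exact hd k
  simpa only [d] using this

open Vale.Agent.P204.GX Vale.Agent.P204.T4 in
/-- the atlas of a chart model -/
def ofCM {X : Type} [MetricSpace X] (M : CM X) : At V4 X where
  A := M.A
  fA := M.fA
  ψ := M.ψ
  ψo := M.ψo
  τ := M.τ
  τ_spec := M.τ_spec
  τ_diff a b y hy :=
    ((M.τ_smooth a b).contDiffAt ((M.isOpen_O a b).mem_nhds hy)).differentiableAt (by simp)
  τ_det a b y hy := by
    rw [det_fderiv_eq (((M.τ_smooth a b).contDiffAt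
      ((M.isOpen_O a b).mem_nhds hy)).differentiableAt (by simp))]
    exact M.det_Dt_pos hy
  ζ := M.zeta
  ζ_sm := M.sm0_zeta
  ζ_sum := M.sum_zeta
  C _ := closedBall 0 2
  C_cpt _ := isCompact_closedBall _ _
  ζ_supp a x hx := M.zeta_eq_zero a fun h => hx (image_mono ball_subset_closedBall h)

end Dg

theorem deg0 : DEG0_statement := by
  intro X _ _ M f hf ι _ a y inj hz s hs h0
  have := ((Dg.ofCM M).prod ((Dg.ofCM M).prod (Dg.ofCM M))).deg0 (by simp) (f := f)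
    (fun b => hf b.1 b.2.1 b.2.2) a y inj hz fun k => by
      have := h0 k
      rwa [hs] at this
  simp only [hs]
  exact this

end Vale.Agent.P247A
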