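import Vale.Agent.P247A.Dic3
import Vale.Agent.P247W.Mod4

/-!
# P247, stage 2: the dictionary (first cohomology, `b⁺`, pairings), rows `DICT3`, `MOD4`
-/

set_option linter.all false

open scoped ContDiff Topology Manifold ComplexConjugate
open Set Filter MeasureTheory

noncomputable section

namespace Vale.Agent.P247A

open Vale.Agent.P204.T4 Vale.Agent.P204.Mfd Vale.Agent.P247.SCY Vale.Agent.P204.GX
open Vale.Agent.P247E Vale.Agent.P247W
open Vale.Agent.P247X (LB B1Zero Cl4 Tri SC Cont DOn Coh lc Jw dfc dm4)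
open Vale.Agent.P247.H74 (e)

section
variable {X : Type} [MetricSpace X] [ChartedSpace E4 X] [IsManifold (𝓡 4) ∞ X]

namespace Mod

variable {M : CM X} (D : Mod M)

theorem darg_eq {g : X → ℂ} (hg : ContMDiff (𝓡 4) 𝓘(ℝ, ℂ) ∞ g) (x : X) (c : Fin 4) :
    darg M g x c = 2 * Real.pi * ang g x (D.fr x (e c)) := by
  rw [darg, D.df_eq (hg x)]
  exact (mul_div_cancel₀ _ (by positivity)).symm

theorem dp_df {f : X → ℝ} (hf : SmR f) (x : X) (v : V4) :
    dp (df M f x) v = dfr f x (D.fr x v) := by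
  have h : df M f x = fun c => (ContinuousLinearMap.comp (mfderiv (𝓡 4) 𝓘(ℝ, ℝ) f x :
      E4 →L[ℝ] ℝ) (D.fr x)) (e c) := funext fun c => D.df_eq (hf x) c
  rw [h]; exact dp_lin _ v

theorem dp_darg {g : X → ℂ} (hg : ContMDiff (𝓡 4) 𝓘(ℝ, ℂ) ∞ g) (x : X) (v : V4) :
    dp (darg M g x) v = 2 * Real.pi * ang g x (D.fr x v) := by
  have h : darg M g x = fun c => (((Complex.imCLM.comp (ContinuousLinearMap.mul ℝ ℂ
      (conj (g x)))).comp (mfderiv (𝓡 4) 𝓘(ℝ, ℂ) g x : E4 →L[ℝ] ℂ)).comp (D.fr x)) (e c) :=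
    funext fun c => by rw [darg, D.df_eq (hg x)]; rfl
  rw [h]
  exact (dp_lin _ v).trans (mul_div_cancel₀ _ (by positivity)).symm

theorem dp_sum {ι : Type} (s : Finset ι) (h : ι → ℝ) (η : ι → V4) (v : V4) :
    dp (fun c => ∑ i ∈ s, h i * η i c) v = ∑ i ∈ s, h i * dp (η i) v := by
  simp only [dp, Finset.sum_mul, Finset.mul_sum, mul_assoc]
  exact Finset.sum_comm

/-- the basis of the first cohomology on the model -/
def h1q {b : ℕ} (B : H1B X b) : H1Q M b where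
  g := B.g
  sm i := D.smF.1 (B.circ i).1
  nm i := (B.circ i).2
  span η h1 h2 := by
    obtain ⟨h, f, hf, k⟩ := B.span (D.b1 η) (D.sc1.2 (by rw [t1_b1]; exact ⟨h1, h2⟩))
    refine ⟨fun i => h i / (2 * Real.pi), f, D.smF.1 hf, fun x c => ?_⟩
    have h3 := D.t1_apply (D.b1 η) x c
    rw [t1_b1] at h3
    refine (h3.trans (k x _)).trans (congrArg₂ (· + ·) (Finset.sum_congr rfl fun i _ => ?_)
      (D.df_eq (hf x) c).symm)
    rw [D.darg_eq (B.circ i).1, ← mul_assoc, div_mul_cancel₀ _ (by positivity)]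
  indep h f hf k := by
    have h1 := B.indep (fun i => h i * (2 * Real.pi)) f (D.smF.2 hf) fun x (v : E4) => by
      have h2 := D.dp_df (D.smF.2 hf) x (D.co x v)
      rw [← funext (k x), dp_sum, D.fr_co] at h2
      refine Eq.trans (Finset.sum_congr rfl fun i _ => ?_) h2
      rw [D.dp_darg (B.circ i).1, D.fr_co, mul_assoc]
    funext i
    exact (mul_eq_zero.1 (congrFun h1 i)).resolve_right (by positivity)
  lat u h1 h2 := by
    obtain ⟨m, f, hf, k⟩ := B.lat u ⟨D.smF.2 h1, h2⟩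
    refine ⟨m, fun x => 2 * Real.pi * f x, fun a => contDiff_const.mul (D.smF.1 hf a), fun x c => ?_⟩
    rw [df_cmul _ (D.smF.1 hf), D.darg_eq (D.smF.2 h1), k x (D.fr x (e c)), mul_add, Finset.mul_sum]
    refine congrArg₂ (· + ·) (Finset.sum_congr rfl fun i _ => ?_)
      (congrArg (2 * Real.pi * ·) (D.df_eq (hf x) c).symm)
    rw [D.darg_eq (B.circ i).1, mul_left_comm]

theorem t2_cup {g g' : X → ℂ} {β : HS.Form X 2} (hg : Circ g) (hg' : Circ g') (h : IsCup g g' β) :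
    (fun x => wd (darg M g x) (darg M g' x)) = (4 * Real.pi ^ 2) • D.t2 β := by
  funext x
  apply ext_ev
  intro v w
  rw [Pi.smul_apply, ev_smul, ev_wd, D.ev_t2, D.dp_darg hg.1, D.dp_darg hg.1, D.dp_darg hg'.1,
    D.dp_darg hg'.1]
  exact Eq.trans (by ring) (congrArg (4 * Real.pi ^ 2 * ·) (h x (D.fr x v) (D.fr x w))).symm

variable [CompactSpace X] [MeasurableSpace X] [BorelSpace X]

theorem bp3_iff {μ : HS.Form X 4} (hμ : HS.Smooth μ) (h0 : ∀ x, 0 < D.hx μ x) :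
    BP3 M ↔ HS.BPlusLe3 μ := by
  refine not_congr ⟨fun ⟨c, h1, h2⟩ => ⟨fun i => D.b2 (c i), fun i =>
    D.sc2.2 (by rw [t2_b2]; exact h1 i), ?_⟩, fun ⟨c, h1, h2⟩ => ⟨fun i => D.t2 (c i),
      fun i => D.sc2.1 (h1 i), ?_⟩⟩
  · simpa only [D.pair_eq hμ h0, t2_b2] using h2
  · simpa only [D.pair_eq hμ h0] using h2

theorem h2q {μ : HS.Form X 4} (hμ : HS.Smooth μ) (h0 : ∀ x, 0 < D.hx μ x) {r : ℕ}
    {c : Fin r → HS.Form X 2} (hc : H2B μ c) : H2Q M fun k => D.t2 (c k) := by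
  refine ⟨fun k => (D.sc2.1 (hc.sc k)).1, fun k => (D.sc2.1 (hc.sc k)).2, fun u hu hcl => ?_,
    fun v η hη h => ?_⟩
  · obtain ⟨v, hv⟩ := hc.span (D.b2 u) (D.sc2.2 (by rw [D.t2_b2]; exact ⟨hu, hcl⟩))
    obtain ⟨η, h1, h2⟩ := D.exact2.1 hv
    rw [D.t2_sub, D.t2_b2, D.t2_lc] at h2
    exact ⟨v, η, h1, by rw [← h2, add_sub_cancel]⟩
  · refine Matrix.eq_zero_of_vecMul_eq_zero hc.nondeg (funext fun j => ?_)
    have h1 := D.sc2.1 (hc.sc j)
    have h2 := pr_dX hη h1.1 h1.2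
    rw [← h, pr_sum _ (fun k => (D.sc2.1 (hc.sc k)).1) v h1.1] at h2
    refine Eq.trans ?_ h2
    simp only [Matrix.vecMul, dotProduct, Matrix.of_apply]
    exact Finset.sum_congr rfl fun k _ => congrArg (v k * ·) (D.pair_eq hμ h0 (c k) (c j))

omit D in
theorem pr_smul (t s : ℝ) (u v : X → L2) : M.pr (t • u) (s • v) = t * s * M.pr u v := by
  unfold CM.pr
  rw [← integral_const_mul]
  congr 1
  funext x
  simp only [P204.T4.Q, Pi.smul_apply, smul_eq_mul]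
  ring

variable {D} {L : LB X} {i : M.A → Fin L.n} (hi : D.Sub L i) {μ : HS.Form X 4}
  (hμ : HS.Smooth μ) (h0 : ∀ x, 0 < D.hx μ x)

include hμ h0

theorem Sub.pr_F (t : ℝ) (β : HS.Form X 2) :
    M.pr hi.lb.F (t • D.t2 β) = 2 * Real.pi * t * HS.pair μ L.F β := by
  rw [hi.lb_F, pr_smul, D.pair_eq hμ h0]

theorem Sub.pr_FF : M.pr hi.lb.F hi.lb.F = 4 * Real.pi ^ 2 * HS.pair μ L.F L.F := by
  conv_lhs => enter [3]; rw [hi.lb_F]
  rw [hi.pr_F hμ h0]; ring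

theorem Sub.pr_cup {g g' : X → ℂ} {β : HS.Form X 2} (hg : Circ g) (hg' : Circ g')
    (h : IsCup g g' β) : M.pr hi.lb.F (fun x => wd (darg M g x) (darg M g' x)) =
      8 * Real.pi ^ 3 * HS.pair μ L.F β := by
  rw [D.t2_cup hg hg' h, hi.pr_F hμ h0]; ring

end Mod

namespace Dic

variable [CompactSpace X] [MeasurableSpace X] [BorelSpace X] {μ : HS.Form X 4} {w : Tri X}
  {Q : QM X} {D : Dic μ w Q} {L : LB X} {i : Q.A → Fin L.n} (hi : D.Sub L i) (hμ : HS.Smooth μ)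

include hμ

theorem pr_w0 : Q.pr hi.lb.F (Q.w 0) = 2 * Real.pi * HS.pair μ L.F (w 2) := by
  rw [D.w0, ← one_smul ℝ (D.t2 _), hi.pr_F hμ D.hx_pos, mul_one]

theorem pr_w1 : Q.pr hi.lb.F (Q.w 1) = 2 * Real.pi * HS.pair μ L.F (w 0) := by
  rw [D.w1, ← one_smul ℝ (D.t2 _), hi.pr_F hμ D.hx_pos, mul_one]

theorem pr_w2 : Q.pr hi.lb.F (Q.w 2) = 2 * Real.pi * D.ε * HS.pair μ L.F (w 1) := by
  rw [D.w2, hi.pr_F hμ D.hx_pos]

end Dic

end

/-- `DICT3` together with `b⁺` -/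
theorem dict3' (X : Type) [i : Cl4 X] (μ : HS.Form X 4) (hμ : HS.Volume μ) (w : Tri X)
    (hw : HS.Hypersymplectic μ w) : ∃ (d : MetricSpace X)
      (_ : d.toPseudoMetricSpace.toUniformSpace.toTopologicalSpace = i.toTopologicalSpace)
      (Q : QM X), (B1Zero X → B1 Q.toCM) ∧ (∀ b, H1B X b → Nonempty (H1Q Q.toCM b)) ∧
      (∀ (r : ℕ) (c : Fin r → HS.Form X 2), H2B μ c → ∃ c' : Fin r → X → L2, H2Q Q.toCM c') ∧
      (BP3 Q.toCM ↔ HS.BPlusLe3 μ) := by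
  obtain ⟨A, Q, D, -, -⟩ := exists_dic hw (fun _ : Unit => univ) (fun _ => isOpen_univ)
    fun _ => ⟨(), trivial⟩
  letI := A.metric
  exact ⟨A.metric, rfl, Q, D.b1_of, fun b B => ⟨D.h1q B⟩,
    fun r c hc => ⟨_, D.h2q hμ.smooth D.hx_pos hc⟩, D.bp3_iff hμ.smooth D.hx_pos⟩

theorem mod4 : MOD4_statement := by
  intro X _ μ hμ hb w hw b B
  obtain ⟨A, Q, D, -, -⟩ := exists_dic hw (fun _ : Unit => univ) (fun _ => isOpen_univ)
    fun _ => ⟨(), trivial⟩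
  letI := A.metric
  exact mod4Q (D.h1q B) ((D.bp3_iff hμ.smooth D.hx_pos).2 hb)

end Vale.Agent.P247A
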