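import Vale.Agent.P247A.Spec2
import Vale.Agent.P247M.H1

/-!
# P247, stage 2, row `H1Z + CUP`
-/

set_option linter.all false

open scoped Manifold ContDiff Topology ComplexConjugate
open Set Filter

noncomputable section

namespace Vale.Agent.P247A

open Vale.Agent.P247X Vale.Agent.P247.SCY Vale.Agent.P247.SCY.HS Vale.Agent.P247M
open Vale.Agent.P267.H175 (SmAt dF)
open Vale.Agent.P267
open Vale.Agent.P247C (dArg dArg_apply smAt_dArg dF_dArg)

namespace H1z

variable {X : Type} [Cl4 X]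

theorem ang_eq {g : X → ℂ} {x : X} (h : SmC g x) (v : E4) :
    ang g x v = (2 * Real.pi)⁻¹ * dArg g x ![v] := by
  rw [dArg_apply h, ← div_eq_inv_mul]
  rfl

theorem dfr_eq {f : X → ℝ} {x : X} (h : SmF f x) (v : E4) : dfr f x v = d0 f x ![v] :=
  mfderiv_eq_Df h v

theorem a_apply (B : P247M.H1B X) (i : Fin B.b) (x : X) (v : E4) :
    B.a i x ![v] = ang (B.g i) x v := by
  rw [B.a_eq, ang_eq (B.sm i x)]
  rfl

theorem suma (B : P247M.H1B X) (t : Fin B.b → ℝ) (x : X) (v : E4) :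
    (∑ i, t i • B.a i) x ![v] = ∑ i, t i * ang (B.g i) x v := by
  rw [Finset.sum_apply, ContinuousAlternatingMap.sum_apply]
  refine Finset.sum_congr rfl fun i _ => ?_
  rw [← a_apply]
  rfl

/-- two local arguments of a circle valued function -/
theorem exists_arg {g : X → ℂ} (h : ∀ x, SmC g x) (n : ∀ x, ‖g x‖ = 1) :
    ∃ (U : Bool → Set X) (t : Bool → X → ℝ), (∀ i, IsOpen (U i)) ∧ (∀ x, ∃ i, x ∈ U i) ∧
      (∀ i, ∀ x ∈ U i, SmF (t i) x) ∧ ∀ i, ∀ x ∈ U i, eI (t i) x = g x := by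
  have hc : Continuous g := continuous_iff_continuousAt.2 fun x => (h x).continuousAt
  have key : ∀ {u : X → ℂ} {x : X}, SmC u x → u x ∈ Complex.slitPlane →
      SmF (fun y => Complex.arg (u y)) x := fun {u x} hu hx => by
    have h1 : ContDiffAt ℝ ∞ Complex.log (u x) :=
      (Complex.contDiffAt_log hx (n := ∞)).restrict_scalars ℝ
    have h2 : SmC (fun y => Complex.log (u y)) x := h1.comp_contMDiffAt hu
    simpa only [Complex.log_im] using h2.im
  have e1 : ∀ z : ℂ, ‖z‖ = 1 → Complex.exp ((Complex.arg z : ℂ) * Complex.I) = z := fun z hz => by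
    have := Complex.norm_mul_exp_arg_mul_I z
    rwa [hz, Complex.ofReal_one, one_mul] at this
  refine ⟨fun i => cond i {x | g x ∈ Complex.slitPlane} {x | -g x ∈ Complex.slitPlane},
    fun i => cond i (fun x => Complex.arg (g x)) fun x => Complex.arg (-g x) + Real.pi,
    fun i => ?_, fun x => ?_, fun i x hx => ?_, fun i x hx => ?_⟩
  · cases i
    · exact Complex.isOpen_slitPlane.preimage hc.neg
    · exact Complex.isOpen_slitPlane.preimage hc
  · have h0 : g x ≠ 0 := norm_ne_zero_iff.1 (by rw [n]; exact one_ne_zero)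
    rcases Complex.mem_slitPlane_or_neg_mem_slitPlane h0 with h1 | h1
    · exact ⟨true, h1⟩
    · exact ⟨false, h1⟩
  · cases i
    · exact (key (u := fun y => -g y) (h x).neg hx).add contMDiffAt_const
    · exact key (h x) hx
  · cases i
    · show Complex.exp (((Complex.arg (-g x) + Real.pi : ℝ) : ℂ) * Complex.I) = g x
      rw [Complex.ofReal_add, add_mul, Complex.exp_add, e1 _ (by rw [norm_neg, n]),
        Complex.exp_pi_mul_I]
      ring
    · exact e1 _ (n x)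

/-- a continuous integer valued function is locally constant -/
theorem ev_floor {f : X → ℝ} {x : X} (hf : ContinuousAt f x)
    (h : ∀ᶠ y in 𝓝 x, ((⌊f y⌋ : ℤ) : ℝ) = f y) : ∀ᶠ y in 𝓝 x, ⌊f y⌋ = ⌊f x⌋ := by
  have h1 : ∀ᶠ y in 𝓝 x, f y ∈ Metric.ball (f x) 1 := hf (Metric.ball_mem_nhds _ one_pos)
  filter_upwards [h, h1] with y h2 h3
  rw [Metric.mem_ball, Real.dist_eq, ← h2, ← h.self_of_nhds, ← Int.cast_sub, ← Int.cast_abs] at h3
  have h4 : |⌊f y⌋ - ⌊f x⌋| < 1 := by exact_mod_cast h3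
  exact sub_eq_zero.1 (Int.abs_lt_one_iff.1 h4)

/-- the product of the two angular forms -/
def cupF (g g' : X → ℂ) : RF X 2 := fun x =>
  ((2 * Real.pi)⁻¹ * (2 * Real.pi)⁻¹) • wd (unone (dArg g x)) (dArg g' x)

theorem isCup {g g' : X → ℂ} (h : ∀ x, SmC g x) (h' : ∀ x, SmC g' x) :
    IsCup g g' (hs (cupF g g')) := fun x (u v : E4) => by
  rw [ang_eq (h x) u, ang_eq (h x) v, ang_eq (h' x) u, ang_eq (h' x) v]
  show (2 * Real.pi)⁻¹ * (2 * Real.pi)⁻¹ * wd (unone (dArg g x)) (dArg g' x) ![u, v] = _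
  rw [wd_one', unone_apply, unone_apply]
  ring

theorem isChern {g g' : X → ℂ} (h : ∀ x, SmC g x) (n : ∀ x, ‖g x‖ = 1) (h' : ∀ x, SmC g' x)
    (n' : ∀ x, ‖g' x‖ = 1) : IsChern (hs (cupF g g')) := by
  obtain ⟨U, t, opn, cov, sm, ex⟩ := exists_arg h n
  have pi0 : 2 * Real.pi ≠ 0 := Real.two_pi_pos.ne'
  let s : Bool → X → ℝ := fun i y => (2 * Real.pi)⁻¹ * t i y
  have ss : ∀ i, ∀ x ∈ U i, SmF (s i) x := fun i x hx => contMDiffAt_const.mul (sm i x hx)
  have hint : ∀ i j, ∀ x ∈ U i ∩ U j, ((⌊s i x - s j x⌋ : ℤ) : ℝ) = s i x - s j x := by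
    intro i j x hx
    have h1 := (ex i x hx.1).trans (ex j x hx.2).symm
    rw [eI, eI, Complex.exp_eq_exp_iff_exists_int] at h1
    obtain ⟨m, h1⟩ := h1
    have h2 := congrArg Complex.im h1
    simp only [Complex.mul_im, Complex.ofReal_re, Complex.I_im, Complex.ofReal_im, Complex.I_re,
      Complex.add_im, Complex.mul_re, Complex.intCast_re, Complex.intCast_im, Complex.re_ofNat,
      Complex.im_ofNat] at h2
    have h3 : s i x - s j x = m := by
      simp only [s]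
      field_simp
      linarith
    rw [h3, Int.floor_intCast]
  have hev : ∀ i j, ∀ x ∈ U i ∩ U j, (fun y => g' y ^ ⌊s i y - s j y⌋) =ᶠ[𝓝 x]
      fun y => g' y ^ ⌊s i x - s j x⌋ := fun i j x hx => by
    filter_upwards [ev_floor (f := fun y => s i y - s j y)
      ((ss i x hx.1).sub (ss j x hx.2)).continuousAt
      (eventually_of_mem (((opn i).inter (opn j)).mem_nhds hx) (hint i j))] with y hy
    rw [hy]
  have s1 := fun x => smAt_dArg isOpen_univ (fun y _ => h' y) (mem_univ x)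
  have s2 := fun x => dF_dArg isOpen_univ (fun y _ => h' y) (fun y _ => n' y) (mem_univ x)
  let A : Bool → RF X 1 := fun i y => s i y • dArg g' y
  have hA : ∀ i, ∀ x ∈ U i, SmAt (A i) x := fun i x hx => smAt_fsmul (ss i x hx) (s1 x)
  have dA : ∀ i, ∀ x ∈ U i, dF (A i) x = (2 * Real.pi) • cupF g g' x := fun i x hx => by
    have h1 : g =ᶠ[𝓝 x] eI (t i) := by
      filter_upwards [(opn i).mem_nhds hx] with y hy using (ex i y hy).symm
    rw [dF_fsmul (ss i x hx) (s1 x), s2, smul_zero, add_zero, Df_const_mul _ (sm i x hx),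
      wd_smul_left, cupF, smul_smul, dArg_congr h1 (smC_eI (sm i x hx)), dArg_eI (sm i x hx), d0,
      unone_one, mul_inv_cancel_left₀ pi0]
  have hF : ∀ i, ∀ x ∈ U i, cupF g g' =ᶠ[𝓝 x] (2 * Real.pi)⁻¹ • dF (A i) := fun i x hx => by
    filter_upwards [(opn i).mem_nhds hx] with y hy
    rw [Pi.smul_apply, dA i y hy, smul_smul, inv_mul_cancel₀ pi0, one_smul]
  have hsc : SC (hs (cupF g g')) := sc_iff.2 ⟨fun x => by
      obtain ⟨i, hi⟩ := cov x
      exact ((H175.smAt_dF (opn i) (hA _) hi).smul _).congr (hF i x hi), fun x => by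
      obtain ⟨i, hi⟩ := cov x
      rw [rf_hs, H175.dF_congr (hF i x hi), H175.dF_smul, H175.dF_dF (opn i) (hA _) hi, smul_zero]⟩
  refine ⟨mkLB (Fintype.equivFin Bool).symm U opn cov (fun i j y => g' y ^ ⌊s i y - s j y⌋)
    (fun i j x hx => ((circ_zpow h' n' _).1 x).congr_of_eventuallyEq (hev i j x hx))
    (fun i j x _ => (circ_zpow h' n' _).2.1 x) (fun i j k x hx => ?_) A hA (fun i j x hx v => ?_)
    _ hsc dA, rfl⟩
  · have h0 : g' x ≠ 0 := norm_ne_zero_iff.1 (by rw [n']; exact one_ne_zero)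
    rw [← zpow_add₀ h0]
    congr 1
    have h1 := hint i j x hx.1
    have h2 := hint j k x ⟨hx.1.2, hx.2⟩
    have h3 := hint i k x ⟨hx.1.1, hx.2⟩
    have h4 : ((⌊s i x - s j x⌋ + ⌊s j x - s k x⌋ : ℤ) : ℝ) = (⌊s i x - s k x⌋ : ℤ) := by
      rw [Int.cast_add, h1, h2, h3]
      ring
    exact_mod_cast h4
  · rw [dfc_congr (hev i j x hx), ← dArg_apply ((circ_zpow h' n' _).1 x), (circ_zpow h' n' _).2.2,
      hint i j x hx]
    show s i x * dArg g' x ![v] - s j x * dArg g' x ![v] = (s i x - s j x) * dArg g' x ![v]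
    ring

end H1z

open H1z

theorem h1z : H1Z_statement := by
  intro X _
  obtain ⟨B⟩ := exists_h1b X
  refine ⟨B.b, ⟨⟨B.g, fun i => ⟨B.sm i, B.nm i⟩, fun θ hθ => ?_, fun h f hf H => ?_,
    fun u hu => ?_⟩⟩⟩
  · obtain ⟨t, f, h1, h2⟩ := B.span (rf θ) (sc_iff.1 hθ).1 (sc_iff.1 hθ).2
    refine ⟨t, f, h1, fun x v => ?_⟩
    rw [dfr_eq (h1 x) v, h2, ← suma B t x v]
    show rf θ x ![v] = (∑ i, t i • B.a i) x ![v] + (rf θ x ![v] - (∑ i, t i • B.a i) x ![v])
    ring
  · refine B.ind h ⟨f, hf, funext fun x => alt1_ext fun v => ?_⟩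
    exact (dfr_eq (hf x) v).symm.trans ((H x v).symm.trans (suma B h x v).symm)
  · obtain ⟨m, f, h1, h2⟩ := B.int u hu.1 hu.2
    refine ⟨m, f, h1, fun x v => ?_⟩
    rw [dfr_eq (h1 x) v, h2, ← suma B (fun i => (m i : ℝ)) x v, ang_eq (hu.1 x) v]
    show _ = (∑ i, (m i : ℝ) • B.a i) x ![v] + ((2 * Real.pi)⁻¹ * dArg u x ![v] -
      (∑ i, (m i : ℝ) • B.a i) x ![v])
    ring

theorem cup : CUP_statement := by
  intro X _ μ g g' h h'
  obtain ⟨L, hL⟩ := isChern h.1 h.2 h'.1 h'.2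
  have hc : IsCup g g' L.F := hL ▸ isCup h.1 h'.1
  refine ⟨L, hc, ?_⟩
  have h0 : ∀ x, quot μ L.F L.F x = 0 := fun x => by
    have h1 : wedge (L.F x) (L.F x) (tbas x) = 0 := by
      simp only [wedge, hc x]
      ring
    rw [quot, h1, zero_div]
  simp only [pair, h0, MeasureTheory.integral_zero]

end Vale.Agent.P247A
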