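import Vale.Agent.P247D.Brg
import Vale.Agent.P247C.Dec
import Vale.Agent.P247C.Irr
import Vale.Agent.P247C.Emb
import Vale.Agent.P247L.LX

/-!
# P247, stage 2: rows IRR1 and TORX
-/

set_option linter.all false

open scoped Manifold ContDiff Topology
open Set

noncomputable section

namespace Vale.Agent.P247A

open Vale.Agent.P247X Vale.Agent.P247.SCY Vale.Agent.P247.SCY.HS

theorem irr1 : IRR1_statement := by
  intro X _ μ hμ w hw L ns T hT hc
  obtain ⟨m, K, k, k1, -, k3⟩ := P247C.dec X μ hμ w hw T hT.toPCur (P247L.LSXX X μ hμ w hw T hT)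
  choose n hn using fun i => P247D.irr_cls hμ hw ns (K i)
  have a : ∀ i, (K i).T (w 2) = n i * pair μ L.F (w 2) := fun i => by
    rw [(hn i).2 _ (hyp_sc hw 2), pair_smul_left]
  have p : ∀ i, 1 ≤ n i := fun i => by
    have := (P247C.irr X μ hμ w hw (K i)).2.1
    rw [a] at this
    exact_mod_cast (show (0 : ℤ) < n i by exact_mod_cast (mul_pos_iff_of_pos_right ns.h2).1 this)
  have e := k3 _ (hyp_sc hw 2).cont
  rw [hc.2 _ (hyp_sc hw 2)] at e
  simp only [a, ← mul_assoc, ← Finset.sum_mul] at e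
  have e' : ∑ i, (k i : ℤ) * n i = 1 := by
    exact_mod_cast (mul_right_cancel₀ ns.h2.ne' ((one_mul _).trans e)).symm
  have q : ∀ i, n i ≤ (k i : ℤ) * n i := fun i =>
    le_mul_of_one_le_left (by linarith [p i]) (by exact_mod_cast k1 i)
  obtain ⟨i, -, -⟩ := Finset.exists_ne_zero_of_sum_ne_zero (e'.trans_ne one_ne_zero)
  have := Finset.single_le_sum (f := fun i => (k i : ℤ) * n i)
    (fun j _ => by linarith [p j, q j]) (Finset.mem_univ i)
  have h1 : n i = 1 := by linarith [p i, q i]
  refine ⟨K i, ?_⟩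
  simpa [h1] using hn i

theorem torx : TORX_statement := P247D.torx_of P247C.emb

end Vale.Agent.P247A
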