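import Vale.Agent.P247A.Move
import Vale.Agent.P247I.Even

/-!
# P247, stage two: the rows LATT and MOVE without hypotheses
-/

namespace Vale.Agent.P247A

theorem move : MOVE_statement := move_of P247I.even

theorem latt : LATT_statement := latt_of P247I.even

end Vale.Agent.P247A
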