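import Vale.Agent.P247A.Trf
import Vale.Agent.P247.H74.Fin2.Fin

/-!
# P247, row `TRF`, unconditional
-/

namespace Vale.Agent.P247A

theorem trf : TRF_statement := trf_of Vale.Agent.P247.H74.Fin2.Q1T4

end Vale.Agent.P247A
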