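import Vale.Agent.P247A.Cov
import Vale.Agent.P247C.All

/-!
# P247, stage 2: row LEF (helper19)
-/

set_option linter.all false

open scoped Manifold ContDiff Topology
open Set Filter MeasureTheory Metric

noncomputable section

namespace Vale.Agent.P247A

open Vale.Agent.P247.SCY Vale.Agent.P247.SCY.HS Vale.Agent.P247X Vale.Agent.P247M Vale.Agent.P247V
open Vale.Agent.P267.H175 (SmAt dF)
open Vale.Agent.P267
open Vale.Agent.P247C (dArg dArg_apply smAt_dArg dF_dArg)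

namespace Lef

/-- logarithms up to locally constant phases -/
theorem log_glue {T : Type*} [TopologicalSpace T] {K : Set T} {u : T → ℂ} {F : T → ℝ}
    (hF : ContinuousOn F K)
    (h : ∀ x ∈ K, ∃ a : ℝ, ∀ᶠ y in 𝓝[K] x, u y = Complex.exp (Complex.I * (F y + a : ℝ))) :
    ∃ f : T → ℝ, ContinuousOn f K ∧ ∀ x ∈ K, u x = Complex.exp (Complex.I * f x) := by
  let c : T → ℂ := fun x => u x / Complex.exp (Complex.I * F x)
  have hc : ∀ (y : T) (a : ℝ), u y = Complex.exp (Complex.I * (F y + a : ℝ)) →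
      c y = Complex.exp (Complex.I * a) := fun y a e => by
    show u y / _ = _
    rw [e, Complex.ofReal_add, mul_add, Complex.exp_add,
      mul_div_cancel_left₀ _ (Complex.exp_ne_zero _)]
  refine ⟨fun x => F x + Complex.arg (c x), hF.add fun x hx => ?_, fun x hx => ?_⟩
  · obtain ⟨a, ha⟩ := h x hx
    refine (continuousWithinAt_const (b := Complex.arg (c x))).congr_of_eventuallyEq ?_ rfl
    filter_upwards [ha] with t ht
    rw [hc t a ht, hc x a (ha.self_of_nhdsWithin hx)]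
  · obtain ⟨a, ha⟩ := h x hx
    have h1 : ‖c x‖ = 1 := by
      rw [hc x a (ha.self_of_nhdsWithin hx), mul_comm]
      exact Complex.norm_exp_ofReal_mul_I a
    have h2 := Complex.norm_mul_exp_arg_mul_I (c x)
    rw [h1, Complex.ofReal_one, one_mul, mul_comm] at h2
    rw [Complex.ofReal_add, mul_add, Complex.exp_add, h2]
    exact (mul_div_cancel₀ _ (Complex.exp_ne_zero _)).symm

/-- logarithms extend to a neighbourhood -/
theorem log_ext {T : Type*} [TopologicalSpace T] [NormalSpace T] {K : Set T} (hK : IsClosed K)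
    {u : T → ℂ} (hu : Continuous u) (hn : ∀ x, ‖u x‖ = 1) {f : T → ℝ} (hf : ContinuousOn f K)
    (h : ∀ x ∈ K, u x = Complex.exp (Complex.I * f x)) :
    ∃ (U : Set T) (f' : T → ℝ), IsOpen U ∧ K ⊆ U ∧ ContinuousOn f' U ∧
      ∀ x ∈ U, u x = Complex.exp (Complex.I * f' x) := by
  obtain ⟨G, hG⟩ := ContinuousMap.exists_restrict_eq hK ⟨K.restrict f, hf.restrict⟩
  have hG' : ∀ x ∈ K, G x = f x := fun x hx => congrArg (fun g : C(K, ℝ) => g ⟨x, hx⟩) hG
  let c : T → ℂ := fun x => u x / Complex.exp (Complex.I * G x)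
  have hc : Continuous c := hu.div (continuous_const.mul
    (Complex.continuous_ofReal.comp G.continuous)).cexp fun x => Complex.exp_ne_zero _
  refine ⟨c ⁻¹' Complex.slitPlane, fun x => G x + Complex.arg (c x),
    Complex.isOpen_slitPlane.preimage hc, fun x hx => ?_, G.continuous.continuousOn.add
      fun x hx => ((Complex.continuousAt_arg hx).comp hc.continuousAt).continuousWithinAt,
    fun x _ => ?_⟩
  · show u x / _ ∈ Complex.slitPlane
    rw [hG' x hx, h x hx, div_self (Complex.exp_ne_zero _)]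
    exact Complex.one_mem_slitPlane
  · have h1 : ‖c x‖ = 1 := by
      show ‖u x / _‖ = 1
      rw [norm_div, hn, mul_comm, Complex.norm_exp_ofReal_mul_I, div_one]
    have h2 := Complex.norm_mul_exp_arg_mul_I (c x)
    rw [h1, Complex.ofReal_one, one_mul, mul_comm] at h2
    rw [Complex.ofReal_add, mul_add, Complex.exp_add, h2]
    exact (mul_div_cancel₀ _ (Complex.exp_ne_zero _)).symm

/-- an additive map which makes a nonzero real vector integral -/
theorem exists_int {b : ℕ} {h : Fin b → ℝ} (hh : h ≠ 0) :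
    ∃ (m : Fin b → ℤ) (l : ℝ →+ ℝ), m ≠ 0 ∧ ∀ i, l (h i) = m i := by
  obtain ⟨i0, hi0⟩ := Function.ne_iff.1 hh
  obtain ⟨φ, hφ⟩ := Module.Projective.exists_dual_eq_one ℚ (V := ℝ) hi0
  obtain ⟨D, hD⟩ := IsLocalization.exist_integer_multiples_of_finite (nonZeroDivisors ℤ)
    (fun i => φ (h i))
  choose m hm using hD
  have hm' : ∀ i, (m i : ℚ) = (D : ℤ) * φ (h i) := fun i => by
    have := hm i
    rwa [zsmul_eq_mul] at this
  refine ⟨m, ⟨⟨fun t => ((((D : ℤ) : ℚ) * φ t : ℚ) : ℝ), by simp⟩, fun s t => by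
    simp only [map_add, mul_add, Rat.cast_add]⟩, fun e => ?_, fun i => ?_⟩
  · have h1 := hm' i0
    rw [hφ, e, mul_one] at h1
    exact nonZeroDivisors.coe_ne_zero D (by exact_mod_cast h1.symm)
  · show ((((D : ℤ) : ℚ) * φ (h i) : ℚ) : ℝ) = m i
    rw [← hm', Rat.cast_intCast]

variable {X : Type} [Cl4 X]

theorem exists_conv (x : X) {W : Set X} (hW : W ∈ 𝓝 x) : ∃ V : Set X, IsOpen V ∧ x ∈ V ∧ V ⊆ W ∧
    V ⊆ (chartAt E4 x).source ∧ Convex ℝ (chartAt E4 x '' V) := by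
  set e := chartAt E4 x with he
  have hp : x ∈ e.source := mem_chart_source E4 x
  have h1 : e.target ∩ e.symm ⁻¹' W ∈ 𝓝 (e x) :=
    inter_mem (e.open_target.mem_nhds (e.map_source hp)) (tendsto_symm hp hW)
  obtain ⟨r, hr, hb⟩ := Metric.mem_nhds_iff.1 h1
  refine ⟨e.source ∩ e ⁻¹' ball (e x) r, e.isOpen_inter_preimage isOpen_ball,
    ⟨hp, mem_ball_self hr⟩, fun y hy => ?_, inter_subset_left, ?_⟩
  · have := (hb hy.2).2
    rwa [mem_preimage, e.left_inv hy.1] at this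
  · have : e '' (e.source ∩ e ⁻¹' ball (e x) r) = ball (e x) r := by
      refine (image_subset_iff.2 fun y hy => hy.2).antisymm fun z hz => ?_
      refine ⟨e.symm z, ⟨e.map_target (hb hz).1, ?_⟩, e.right_inv (hb hz).1⟩
      rw [mem_preimage, e.right_inv (hb hz).1]
      exact hz
    rw [this]
    exact convex_ball _ _

/-- local logarithms -/
theorem loc_log {b : ℕ} {g : Fin b → X → ℂ} (hg : ∀ i, Circ (g i)) (h : Fin b → ℝ) {x : X}
    {U : Set X} {p : X → ℝ} (hU : IsOpen U) (hx : x ∈ U)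
    (hp : ContMDiffOn (𝓡 4) 𝓘(ℝ, ℝ) ∞ p U)
    (hd : ∀ y ∈ U, ∀ v, dfr p y v = ∑ i, h i * ang (g i) y v) :
    ∃ (V : Set X) (θ : Fin b → X → ℝ) (c : ℝ), IsOpen V ∧ x ∈ V ∧ V ⊆ U ∧
      (∀ i, ContinuousOn (θ i) V) ∧
      (∀ i, ∀ y ∈ V, g i y = Complex.exp (2 * Real.pi * θ i y * Complex.I)) ∧
      ∀ y ∈ V, p y = ∑ i, h i * θ i y + c := by
  obtain ⟨V, hV, hxV, hVU, hVe, hc⟩ := exists_conv x (hU.mem_nhds hx)
  have he := chart_mem_atlas E4 x
  have h1 : ∀ i, ∃ t : X → ℝ, (∀ y ∈ V, SmF t y) ∧ (∀ y ∈ V, d0 t y = dArg (g i) y) ∧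
      ∀ y ∈ V, g i y = eI t y := by
    intro i
    obtain ⟨t, t1, t2⟩ := exists_prim1 he hV hVe hc (a := dArg (g i))
      (fun y hy => smAt_dArg hV (fun z _ => (hg i).1 z) hy)
      fun y hy => dF_dArg hV (fun z _ => (hg i).1 z) (fun z _ => (hg i).2 z) hy
    obtain ⟨c, t3⟩ := lift_of_const hV (fun y _ => (hg i).1 y) (fun y _ => (hg i).2 y) t1 t2
      fun k k1 k2 => exists_const he hV hVe hc k1 k2
    refine ⟨fun y => t y + c, fun y hy => (t1 y hy).add contMDiffAt_const, fun y hy => ?_, t3⟩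
    rw [d0_add (t1 y hy) contMDiffAt_const, d0_const, add_zero, t2 y hy]
  choose t t1 t2 t3 using h1
  have hps : ∀ y ∈ V, SmF p y := fun y hy => hp.contMDiffAt (hU.mem_nhds (hVU hy))
  have hq : ∀ i, ∀ y ∈ V, SmF (fun z => (h i / (2 * Real.pi)) * t i z) y := fun i y hy =>
    contMDiffAt_const.mul (t1 i y hy)
  obtain ⟨c, hc'⟩ := exists_const he hV hVe hc
    (f := fun y => p y - ∑ i, (h i / (2 * Real.pi)) * t i y)
    (fun y hy => (hps y hy).sub (smF_sum _ fun i _ => hq i y hy)) fun y hy => by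
      rw [d0, Df_sub (hps y hy) (smF_sum _ fun i _ => hq i y hy), Df_sum _ fun i _ => hq i y hy]
      refine alt1_ext fun v => ?_
      show Df p y v - (∑ i, Df (fun z => (h i / (2 * Real.pi)) * t i z) y) v = 0
      rw [sub_eq_zero, ContinuousLinearMap.sum_apply]
      refine ((Cov.dfr_eq (hps y hy) v).symm.trans (hd y (hVU hy) v)).trans ?_
      refine Finset.sum_congr rfl fun i _ => ?_
      refine (congrArg (fun s => h i * s) (Cov.ang_eq ((hg i).1 y) v)).trans ?_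
      rw [Df_const_mul _ (t1 i y hy), ← t2 i y hy]
      show h i * (Df (t i) y v / _) = h i / _ * Df (t i) y v
      ring
  refine ⟨V, fun i y => t i y / (2 * Real.pi), c, hV, hxV, hVU,
    fun i y hy => ((t1 i y hy).continuousAt.div_const _).continuousWithinAt, fun i y hy => ?_,
    fun y hy => ?_⟩
  · rw [t3 i y hy, eI]
    congr 2
    have : (Real.pi : ℂ) ≠ 0 := Complex.ofReal_ne_zero.2 Real.pi_ne_zero
    push_cast
    field_simp
  · rw [← hc' y hy]
    have : ∑ i, h i * (t i y / (2 * Real.pi)) = ∑ i, h i / (2 * Real.pi) * t i y :=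
      Finset.sum_congr rfl fun i _ => by ring
    rw [this]
    ring

/-- a real relation gives an integral one -/
theorem int_log {b : ℕ} {g : Fin b → X → ℂ} (hg : ∀ i, Circ (g i)) {h : Fin b → ℝ} (hh : h ≠ 0)
    {K : Set X} {f : X → ℝ}
    (hf : ∀ x ∈ K, ∃ (U : Set X) (p : X → ℝ), IsOpen U ∧ x ∈ U ∧
      ContMDiffOn (𝓡 4) 𝓘(ℝ, ℝ) ∞ p U ∧ (∀ y ∈ U, ∀ v, dfr p y v = ∑ i, h i * ang (g i) y v) ∧
      ∀ y ∈ U ∩ K, f y = p y) :
    ∃ (m : Fin b → ℤ) (F : X → ℝ), m ≠ 0 ∧ ContinuousOn F K ∧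
      ∀ x ∈ K, ∏ i, g i x ^ m i = Complex.exp (Complex.I * F x) := by
  obtain ⟨m, l, hm, hl⟩ := exists_int hh
  have h1 : ∀ x ∈ K, ∃ (V : Set X) (θ : Fin b → X → ℝ) (c : ℝ), IsOpen V ∧ x ∈ V ∧
      (∀ i, ContinuousOn (θ i) V) ∧
      (∀ i, ∀ y ∈ V, g i y = Complex.exp (2 * Real.pi * θ i y * Complex.I)) ∧
      ∀ y ∈ V ∩ K, f y = ∑ i, h i * θ i y + c := by
    intro x hx
    obtain ⟨U, p, a1, a2, a3, a4, a5⟩ := hf x hx
    obtain ⟨V, θ, c, b1, b2, b3, b4, b5, b6⟩ := loc_log hg h a1 a2 a3 a4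
    exact ⟨V, θ, c, b1, b2, b4, b5, fun y hy => (a5 y ⟨b3 hy.1, hy.2⟩).trans (b6 y hy.1)⟩
  choose! V θ c v1 v2 v3 v4 v5 using h1
  have hpi : (2 * Real.pi * Complex.I : ℂ) ≠ 0 := Complex.two_pi_I_ne_zero
  have key : ∀ x ∈ K, ∀ y ∈ V x ∩ K,
      ∑ i, (m i : ℝ) * θ y i y + l (c y) = ∑ i, (m i : ℝ) * θ x i y + l (c x) := by
    intro x hx y hy
    have h2 : ∀ i, ∃ n : ℤ, θ y i y = θ x i y + n := fun i => by
      obtain ⟨n, hn⟩ := Complex.exp_eq_exp_iff_exists_int.1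
        ((v4 y hy.2 i y (v2 y hy.2)).symm.trans (v4 x hx i y hy.1))
      refine ⟨n, ?_⟩
      have h3 : (θ y i y : ℂ) = θ x i y + n := mul_left_cancel₀ hpi (by linear_combination hn)
      exact_mod_cast h3
    choose n hn using h2
    have h3 := (v5 y hy.2 y ⟨v2 y hy.2, hy.2⟩).symm.trans (v5 x hx y hy)
    simp only [hn, mul_add, Finset.sum_add_distrib] at h3 ⊢
    have h4 : ∑ i, n i • h i + c y = c x := by
      simp only [zsmul_eq_mul, mul_comm (n _ : ℝ)]
      linarith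
    rw [← h4, map_add, map_sum]
    simp only [map_zsmul, hl]
    simp only [zsmul_eq_mul, mul_comm (n _ : ℝ)]
    ring
  have hev : ∀ x ∈ K, ∀ᶠ y in 𝓝[K] x, y ∈ V x ∩ K := fun x hx =>
    inter_mem (mem_nhdsWithin_of_mem_nhds ((v1 x hx).mem_nhds (v2 x hx))) self_mem_nhdsWithin
  obtain ⟨F, F1, F2⟩ := log_glue (K := K) (u := fun x => ∏ i, g i x ^ m i)
    (F := fun y => 2 * Real.pi * (∑ i, (m i : ℝ) * θ y i y + l (c y)))
    (fun x hx => by
      have h2 : ContinuousWithinAt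
          (fun y => 2 * Real.pi * (∑ i, (m i : ℝ) * θ x i y + l (c x))) K x :=
        ((continuousOn_const.mul ((continuousOn_finset_sum _ fun i _ => continuousOn_const.mul
          (v3 x hx i)).add continuousOn_const)).continuousAt
            ((v1 x hx).mem_nhds (v2 x hx))).continuousWithinAt
      refine h2.congr_of_eventuallyEq ?_ rfl
      filter_upwards [hev x hx] with y hy
      rw [key x hx y hy])
    fun x hx => ⟨-(2 * Real.pi * l (c x)), by
      filter_upwards [hev x hx] with y hy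
      rw [key x hx y hy]
      simp only [v4 x hx _ y hy.1, ← Complex.exp_int_mul, ← Complex.exp_sum]
      congr 1
      push_cast
      rw [mul_add (2 * Real.pi : ℂ), add_neg_cancel_right, Finset.mul_sum, Finset.mul_sum]
      exact Finset.sum_congr rfl fun i _ => by ring⟩
  exact ⟨m, F, hm, F1, F2⟩

/-- the class of a curve is represented by forms supported near the curve -/
theorem cls_supp {μ : Form X 4} (hμ : Volume μ) {w : Tri X} (hw : Hypersymplectic μ w)
    (K : Irr (Jw w)) {U : Set X} (hU : IsOpen U) (hK : K.K ⊆ U) :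
    ∃ β, IsCls μ K.T β ∧ SuppIn β U := by
  obtain ⟨P, E, o, -, hP, hV⟩ := P247C.AS.exists_vfd P247C.dich hμ hw K ∅ (by simp)
  obtain ⟨L, _, _, _, _, _, i₀, _, Dl, f1, -, f2, -, f3⟩ := P247C.AS.core P247C.loc P247C.thom
    P247C.deg hμ hw K P E o hP hV (fun _ => 0) (fun _ j => j.elim0) (fun _ _ j => j.elim0)
    (fun _ _ j => j.elim0) (fun _ => U) fun p hp => hU.mem_nhds (hK (hP hp))
  have h1 : (L.U i₀)ᶜ ⊆ U := by
    rw [f2, compl_compl]
    exact union_subset hK (iUnion_subset fun p => (f3 p).2.2.2.1)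
  obtain ⟨W, hW, h2, h3⟩ := normal_exists_closure_subset (L.opn i₀).isClosed_compl hU h1
  obtain ⟨κ, k1, -, k2, k3⟩ := P247C.exists_bump hW.isClosed_compl (L.opn i₀)
    (compl_subset_comm.1 h2)
  let η : RF X 1 := (2 * Real.pi)⁻¹ • fun y => κ y • rf (L.A i₀) y
  have hη : ∀ x, SmAt η x := fun x => (P247C.smAt_cut (k1 x) fun h => L.smA (k2 h)).smul _
  have hF := sc_iff.1 L.F_sc
  have hsc : SC (hs (rf L.F - dF η)) := sc_iff.2 ⟨fun x => smAt_sub (hF.1 x) (smAt_dF' hη x),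
    fun x => by rw [rf_hs, dF_sub (hF.1 x) (smAt_dF' hη x), hF.2, dF_dF' hη, sub_zero]⟩
  have hco : Coh L.F (hs (rf L.F - dF η)) := coh_iff.2 ⟨η, hη, by rw [rf_hs, sub_sub_cancel]⟩
  refine ⟨_, ⟨hsc, fun φ hφ => (f1.2 φ hφ).trans (hco.pair hμ hw L.F_sc.1 hsc.1 hφ)⟩,
    closure W, isClosed_closure.isCompact, h3, fun x hx => ?_⟩
  have hx' : x ∈ Wᶜ := fun h => hx (subset_closure h)
  have h4 : (fun y => κ y • rf (L.A i₀) y) =ᶠ[𝓝 x] rf (L.A i₀) := by
    filter_upwards [k3 x hx'] with y hy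
    rw [hy, one_smul]
  show rf L.F x - dF η x = 0
  rw [H175.dF_smul, H175.dF_congr h4, L.dFA (compl_subset_comm.1 h2 hx'), smul_smul,
    inv_mul_cancel₀ Real.two_pi_pos.ne', one_smul, sub_self]

end Lef

open Lef in
/-- row LEF -/
theorem lef (hC : COV_statement) : LEF_statement := by
  intro X _ μ hμ w hw b B K α hα hp h f hf
  by_contra hh
  obtain ⟨m, F, hm, F1, F2⟩ := int_log B.circ hh hf
  have hc := (Cov.circ_mon B.circ m).1
  obtain ⟨U, f', hU, hK, f1, f2⟩ := log_ext K.cpt.isClosed hc.1.continuous hc.2 F1 F2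
  obtain ⟨β, hβ, hs⟩ := cls_supp hμ hw K hU hK
  have h1 := hC X μ hμ w hw b B m hm U f' hU f1 f2 β hβ.1 hs
  rw [← hβ.2 β hβ.1, hα.2 β hβ.1, P247.SCY.pair_comm, ← hβ.2 α hα.1] at h1
  exact absurd hp (not_lt.2 h1)

/-- LEF from BP -/
theorem lef_of_bp (hB : BP_statement) : LEF_statement := lef (cov hB)

end Vale.Agent.P247A
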