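import Vale.Agent.P247O.All
import Vale.Agent.P247A.Asmb
import Vale.Agent.P247A.H1z
import Vale.Agent.P247A.MoveU
import Vale.Agent.P247A.Dic4
import Vale.Agent.P247A.Irr1
import Vale.Agent.P247A.Cof
import Vale.Agent.P247A.Trf2
import Vale.Agent.P247A.Deg0
import Vale.Agent.P247B.Betti
import Vale.Agent.P247D.All
import Vale.Agent.P247H.Main
import Vale.Agent.P247G.No
import Vale.Agent.P247P.Hod

/-!
# P247, stage 2: the manifold level rows plugged together
-/

namespace Vale.Agent.P247A

open Vale.Agent Vale.Agent.P247X

theorem no19_of (z3 : Z3Q_statement) : NO19_statement :=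
  P247G.asmn P247I.even P247G.lat8 (P247G.asm3 P247P.phq z3 dict3)

theorem b4_of (bp : BP_statement) (swh : SWH_statement) : B4_statement :=
  asmb h1z cup latt move mod4 swh P247H.ICURX irr1 (P247B.betti_of_bp bp) torx P247D.fol cof trf

theorem q1_of (bp : BP_statement) (swh : SWH_statement) (no : NO19_statement) : Q1_statement :=
  asm2 bp no J.thmK19 (b4_of bp swh)

end Vale.Agent.P247A
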