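import Vale.Agent.P247A.Cnt2

/-!
# P247, stage 2: the signed count of zeros (`CNT`)
-/

set_option linter.all false

open scoped ContDiff Topology
open Set Filter Function Metric MeasureTheory

noncomputable section

namespace Vale.Agent.P247A

namespace Cn

variable {m b M n : ℕ}

theorem der_nrm {c : Coc m b} {G : Cv m × Rv b → Cv M × Rv n} (hG : Sec c G) {j : Fin m}
    {q : Cv m × Rv b} (hd : DifferentiableAt ℝ G q) (h0 : G q = 0) (h1 : q.1 j = 1) :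
    HasFDerivAt (fun q' => G (nrm j q')) (fderiv ℝ G q) q := by
  have hj : q.1 j ≠ 0 := by rw [h1]; exact one_ne_zero
  have h2 := (((coord_diff j q).inv hj).hasFDerivAt.smul
    (hasFDerivAt_fst (𝕜 := ℝ) (p := q))).prodMk (hasFDerivAt_snd (𝕜 := ℝ) (p := q))
  have h3 : HasFDerivAt G (fderiv ℝ G q) (nrm j q) := by
    rw [nrm_of_one h1]; exact hd.hasFDerivAt
  have h4 := h3.comp q h2
  refine h4.congr_fderiv (ContinuousLinearMap.ext fun v => Eq.symm ?_)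
  have h5 := kern hG hd h0 (fderiv ℝ ((fun q : Cv m × Rv b => q.1 j)⁻¹) q v)
  rw [← add_zero (fderiv ℝ G q v), ← h5, ← map_add]
  simp only [ContinuousLinearMap.comp_apply]
  congr 1
  ext <;> simp [h1]

theorem sard {c : Coc m b} {G : Cv m × Rv b → Cv M × Rv n} (hG : Good c G)
    (e : ((Cv M × Rv n) × ℂ) ≃L[ℝ] (Cv m × Rv b)) (a : Slc m b) {f : Cv m × Rv b → ℝ}
    (f0 : ∀ q, 0 ≤ f q) (fd : ∀ q : Cv m × Rv b, q.1 ≠ 0 → DifferentiableAt ℝ f q)
    (fs : ∀ q, q ∉ a.sat c → f q = 0) (y₀ : Cv M × Rv n) {ε : ℝ} (hε : 0 < ε) :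
    ∃ (y : Cv M × Rv n) (U : Cv m × Rv b → Cv M × Rv n), ‖y - y₀‖ < ε ∧ Sec c U ∧
      (∀ q ∈ a.sl, U q = f q • y) ∧ (∀ q, q ∉ a.sat c → U q = 0) ∧
      Good c (fun q => G q + U q) := by
  borelize (Cv m × Rv b)
  have hne : ∀ q : Cv m × Rv b, q.1 a.j ≠ 0 → (nrm a.j q).1 ≠ 0 := fun q h h' => by
    simpa [h'] using nrm_one h
  set Ψ : Cv m × Rv b → Cv M × Rv n := fun q => (f (nrm a.j q))⁻¹ • G (nrm a.j q) with hΨ
  have dΨ : ∀ q : Cv m × Rv b, q.1 a.j ≠ 0 → f (nrm a.j q) ≠ 0 → DifferentiableAt ℝ Ψ q :=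
    fun q h h' => (((fd _ (hne q h)).comp q (nrm_diff h)).inv h').smul
      ((hG.diff _ (hne q h)).comp q (nrm_diff h))
  set D : Cv m × Rv b → Cv m × Rv b →L[ℝ] Cv m × Rv b := fun q =>
    e.toContinuousLinearMap.comp ((fderiv ℝ Ψ q).prod (muj b a.j)) with hD
  have hN := addHaar_image_eq_zero_of_det_fderivWithin_eq_zero
    (Measure.addHaar : Measure (Cv m × Rv b)) (f := fun q => e (Ψ q, q.1 a.j)) (f' := D)
    (s := {q | q.1 a.j ≠ 0 ∧ f (nrm a.j q) ≠ 0 ∧ (D q).det = 0})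
    (fun q hq => (e.hasFDerivAt.comp q
      ((dΨ q hq.1 hq.2.1).hasFDerivAt.prodMk (muj b a.j).hasFDerivAt)).hasFDerivWithinAt)
    (fun q hq => hq.2.2)
  have hO : IsOpen (e '' (ball (-y₀) ε ×ˢ ({0}ᶜ : Set ℂ))) :=
    e.toHomeomorph.isOpenMap _ (isOpen_ball.prod isOpen_compl_singleton)
  have hpos := hO.measure_ne_zero (Measure.addHaar : Measure (Cv m × Rv b))
    ⟨_, ⟨(-y₀, 1), ⟨mem_ball_self hε, one_ne_zero⟩, rfl⟩⟩
  obtain ⟨_, ⟨⟨y, w⟩, ⟨hy, hw⟩, rfl⟩, hreg⟩ :=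
    not_subset.mp fun h => hpos (measure_mono_null h hN)
  have hw' : w ≠ 0 := hw
  obtain ⟨U, sU, dU, U1, U0⟩ := ext m b M n c a (fun q => f q • (-y))
    (fun q hq => (fd q fun h => ball_ne a hq.1 (by simp [h])).smul_const _)
    (fun q hq h => by
      rw [fs q fun ⟨q', h1, h2, h3⟩ => h (sl_inj c a ⟨a.sub h1, h2⟩ hq h3 ▸ h1), zero_smul])
  have sS : Sec c (fun q => G q + U q) := by
    refine ⟨hG.sec.cont.add sU.cont, fun z x h => ?_, fun l x h => ?_⟩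
    · rw [hG.sec.hom, sU.hom]; simp
    · rw [hG.sec.inv, sU.inv]
  have dS : ∀ p : Cv m × Rv b, p.1 ≠ 0 → DifferentiableAt ℝ (fun q => G q + U q) p :=
    fun p hp => (hG.diff p hp).add (dU p hp)
  refine ⟨-y, U, ?_, sU, U1, U0, sS, dS, fun p hp h0 => ?_⟩
  · rw [mem_ball_iff_norm] at hy
    rw [show -y - y₀ = -(y - -y₀) by abel, norm_neg]; exact hy
  by_cases hs : p ∈ a.sat c
  swap
  · have h1 : (fun q => G q + U q) =ᶠ[𝓝 p] G := (sat m b c a p hp hs).mono fun q h => by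
      simp [U0 q h]
    rw [h1.fderiv_eq]
    exact hG.onto p hp (h1.self_of_nhds.symm.trans h0)
  obtain ⟨q, hK, h1, ho⟩ := hs
  have hq : q.1 ≠ 0 := fun h => by simp [h] at h1
  have q0 : G q + U q = 0 := orb_zero sS (orb_symm ho) h0
  refine orb_onto sS dS ho hq ?_
  have ev : ∀ q' : Cv m × Rv b, q'.1 a.j ≠ 0 → nrm a.j q' = q → ∀ᶠ s in 𝓝 q',
      G (nrm a.j s) + U (nrm a.j s) = G (nrm a.j s) + f (nrm a.j s) • (-y) := by
    intro q' h2 h3
    filter_upwards [(coord_diff a.j q').continuousAt.eventually_ne h2,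
      (nrm_diff h2).continuousAt.eventually (isOpen_ball.mem_nhds (h3 ▸ a.sub hK))] with s h4 h5
    rw [U1 _ ⟨h5, nrm_one h4⟩]
  have hj : q.1 a.j ≠ 0 := by rw [h1]; exact one_ne_zero
  by_cases hf : f q = 0
  · have g0 : G q = 0 := by rw [U1 q ⟨a.sub hK, h1⟩, hf] at q0; simpa using q0
    have d1 : DifferentiableAt ℝ (fun s => f (nrm a.j s)) q :=
      (fd _ (hne q hj)).comp q (nrm_diff hj)
    have d2 : fderiv ℝ (fun s => f (nrm a.j s)) q = 0 :=
      IsLocalMin.fderiv_eq_zero (Eventually.of_forall fun s => by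
        simp only [nrm_of_one h1, hf]; exact f0 _)
    have d3 := (der_nrm hG.sec (hG.diff q hq) g0 h1).add (d1.hasFDerivAt.smul_const (-y))
    have d4 := (der_nrm sS (dS q hq) q0 h1).unique
      (d3.congr_of_eventuallyEq (ev q hj (nrm_of_one h1)))
    rw [d4, d2]
    simpa using hG.onto q hq g0
  · set q' : Cv m × Rv b := (w • q.1, q.2) with hq'
    have n1 : nrm a.j q' = q := by rw [hq', nrm_smul hw', nrm_of_one h1]
    have n2 : q'.1 a.j = w := by simp [hq', h1]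
    have n3 : q'.1 a.j ≠ 0 := n2 ▸ hw'
    have n4 : f (nrm a.j q') ≠ 0 := n1 ▸ hf
    have n5 : Ψ q' = y := by
      rw [U1 q ⟨a.sub hK, h1⟩] at q0
      simp only [hΨ, n1]
      rw [eq_neg_of_add_eq_zero_left q0]
      simp [smul_smul, hf]
    have n6 : Surjective (fderiv ℝ Ψ q') := by
      have h2 : (D q').det ≠ 0 := fun h => hreg ⟨q', ⟨n3, n4, h⟩, by simp [n5, n2]⟩
      intro t
      obtain ⟨v, hv⟩ := onto_of_det e h2 (t, 0)
      exact ⟨v, congrArg Prod.fst hv⟩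
    have d1 : DifferentiableAt ℝ (fun s => f (nrm a.j s)) q' :=
      (fd _ (hne q' n3)).comp q' (nrm_diff n3)
    have d2 := d1.hasFDerivAt.smul ((dΨ q' n3 n4).hasFDerivAt.sub_const y)
    have d3 : HasFDerivAt (fun q => G q + U q) (fderiv ℝ (fun q => G q + U q) q) (nrm a.j q') := by
      rw [n1]; exact (dS q hq).hasFDerivAt
    have d4 := (d3.comp q' (nrm_diff n3).hasFDerivAt).unique (d2.congr_of_eventuallyEq (by
      filter_upwards [ev q' n3 n1, d1.continuousAt.eventually_ne n4] with s h2 h3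
      simp only [comp, h2, hΨ, Pi.smul_apply', smul_add, smul_smul, mul_inv_cancel₀ h3, one_smul,
        smul_neg, sub_eq_add_neg]))
    intro t
    obtain ⟨v, hv⟩ := n6 ((f q)⁻¹ • t)
    refine ⟨fderiv ℝ (nrm a.j) q' v, ?_⟩
    have := congrArg (fun T : _ →L[ℝ] _ => T v) d4
    simpa [hv, n1, n5, smul_smul, hf] using this

end Cn

open Cn

theorem cnt_of (hS : STEP_statement) : CNT_statement := by
  classical
  intro m b M n c G₀ G₁ e s0 s1 d0 o0 hne Z z1 z2 z3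
  have hr : ∀ p : Cv m × Rv b, ∃ r : ℝ, 0 < r ∧ (p.1 ≠ 0 → ∀ q ∈ ball p r,
      ‖(G₁ p - G₀ p) - (G₁ q - G₀ q)‖ < ‖G₁ p‖ / 8 ∧ ‖G₁ p‖ / 2 < ‖G₁ q‖) := by
    intro p
    by_cases hp : p.1 = 0
    · exact ⟨1, one_pos, fun h => absurd hp h⟩
    have h0 : 0 < ‖G₁ p‖ := norm_pos_iff.mpr (hne p hp)
    have c1 : Continuous fun q => ‖(G₁ p - G₀ p) - (G₁ q - G₀ q)‖ :=
      (continuous_const.sub (s1.cont.sub s0.cont)).norm
    have h1 := (c1.continuousAt (x := p)).eventually (gt_mem_nhds (a := ‖G₁ p‖ / 8)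
      (by simp only [sub_self, norm_zero]; positivity))
    have h2 := (s1.cont.norm.continuousAt (x := p)).eventually
      (lt_mem_nhds (a := ‖G₁ p‖ / 2) (by linarith))
    obtain ⟨r, hr, h⟩ := Metric.eventually_nhds_iff_ball.mp (h1.and h2)
    exact ⟨r, hr, fun _ => h⟩
  choose r hr0 hr using hr
  obtain ⟨N, a, f, ha, f0, fd, fo, fs, f1⟩ := part m b c r hr0
  have ind : ∀ s : Finset (Fin N), ∃ (G : Cv m × Rv b → Cv M × Rv n) (Z' : Finset (Cv m × Rv b)),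
      Good c G ∧ Rep c G Z' ∧ ∑ p ∈ Z', sgn e (fderiv ℝ G p) (muAt b p.1) =
        ∑ p ∈ Z, sgn e (fderiv ℝ G₀ p) (muAt b p.1) ∧ ∀ q : Cv m × Rv b,
        ‖G q - G₀ q - (∑ k ∈ s, f k q) • (G₁ q - G₀ q)‖ ≤ (∑ k ∈ s, f k q) * (‖G₁ q‖ / 2) := by
    intro s
    induction s using Finset.induction_on with
    | empty => exact ⟨G₀, Z, ⟨s0, d0, o0⟩, ⟨z1, z2, z3⟩, rfl, fun q => by simp⟩
    | insert k s hk ih =>
      obtain ⟨G, Z', hG, hZ, h1, h2⟩ := ih
      have hp : (a k).p.1 ≠ 0 := fun h => by simpa [h] using (a k).hp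
      have h0 : 0 < ‖G₁ (a k).p‖ / 8 := by have := norm_pos_iff.mpr (hne _ hp); positivity
      obtain ⟨y, U, hy, sU, U1, U0, hG'⟩ := sard hG e (a k) (f0 k) (fd k) (fs k)
        (G₁ (a k).p - G₀ (a k).p) h0
      obtain ⟨Z'', hZ', h3⟩ := step_main hS hG hG' e (a k) (fun q h => by simp [U0 q h]) hZ
      refine ⟨_, Z'', hG', hZ', h3.trans h1, fun q => ?_⟩
      have h4 : ‖U q - f k q • (G₁ q - G₀ q)‖ ≤ f k q * (‖G₁ q‖ / 2) := by
        by_cases h : q ∈ (a k).sat c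
        · obtain ⟨q', hK, h5, ho⟩ := h
          obtain ⟨z, -, hz⟩ := s0.of_orb ho
          obtain ⟨h6, h7⟩ := hr _ hp q' (ball_subset_ball (ha k) ((a k).sub hK))
          have h8 : ‖y - (G₁ q' - G₀ q')‖ ≤ ‖G₁ q'‖ / 2 := by
            have := norm_sub_le_norm_sub_add_norm_sub y (G₁ (a k).p - G₀ (a k).p) (G₁ q' - G₀ q')
            linarith
          rw [hz _ _ U sU, hz _ _ G₁ s1, hz _ _ G₀ s0, fo k q' q ho, U1 q' ⟨(a k).sub hK, h5⟩,
            ← map_sub, ← map_smul, ← map_sub, norm_rho, norm_rho, ← smul_sub, norm_smul,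
            Real.norm_of_nonneg (f0 k q')]
          have := mul_le_mul_of_nonneg_left h8 (mul_nonneg (norm_nonneg z) (f0 k q'))
          linarith
        · simp [U0 q h, fs k q h]
      rw [Finset.sum_insert hk, add_mul, add_smul]
      refine le_trans (le_of_eq ?_) ((norm_add_le _ _).trans (add_le_add h4 (h2 q)))
      congr 1
      abel
  obtain ⟨G, Z', -, hZ, h1, h2⟩ := ind Finset.univ
  rw [← h1]
  refine Finset.sum_eq_zero fun p hp => ?_
  obtain ⟨h3, h4⟩ := hZ.mem p hp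
  have h5 := h2 p
  have h6 := norm_pos_iff.mpr (hne p h3)
  rw [f1 p h3, h4] at h5
  have h7 : (0 : Cv M × Rv n) - G₀ p - (1 : ℝ) • (G₁ p - G₀ p) = -G₁ p := by
    rw [one_smul]; abel
  rw [h7, norm_neg] at h5
  linarith

end Vale.Agent.P247A
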