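import Vale.Agent.P247A.Dic5
import Vale.Agent.P247W.Sta2

/-!
# P247, stage 2: the wrappers for `BPH` and `SWH`
-/

set_option linter.all false

open scoped ContDiff Topology Manifold ComplexConjugate
open Set Filter MeasureTheory

noncomputable section

namespace Vale.Agent.P247A

open Vale.Agent.P204.T4 Vale.Agent.P204.Mfd Vale.Agent.P247.SCY Vale.Agent.P204.GX
open Vale.Agent.P247E Vale.Agent.P247W

theorem bph_of (h : BP3Q_statement) : BPH_statement := by
  intro hZ X _ μ hμ w hw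
  obtain ⟨b, ⟨B⟩⟩ := hZ X
  obtain ⟨A, Q, D, -, -⟩ := exists_dic hw (fun _ : Unit => univ) (fun _ => isOpen_univ)
    fun _ => ⟨(), trivial⟩
  letI := A.metric
  exact (D.bp3_iff hμ.smooth D.hx_pos).1 (h X Q (LBc.triv _) b (D.h1q B))

theorem swh_of (h : SWQ_statement) : SWH_statement := by
  intro X _ μ hμ hb w hw b B L h0 h1 h2 hc
  obtain ⟨A, Q, D, i, hi⟩ := exists_dic hw L.U L.opn L.cov
  letI := A.metric
  replace hi : D.Sub L i := hi
  have ha := Dic.ar_eq hi hμ.smooth h0 h1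
  have hp : 0 < 2 * Real.pi * HS.pair μ L.F (w 2) := by positivity
  have hF := hi.pr_FF hμ.smooth D.hx_pos
  obtain ⟨S⟩ := h X Q hi.lb ((D.bp3_iff hμ.smooth D.hx_pos).2 hb) b (D.h1q B)
    (fun k => hp.ne' (by simpa using congrFun (ha.symm.trans k) 0)) (hc.imp
      (fun k => hF ▸ mul_le_mul_of_nonneg_left k (by positivity))
      fun ⟨k, g, g', β, k1, k2, k3, k4⟩ => ⟨by rw [hF, k], g, g', D.smF.1 k1.1, D.smF.1 k2.1, k1.2,
        k2.2, by
          rw [hi.pr_cup hμ.smooth D.hx_pos k1 k2 k3]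
          exact mul_ne_zero (by positivity) k4⟩)
  rw [ha] at S
  exact Dic.higgs hi hμ.smooth hp.le S

end Vale.Agent.P247A
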