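import Vale.Agent.P247A.Fda0

/-!
# P247, stage 2: the row FDA from CNT, EXT, SAT, PART
-/

set_option linter.all false

open scoped ContDiff Topology
open Set Filter Metric

noncomputable section

namespace Vale.Agent.P247A.Fda

variable {m b M n : ℕ} {c : Coc m b} {G U : Cv m × Rv b → Cv M × Rv n} {p q q' : Cv m × Rv b}

/-- the linear model near a nondegenerate orbit -/
theorem exists_model (hE : EXT_statement) (hG : Sec c G) {j : Fin m} (hj : p.1 j = 1)
    (h0 : G p = 0) {L : Cv m × Rv b →L[ℝ] Cv M × Rv n} (hL : HasFDerivAt G L p)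
    (hk : ∀ q, L q = 0 → ∃ z : ℂ, q = (z • p.1, 0)) (hs : Function.Surjective L) :
    ∃ Λ : Cv m × Rv b → Cv M × Rv n, Sec c Λ ∧ (∀ q, q.1 ≠ 0 → DifferentiableAt ℝ Λ q) ∧
      Function.Surjective (fderiv ℝ Λ p) ∧
      ∀ q, c.Orb p q → ∀ᶠ q' in 𝓝 q, ‖Λ q' - G q'‖ ≤ ‖G q'‖ / 2 := by
  let S : Submodule ℝ (Cv m × Rv b) :=
    { carrier := {v | v.1 j = 0}
      add_mem' := fun {u v} hu hv => by
        show u.1 j + v.1 j = 0
        rw [show u.1 j = 0 from hu, show v.1 j = 0 from hv, add_zero]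
      zero_mem' := rfl
      smul_mem' := fun t v hv => by
        show t • v.1 j = 0
        rw [show v.1 j = 0 from hv, smul_zero] }
  obtain ⟨K, hK, hA⟩ := ((L : Cv m × Rv b →ₗ[ℝ] Cv M × Rv n) ∘ₗ S.subtype).exists_antilipschitzWith
    (LinearMap.ker_eq_bot'.2 fun v hv => by
      obtain ⟨z, hz⟩ := hk v.1 hv
      have h1 : (v.1).1 j = 0 := v.2
      rw [hz] at h1
      simp only [Pi.smul_apply, hj, smul_eq_mul, mul_one] at h1
      exact Subtype.ext (by rw [hz, h1, zero_smul]; rfl))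
  have hK' : ∀ v : Cv m × Rv b, v.1 j = 0 → ‖v‖ ≤ K * ‖L v‖ := fun v hv =>
    ZeroHomClass.bound_of_antilipschitz _ hA (⟨v, hv⟩ : S)
  have K0 : (0 : ℝ) < K := hK
  let β : ContDiffBump p := ⟨1 / 8, 1 / 4, by norm_num, by norm_num⟩
  let a : Slc m b := ⟨j, p, 1 / 2, hj, by norm_num, le_rfl, closedBall p (1 / 4),
    isCompact_closedBall _ _, closedBall_subset_ball (by norm_num)⟩
  obtain ⟨Λ, h1, h2, h3, -⟩ := hE m b M n c a (fun q => β q • L (q - p))
    (fun q _ => ((β.contDiff (n := 1)).differentiable one_ne_zero q).smul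
      (L.differentiableAt.comp q (differentiableAt_id.sub_const p)))
    fun q _ hq => by rw [β.zero_of_le_dist (not_le.1 hq).le, zero_smul]
  have h4 : ∀ q ∈ ball p (1 / 8), q.1 j = 1 → Λ q = L (q - p) := fun q hq hq' => by
    rw [h3 q ⟨ball_subset_ball (show (1 / 8 : ℝ) ≤ 1 / 2 by norm_num) hq, hq'⟩,
      β.one_of_mem_closedBall (ball_subset_closedBall hq), one_smul]
  have p0 : p.1 ≠ 0 := fun k => by rw [k] at hj; exact zero_ne_one hj
  refine ⟨Λ, h1, h2, fun y => ?_, fun q hq => ?_⟩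
  · obtain ⟨v, rfl⟩ := hs y
    refine ⟨v - (v.1 j • p.1, 0), der_line (h2 p p0).hasFDerivAt ?_⟩
    have c1 : Continuous fun t : ℝ => p + t • (v - (v.1 j • p.1, 0)) := by fun_prop
    filter_upwards [c1.continuousAt.preimage_mem_nhds (t := ball p (1 / 8))
      (by simpa using ball_mem_nhds p (by norm_num))] with t ht
    rw [h4 _ ht (by simp [hj]), add_sub_cancel_left, map_smul, map_sub, der_zero hG h0 hL, sub_zero]
  · have h5 := hL.isLittleO.def (c := (4 * K)⁻¹) (by positivity)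
    filter_upwards [orb_nhds hj hq (inter_mem (ball_mem_nhds p (show (0 : ℝ) < 1 / 8 by norm_num))
      h5)]
    rintro _ ⟨p', ⟨a1, a2⟩, a3, l, z, -, rfl⟩
    rw [sec_mv h1, sec_mv hG, ← map_sub, norm_act, norm_act, mul_div_assoc, h4 p' a1 a3]
    refine mul_le_mul_of_nonneg_left ?_ (norm_nonneg z)
    have a4 := hK' (p' - p) (by simp [a3, hj])
    simp only [mem_setOf_eq, h0, sub_zero] at a2
    have a5 : ‖G p' - L (p' - p)‖ ≤ ‖L (p' - p)‖ / 4 :=
      a2.trans ((mul_le_mul_of_nonneg_left a4 (by positivity)).trans (le_of_eq (by field_simp)))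
    have a6 := norm_le_norm_add_norm_sub' (L (p' - p)) (G p')
    rw [norm_sub_rev] at a6 ⊢
    linarith [norm_nonneg (G p')]

theorem fda_norm (hC : CNT_statement) (hE : EXT_statement) (hS : SAT_statement)
    (hP : PART_statement) (hG : Sec c G) (hn : 1 ≤ n) (hd : 2 * m + b = 2 * M + n + 2)
    {j : Fin m} (hj : p.1 j = 1) (h0 : G p = 0) (hu : ∀ q, q.1 ≠ 0 → G q = 0 → c.Orb p q)
    {L : Cv m × Rv b →L[ℝ] Cv M × Rv n} (hL : HasFDerivAt G L p)
    (hk : ∀ q, L q = 0 → ∃ z : ℂ, q = (z • p.1, 0)) : False := by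
  classical
  have p0 : p.1 ≠ 0 := fun k => by rw [k] at hj; exact zero_ne_one hj
  obtain ⟨Λ, l1, l2, l3, l4⟩ := exists_model hE hG hj h0 hL hk (surj_of_ker hd hk)
  let W : Cv m × Rv b → Cv m × Rv b → Cv M × Rv n := fun s q => if G s = 0 then Λ q else G s
  have hr : ∀ s : Cv m × Rv b, ∃ r > 0, s.1 ≠ 0 → ∀ q ∈ ball s r,
      ‖W s q - G q‖ ≤ ‖G q‖ / 2 ∧ (G s ≠ 0 → G q ≠ 0) := fun s => by
    by_cases h1 : s.1 = 0
    · exact ⟨1, one_pos, fun k => absurd h1 k⟩
    by_cases h2 : G s = 0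
    · obtain ⟨r, hr, h3⟩ := Metric.eventually_nhds_iff_ball.1 (l4 s (hu s h1 h2))
      exact ⟨r, hr, fun _ q hq => ⟨by simpa only [W, if_pos h2] using h3 q hq,
        fun k => absurd h2 k⟩⟩
    · have h3 : 0 < ‖G s‖ := norm_pos_iff.2 h2
      obtain ⟨r, hr, h4⟩ := Metric.eventually_nhds_iff_ball.1
        (Metric.tendsto_nhds.1 (hG.cont.tendsto s) (‖G s‖ / 3) (by positivity))
      refine ⟨r, hr, fun _ q hq => ?_⟩
      have h5 := h4 q hq
      have h6 := norm_le_norm_add_norm_sub' (G s) (G q)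
      rw [dist_comm, dist_eq_norm] at h5
      simp only [W, if_neg h2]
      exact ⟨by linarith, fun _ => norm_pos_iff.1 (by linarith)⟩
  choose r r0 hr using hr
  obtain ⟨N, a, f, a1, f0, f1, f2, f3, f4⟩ := hP m b c r r0
  have hb : ∀ k, ∀ q ∈ (a k).sl, ‖W (a k).p q - G q‖ ≤ ‖G q‖ / 2 ∧ (G (a k).p ≠ 0 → G q ≠ 0) :=
    fun k q hq => hr _ (sl_ne (a k) ⟨mem_ball_self (a k).hr, (a k).hp⟩) q
      (ball_subset_ball (a1 k) hq.1)
  choose V v1 v2 v3 v4 using fun k => hE m b M n c (a k) (fun q => f k q • W (a k).p q)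
    (fun q hq => (f1 k q (sl_ne _ hq)).smul (by
      simp only [W]
      split_ifs
      exacts [l2 q (sl_ne _ hq), differentiableAt_const _]))
    fun q hq hK => by rw [f3 k q (not_sat _ hq hK), zero_smul]
  let e0 : Cv M × Rv n := (0, fun _ => 1)
  choose V' w1 w2 w3 w4 using fun k => hE m b M n c (a k) (fun q => f k q • e0)
    (fun q hq => (f1 k q (sl_ne _ hq)).smul (differentiableAt_const _))
    fun q hq hK => by rw [f3 k q (not_sat _ hq hK), zero_smul]
  have est : ∀ k q, ‖V k q - f k q • G q‖ ≤ f k q * (‖G q‖ / 2) := fun k q => by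
    by_cases h : q ∈ (a k).sat c
    · obtain ⟨q', h1, h2, h3⟩ := h
      have h4 : q' ∈ (a k).sl := ⟨(a k).sub h1, h2⟩
      rw [f2 k q' q h3]
      obtain ⟨l, z, -, rfl⟩ := h3
      rw [sec_mv (v1 k), sec_mv hG, v3 k q' h4, ← map_smul, ← map_sub, ← smul_sub, norm_act,
        norm_act, norm_smul, Real.norm_of_nonneg (f0 k q'), mul_div_assoc, mul_left_comm]
      exact mul_le_mul_of_nonneg_left (mul_le_mul_of_nonneg_left (hb k q' h4).1 (norm_nonneg z))
        (f0 k q')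
    · simp [v4 k q h, f3 k q h]
  have est' : ∀ q : Cv m × Rv b, q.1 ≠ 0 → ‖∑ k, V k q - G q‖ ≤ ‖G q‖ / 2 := fun q hq => by
    have e : ∑ k, V k q - G q = ∑ k, (V k q - f k q • G q) := by
      rw [Finset.sum_sub_distrib, ← Finset.sum_smul, f4 q hq, one_smul]
    rw [e]
    refine (norm_sum_le _ _).trans ((Finset.sum_le_sum fun k _ => est k q).trans (le_of_eq ?_))
    rw [← Finset.sum_mul, f4 q hq, one_mul]
  have z1 : ∀ q : Cv m × Rv b, q.1 ≠ 0 → ∑ k, V k q = 0 → c.Orb p q := fun q hq k => by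
    have := est' q hq
    rw [k, zero_sub, norm_neg] at this
    exact hu q hq (norm_eq_zero.1 (by linarith [norm_nonneg (G q)]))
  have z0 : ∑ k, V k p = 0 := by simpa [h0] using est' p p0
  have dV : ∀ q : Cv m × Rv b, q.1 ≠ 0 → DifferentiableAt ℝ (fun q => ∑ k, V k q) q :=
    fun q hq => DifferentiableAt.fun_sum fun k _ => v2 k q hq
  have ev : (fun q => ∑ k, V k q) =ᶠ[𝓝 p] Λ := by
    have h1 : ∀ k, ∀ᶠ q in 𝓝 p, V k q = f k q • Λ q := fun k => by
      by_cases h : G (a k).p = 0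
      · refine .of_forall fun q => ?_
        by_cases h' : q ∈ (a k).sat c
        · obtain ⟨q', h1, h2, h3⟩ := h'
          rw [f2 k q' q h3]
          obtain ⟨l, z, -, rfl⟩ := h3
          rw [sec_mv (v1 k), sec_mv l1, v3 k q' ⟨(a k).sub h1, h2⟩, map_smul]
          simp only [W, if_pos h]
        · rw [v4 k q h', f3 k q h', zero_smul]
      · filter_upwards [hS m b c (a k) p p0 fun ⟨q', h1, h2, l, z, hz, h3⟩ =>
          (hb k q' ⟨(a k).sub h1, h2⟩).2 h (act_eq_zero hz (by rw [← sec_mv hG l, ← h3, h0]))]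
          with q hq
        rw [v4 k q hq, f3 k q hq, zero_smul]
    filter_upwards [eventually_all.2 h1, continuous_fst.continuousAt.eventually_ne p0]
      with q h2 h3
    simp only [h2, ← Finset.sum_smul, f4 q h3, one_smul]
  have s0 : Function.Surjective (fderiv ℝ (fun q => ∑ k, V k q) p) := by rwa [ev.fderiv_eq]
  let e : ((Cv M × Rv n) × ℂ) ≃L[ℝ] (Cv m × Rv b) := ContinuousLinearEquiv.ofFinrankEq (by
    rw [Module.finrank_prod, finrank_prod, finrank_prod, Complex.finrank_real_complex, hd])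
  have := hC m b M n c _ _ e (sec_sum v1) (sec_sum w1) dV
    (fun q hq k => surj_orb (sec_sum v1) (z1 q hq k) (dV q hq) (dV p p0) s0) (fun q hq hz => ?_)
    {p} (by simpa using ⟨p0, z0⟩) (by simpa using fun x h => z1 (x, h)) (by simp)
  · rw [Finset.sum_singleton] at this
    exact sgn_ne e p0 s0 (der_zero (sec_sum v1) z0 (dV p p0).hasFDerivAt) this
  · have h1 : ∀ k, ∃ t : ℝ, 0 < t ∧ (V' k q).2 ⟨0, hn⟩ = f k q * t := fun k => by
      by_cases h' : q ∈ (a k).sat c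
      · obtain ⟨q', h1, h2, h3⟩ := h'
        rw [f2 k q' q h3]
        clear hz
        obtain ⟨l, z, hz, rfl⟩ := h3
        refine ⟨‖z‖, norm_pos_iff.2 hz, ?_⟩
        rw [sec_mv (w1 k), w3 k q' ⟨(a k).sub h1, h2⟩, act_apply]
        simp [e0, mul_comm]
      · exact ⟨1, one_pos, by simp [w4 k q h', f3 k q h']⟩
    choose t t0 ht using h1
    have h2 := congrArg (fun y : Cv M × Rv n => y.2 ⟨0, hn⟩) hz
    simp only [Prod.snd_sum, Finset.sum_apply, ht, Prod.snd_zero, Pi.zero_apply] at h2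
    have h3 := (Finset.sum_eq_zero_iff_of_nonneg fun k _ => mul_nonneg (f0 k q) (t0 k).le).1 h2
    have h4 := f4 q hq
    rw [Finset.sum_eq_zero fun k hk => (mul_eq_zero.1 (h3 k hk)).resolve_right (t0 k).ne'] at h4
    exact zero_ne_one h4

end Fda

open Fda

/-- **FDA** -/
theorem fda (hC : CNT_statement) (hE : EXT_statement) (hS : SAT_statement)
    (hP : PART_statement) : FDA_statement := by
  intro m b M n c G hG hn hd x₀ h₀ hx h0 hu L hL hk
  obtain ⟨j, hj⟩ := Function.ne_iff.1 hx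
  have hj' : x₀ j ≠ 0 := hj
  set z := x₀ j
  let R : Cv m × Rv b →L[ℝ] Cv m × Rv b :=
    ((z • ContinuousLinearMap.id ℂ (Cv m)).restrictScalars ℝ).prodMap (.id ℝ _)
  have hR : ∀ q : Cv m × Rv b, R q = (z • q.1, q.2) := fun _ => rfl
  have e : G = fun q => act M n z⁻¹ (G (R q)) := funext fun q => by
    rw [hR, hG.hom, act_apply]
    simp [smul_smul, hj', inv_mul_cancel₀ (norm_ne_zero_iff.2 hj')]
  have e1 : R (z⁻¹ • x₀, h₀) = (x₀, h₀) := by rw [hR, smul_inv_smul₀ hj']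
  refine fda_norm hC hE hS hP hG hn hd (p := (z⁻¹ • x₀, h₀)) (j := j) (inv_mul_cancel₀ hj')
    (by rw [e]; simp only [e1, h0, map_zero]) (fun q hq k => ?_)
    (L := (act M n z⁻¹).comp (L.comp R)) ?_ fun q k => ?_
  · obtain ⟨l, y, h1, h2⟩ := hu q.1 q.2 hq k
    refine ⟨l, y * z, mul_ne_zero (fun k => hq (by rw [h2, k, zero_smul])) hj', Prod.ext ?_ h1⟩
    show q.1 = (y * z) • c.T l h₀ (z⁻¹ • x₀)
    rw [map_smul, smul_smul, mul_inv_cancel_right₀ hj', h2]
  · rw [e]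
    exact (act M n z⁻¹).hasFDerivAt.comp _ ((e1 ▸ hL).comp _ R.hasFDerivAt)
  · obtain ⟨y, hy⟩ := hk (R q) (act_eq_zero (inv_ne_zero hj') k)
    rw [hR, Prod.ext_iff] at hy
    refine ⟨y, Prod.ext ?_ hy.2⟩
    show q.1 = y • z⁻¹ • x₀
    rw [smul_comm, ← show z • q.1 = y • x₀ from hy.1, inv_smul_smul₀ hj']

end Vale.Agent.P247A
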