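import Vale.Agent.P247A.SpecF

/-!
# P247, stage 2: the signed count of zeros of a homogeneous invariant map (statement)
-/

set_option linter.all false

open scoped ContDiff Topology
open Set Filter

noncomputable section

namespace Vale.Agent.P247A

/-- the functional `(v, η) ↦ ⟨x, v⟩` -/
def muAt {m : ℕ} (b : ℕ) (x : Cv m) : Cv m × Rv b →L[ℝ] ℂ :=
  ∑ i, (starRingEnd ℂ (x i)) •
    (((ContinuousLinearMap.proj i : Cv m →L[ℂ] ℂ).restrictScalars ℝ).comp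
      (ContinuousLinearMap.fst ℝ (Cv m) (Rv b)))

theorem muAt_apply {m b : ℕ} (x : Cv m) (q : Cv m × Rv b) :
    muAt b x q = ∑ i, starRingEnd ℂ (x i) * q.1 i := by
  simp [muAt]

/-- the sign of `(L, μ)`, measured with a fixed identification `e` -/
def sgn {E F : Type} [NormedAddCommGroup E] [NormedSpace ℝ E] [NormedAddCommGroup F]
    [NormedSpace ℝ F] (e : (F × ℂ) ≃L[ℝ] E) (L : E →L[ℝ] F) (μ : E →L[ℝ] ℂ) : ℤ :=
  SignType.sign (((e : (F × ℂ) →L[ℝ] E).comp (L.prod μ)).det)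

/-- `p` lies in the orbit of `q` -/
def Coc.Orb {m b : ℕ} (c : Coc m b) (q p : Cv m × Rv b) : Prop :=
  ∃ (l : Fin b → ℤ) (z : ℂ), z ≠ 0 ∧ p = (z • c.T l q.2 q.1, sh q.2 l)

/-- `CNT`: if some invariant map has no zero, the signed count of nondegenerate zeros vanishes -/
def CNT_statement : Prop := ∀ (m b M n : ℕ) (c : Coc m b) (G₀ G₁ : Cv m × Rv b → Cv M × Rv n)
  (e : ((Cv M × Rv n) × ℂ) ≃L[ℝ] (Cv m × Rv b)), Sec c G₀ → Sec c G₁ →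
  (∀ p : Cv m × Rv b, p.1 ≠ 0 → DifferentiableAt ℝ G₀ p) →
  (∀ p : Cv m × Rv b, p.1 ≠ 0 → G₀ p = 0 → Function.Surjective (fderiv ℝ G₀ p)) →
  (∀ p : Cv m × Rv b, p.1 ≠ 0 → G₁ p ≠ 0) →
  ∀ Z : Finset (Cv m × Rv b), (∀ p ∈ Z, p.1 ≠ 0 ∧ G₀ p = 0) →
  (∀ p : Cv m × Rv b, p.1 ≠ 0 → G₀ p = 0 → ∃ q ∈ Z, c.Orb q p) →
  (∀ q ∈ Z, ∀ q' ∈ Z, c.Orb q q' → q = q') →
  ∑ p ∈ Z, sgn e (fderiv ℝ G₀ p) (muAt b p.1) = 0

/-- `STEP`: a compactly supported modification does not change the signed count -/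
def STEP_statement : Prop := ∀ (E : Type) [NormedAddCommGroup E] [NormedSpace ℝ E]
  [FiniteDimensional ℝ E] (f g : E → E) (U K : Set E), IsOpen U → IsCompact K → K ⊆ U →
  ContinuousOn f U → ContinuousOn g U → (∀ x ∈ U, x ∉ K → f x = g x) →
  (∀ x ∈ U, f x = 0 → DifferentiableAt ℝ f x ∧ (fderiv ℝ f x).det ≠ 0) →
  (∀ x ∈ U, g x = 0 → DifferentiableAt ℝ g x ∧ (fderiv ℝ g x).det ≠ 0) →
  ∃ A B : Finset E, (∀ x, x ∈ A ↔ x ∈ K ∧ f x = 0) ∧ (∀ x, x ∈ B ↔ x ∈ K ∧ g x = 0) ∧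
    ∑ x ∈ A, (SignType.sign (fderiv ℝ f x).det : ℤ) =
      ∑ x ∈ B, (SignType.sign (fderiv ℝ g x).det : ℤ)

/-- a chart of the orbit space: a small ball in the slice `x j = 1`, with a compact subset -/
structure Slc (m b : ℕ) where
  j : Fin m
  p : Cv m × Rv b
  r : ℝ
  hp : p.1 j = 1
  hr : 0 < r
  hr' : r ≤ 1 / 2
  K : Set (Cv m × Rv b)
  cK : IsCompact K
  sub : K ⊆ Metric.ball p r

/-- the slice -/
def Slc.sl {m b : ℕ} (a : Slc m b) : Set (Cv m × Rv b) :=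
  {q | q ∈ Metric.ball a.p a.r ∧ q.1 a.j = 1}

/-- the union of the orbits through the compact part of the slice -/
def Slc.sat {m b : ℕ} (a : Slc m b) (c : Coc m b) : Set (Cv m × Rv b) :=
  {q | ∃ q' ∈ a.K, q'.1 a.j = 1 ∧ c.Orb q' q}

/-- `SAT`: the saturation is closed off the zero section -/
def SAT_statement : Prop := ∀ (m b : ℕ) (c : Coc m b) (a : Slc m b) (q : Cv m × Rv b),
  q.1 ≠ 0 → q ∉ a.sat c → ∀ᶠ q' in 𝓝 q, q' ∉ a.sat c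

/-- `EXT`: homogeneous invariant extension from a slice -/
def EXT_statement : Prop := ∀ (m b M n : ℕ) (c : Coc m b) (a : Slc m b)
  (u : Cv m × Rv b → Cv M × Rv n), (∀ q ∈ a.sl, DifferentiableAt ℝ u q) →
  (∀ q ∈ a.sl, q ∉ a.K → u q = 0) →
  ∃ U : Cv m × Rv b → Cv M × Rv n, Sec c U ∧
    (∀ q : Cv m × Rv b, q.1 ≠ 0 → DifferentiableAt ℝ U q) ∧ (∀ q ∈ a.sl, U q = u q) ∧
    ∀ q, q ∉ a.sat c → U q = 0

/-- `PART`: invariant partitions of unity subordinate to small slices -/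
def PART_statement : Prop := ∀ (m b : ℕ) (c : Coc m b) (r : Cv m × Rv b → ℝ), (∀ p, 0 < r p) →
  ∃ (N : ℕ) (a : Fin N → Slc m b) (f : Fin N → Cv m × Rv b → ℝ),
    (∀ k, (a k).r ≤ r (a k).p) ∧ (∀ k q, 0 ≤ f k q) ∧
    (∀ k (q : Cv m × Rv b), q.1 ≠ 0 → DifferentiableAt ℝ (f k) q) ∧
    (∀ k q q', c.Orb q q' → f k q' = f k q) ∧ (∀ k q, q ∉ (a k).sat c → f k q = 0) ∧
    ∀ q : Cv m × Rv b, q.1 ≠ 0 → ∑ k, f k q = 1

end Vale.Agent.P247A
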