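import Vale.Agent.P247A.Fdb2
import Vale.Agent.P247A.CntSta

/-!
# P247, row `FDB`
-/

set_option linter.all false

open scoped ContDiff Topology ComplexConjugate Real
open Set Filter Module Function Complex

noncomputable section

namespace Vale.Agent.P247A

namespace Fdb

def ch (t : ℝ) : ℝ := expNegInvGlue (1 - t ^ 2)

theorem cd_ch : ContDiff ℝ ∞ ch :=
  expNegInvGlue.contDiff.comp (contDiff_const.sub (contDiff_id.pow 2))

theorem ch_zero {t : ℝ} : ch t = 0 ↔ 1 ≤ |t| := by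
  rw [ch, expNegInvGlue.zero_iff_nonpos, sub_nonpos, one_le_sq_iff_one_le_abs]

theorem ch_der (t : ℝ) : HasDerivAt ch (((1 - t ^ 2)⁻¹) ^ 2 * ch t * (-(2 * t))) t := by
  have h1 := expNegInvGlue.hasDerivAt_polynomial_eval_inv_mul 1 (1 - t ^ 2)
  simp only [Polynomial.eval_one, one_mul, Polynomial.derivative_one, sub_zero, mul_one,
    Polynomial.eval_pow, Polynomial.eval_X] at h1
  have h2 : HasDerivAt (fun t : ℝ => 1 - t ^ 2) (-(2 * t)) t := by
    simpa using (hasDerivAt_pow 2 t).const_sub 1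
  exact h1.comp t h2

/-- the theta function -/
def th (d : ℤ) (h : Rv 2) : ℂ := ∑ᶠ n : ℤ, (ch (h 1 + n) : ℂ) * exp (d * n * h 0 * (2 * π * I))

theorem cd_ex (a : ℂ) : ContDiff ℝ ∞ fun h : Rv 2 => exp (a * h 0 * (2 * π * I)) :=
  (contDiff_exp (𝕜 := ℝ)).comp ((contDiff_const.mul
    (ofRealCLM.contDiff.comp (contDiff_apply ℝ ℝ 0))).mul contDiff_const)

theorem cd_th (d : ℤ) : ContDiff ℝ ∞ (th d) := by
  refine (contMDiff_finsum (f := fun (n : ℤ) (h : Rv 2) =>
    (ch (h 1 + n) : ℂ) * exp (d * n * h 0 * (2 * π * I))) (fun n => ContDiff.contMDiff ?_)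
    fun h => ?_).contDiff
  · exact (ofRealCLM.contDiff.comp
      (cd_ch.comp ((contDiff_apply ℝ ℝ 1).add contDiff_const))).mul (cd_ex _)
  refine ⟨Metric.ball h 1, Metric.ball_mem_nhds h one_pos, ?_⟩
  refine (Set.finite_Icc (⌊-h 1⌋ - 3) (⌊-h 1⌋ + 3)).subset ?_
  rintro n ⟨x, hx, hb⟩
  have h1 : ch (x 1 + n) ≠ 0 := fun e => hx (by simp only [e, ofReal_zero, zero_mul])
  have a := abs_lt.1 (not_le.1 (mt ch_zero.2 h1))
  have b := abs_lt.1 ((dist_le_pi_dist x h 1).trans_lt hb)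
  have e1 := Int.floor_le (-h 1)
  have e2 := Int.lt_floor_add_one (-h 1)
  constructor
  · have : ((⌊-h 1⌋ - 3 : ℤ) : ℝ) ≤ n := by push_cast; linarith [a.1, b.2]
    exact_mod_cast this
  · have : (n : ℝ) ≤ ((⌊-h 1⌋ + 3 : ℤ) : ℝ) := by push_cast; linarith [a.2, b.1]
    exact_mod_cast this

theorem th_sh (d : ℤ) (l : Z2) (h : Rv 2) : th d (sh h l) * mo d l h = th d h := by
  unfold th
  rw [finsum_mul]
  refine finsum_eq_of_bijective (fun n : ℤ => n + l 1) (Equiv.addRight (l 1)).bijective fun n => ?_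
  rw [mul_assoc, mo, ← exp_add]
  congr 1
  · simp only [sh]; push_cast; ring_nf
  · rw [exp_eq_exp_iff_exists_int]
    refine ⟨d * n * l 0, ?_⟩
    simp only [sh]; push_cast; ring

theorem th_tr {d : ℤ} (hd : d ≠ 0) (k : ℤ) (h : Rv 2) :
    th d (h + Pi.single 0 ((k : ℝ) / d)) = th d h := by
  unfold th
  refine finsum_congr fun n => ?_
  have hd' : (d : ℂ) ≠ 0 := Int.cast_ne_zero.2 hd
  congr 1
  · simp
  · rw [exp_eq_exp_iff_exists_int]
    refine ⟨n * k, ?_⟩
    simp only [Pi.add_apply, Pi.single_eq_same]; push_cast; field_simp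

theorem th_loc (d N : ℤ) {h : Rv 2} (h1 : (N : ℝ) ≤ h 1) (h2 : h 1 ≤ N + 1) :
    th d h = exp (d * (-N) * h 0 * (2 * π * I)) *
      (ch (h 1 - N) + ch (h 1 - N - 1) * exp (-d * h 0 * (2 * π * I))) := by
  unfold th
  rw [finsum_eq_sum_of_support_subset (s := {-N, -N - 1}) _ fun n hn => ?_,
    Finset.sum_pair (by omega)]
  · have e1 : exp (d * (-N - 1 : ℤ) * h 0 * (2 * π * I)) =
        exp (d * (-N) * h 0 * (2 * π * I)) * exp (-d * h 0 * (2 * π * I)) := by
      rw [← exp_add]; congr 1; push_cast; ring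
    rw [e1, show h 1 + ((-N : ℤ) : ℝ) = h 1 - N by push_cast; ring,
      show h 1 + ((-N - 1 : ℤ) : ℝ) = h 1 - N - 1 by push_cast; ring]
    push_cast
    ring
  · have h3 : ch (h 1 + n) ≠ 0 := fun e => hn (by simp only [e, ofReal_zero, zero_mul])
    have a := abs_lt.1 (not_le.1 (mt ch_zero.2 h3))
    have b : ((-N - 2 : ℤ) : ℝ) < n := by push_cast; linarith [a.1]
    have c : (n : ℝ) < ((-N + 1 : ℤ) : ℝ) := by push_cast; linarith [a.2]
    have b' : -N - 2 < n := by exact_mod_cast b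
    have c' : n < -N + 1 := by exact_mod_cast c
    simp only [Finset.coe_insert, Finset.coe_singleton, mem_insert_iff, mem_singleton_iff]
    omega

theorem th_zero {d : ℤ} (hd : d ≠ 0) {h : Rv 2} (hz : th d h = 0) :
    (∃ N k : ℤ, h 1 = N + 1 / 2 ∧ h 0 = (2 * k + 1) / (2 * d)) ∧
      Injective (fderiv ℝ (th d) h) := by
  have hd' : (d : ℝ) ≠ 0 := Int.cast_ne_zero.2 hd
  set N := ⌊h 1⌋
  have a1 : (N : ℝ) ≤ h 1 := Int.floor_le _
  have a2 : h 1 < N + 1 := Int.lt_floor_add_one _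
  have h1 := hz
  rw [th_loc d N a1 a2.le, mul_eq_zero, or_iff_right (exp_ne_zero _)] at h1
  set t := h 1 - N with ht
  have hE : ‖exp (-d * h 0 * (2 * π * I))‖ = 1 := by
    rw [show -(d : ℂ) * h 0 * (2 * π * I) = ((-d * h 0 * (2 * π) : ℝ) : ℂ) * I by push_cast; ring]
    exact norm_exp_ofReal_mul_I _
  have p0 : ∀ s, 0 ≤ ch s := fun s => expNegInvGlue.nonneg _
  have h2 : ch t = ch (t - 1) := by
    have := congrArg norm (eq_neg_of_add_eq_zero_left h1)
    rwa [norm_neg, norm_mul, hE, mul_one, norm_real, norm_real, Real.norm_of_nonneg (p0 _),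
      Real.norm_of_nonneg (p0 _)] at this
  have h3 : ch t ≠ 0 := by
    rw [Ne, ch_zero, not_le, abs_lt]; constructor <;> linarith
  have h4 : t = 1 / 2 := by
    have q1 : ¬ 1 - t ^ 2 ≤ 0 := fun e => h3 (expNegInvGlue.zero_iff_nonpos.2 e)
    have q2 : ¬ 1 - (t - 1) ^ 2 ≤ 0 := fun e => h3 (h2 ▸ expNegInvGlue.zero_iff_nonpos.2 e)
    have q3 := h2
    simp only [ch, expNegInvGlue, if_neg q1, if_neg q2, Real.exp_eq_exp, neg_inj, inv_inj] at q3
    linarith
  have h5 : exp (-d * h 0 * (2 * π * I)) = -1 := by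
    rw [← h2] at h1
    have : (ch t : ℂ) * (exp (-d * h 0 * (2 * π * I)) + 1) = 0 := by linear_combination h1
    exact eq_neg_of_add_eq_zero_left ((mul_eq_zero.1 this).resolve_left (ofReal_ne_zero.2 h3))
  refine ⟨?_, ?_⟩
  · rw [← exp_pi_mul_I, exp_eq_exp_iff_exists_int] at h5
    obtain ⟨k, hk⟩ := h5
    refine ⟨N, -k - 1, by linarith, ?_⟩
    have q1 : ((-d * h 0 * 2 : ℝ) : ℂ) * (π * I) = ((1 + k * 2 : ℝ) : ℂ) * (π * I) := by
      push_cast; linear_combination hk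
    have q2 := ofReal_injective (mul_right_cancel₀ (mul_ne_zero (ofReal_ne_zero.2 Real.pi_ne_zero)
      I_ne_zero) q1)
    rw [eq_div_iff (mul_ne_zero two_ne_zero hd')]
    push_cast
    linarith
  have e1 : th d =ᶠ[𝓝 h] fun h => exp (d * (-N) * h 0 * (2 * π * I)) *
      (ch (h 1 - N) + ch (h 1 - N - 1) * exp (-d * h 0 * (2 * π * I))) := by
    have : ∀ᶠ x : Rv 2 in 𝓝 h, x 1 ∈ Icc (N : ℝ) (N + 1) :=
      (continuous_apply 1).continuousAt.preimage_mem_nhds (Icc_mem_nhds (by linarith) a2)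
    filter_upwards [this] with x hx using th_loc d N hx.1 hx.2
  let p : Fin 2 → Rv 2 →L[ℝ] ℝ := fun i => ContinuousLinearMap.proj i
  have d0 : ∀ i, HasFDerivAt (fun x : Rv 2 => x i) (p i) h := fun i => (p i).hasFDerivAt
  have d1 := ofRealCLM.hasFDerivAt.comp h
    ((ch_der t).comp_hasFDerivAt h ((d0 1).sub_const (N : ℝ)))
  have d2 := ofRealCLM.hasFDerivAt.comp h
    ((ch_der (t - 1)).comp_hasFDerivAt h (((d0 1).sub_const (N : ℝ)).sub_const 1))
  have d3 := (((ofRealCLM.hasFDerivAt.comp h (d0 0)).const_mul (-(d : ℂ))).mul_const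
    (2 * π * I)).cexp
  have d4 := ((cd_ex (d * (-N))).differentiable (by simp) h).hasFDerivAt
  have d5 := (d4.fun_mul (d1.fun_add (d2.fun_mul d3))).fderiv
  rw [e1.fderiv_eq]
  erw [d5]
  refine (injective_iff_map_eq_zero _).2 fun η hη => ?_
  simp only [ContinuousLinearMap.add_apply, ContinuousLinearMap.smul_apply, Function.comp_apply,
    ofRealCLM_apply, ContinuousLinearMap.comp_apply, smul_eq_mul, ← ht, h5, ← h2, p,
    ContinuousLinearMap.proj_apply, mul_neg, mul_one, add_neg_cancel, zero_mul, add_zero,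
    mul_eq_zero, exp_ne_zero, false_or] at hη
  have r1 := congrArg re hη
  have r2 := congrArg im hη
  simp only [add_re, add_im, mul_re, mul_im, ofReal_re, ofReal_im, neg_re, neg_im, one_re, one_im,
    I_re, I_im, re_ofNat, im_ofNat, intCast_re, intCast_im, zero_re, zero_im] at r1 r2
  rw [h4] at r1 r2 h3
  funext i
  fin_cases i
  · have : ch (1 / 2) * π * d * η 0 = 0 := by linear_combination (1 / 2) * r2
    simpa [Real.pi_ne_zero, hd, show ch 2⁻¹ ≠ 0 by simpa using h3] using this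
  · have : ch (1 / 2) * η 1 = 0 := by linear_combination (-9 / 32) * r1
    exact (mul_eq_zero.1 this).resolve_left h3

variable {n : ℕ}

/-- the projection to the first coordinate -/
def P0 (n : ℕ) : Cv (n + 1) →L[ℂ] Cv (n + 1) :=
  (ContinuousLinearMap.single ℂ (fun _ => ℂ) 0).comp (ContinuousLinearMap.proj 0)

/-- multiplication of the first coordinate -/
def dg (z : ℂ) : Cv (n + 1) →L[ℂ] Cv (n + 1) := ContinuousLinearMap.id ℂ _ + (z - 1) • P0 n

theorem dg_zero (z : ℂ) (x : Cv (n + 1)) : dg z x 0 = z * x 0 := by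
  simp [dg, P0]; ring

theorem dg_succ (z : ℂ) (x : Cv (n + 1)) (i : Fin n) : dg z x i.succ = x i.succ := by
  simp [dg, P0]

theorem dg_dg (z z' : ℂ) (x : Cv (n + 1)) : dg z (dg z' x) = dg (z * z') x := by
  funext i
  refine Fin.cases ?_ (fun i => ?_) i
  · simp only [dg_zero, mul_assoc]
  · simp only [dg_succ]

theorem cd_dg {f : Rv 2 → ℂ} (hf : ContDiff ℝ ∞ f) :
    ContDiff ℝ ∞ fun h => (dg (f h) : Cv (n + 1) →L[ℂ] Cv (n + 1)) :=
  contDiff_const.add ((hf.sub contDiff_const).smul_const _)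

/-- the model bundle -/
def mod (n : ℕ) (d : ℤ) : Coc (n + 1) 2 where
  T l h := dg (mo d l h)
  smooth l := cd_dg (cd_ex _)
  zero h x := by simp [mo_zero, dg]
  add l l' h x := by rw [dg_dg, mo_add]

/-- the model section -/
def G0 (n : ℕ) (d : ℤ) (p : Cv (n + 1) × Rv 2) : Cv (n + 1) × Rv 0 := (dg (th d p.2) p.1, 0)

theorem cd_G0 (n : ℕ) (d : ℤ) : ContDiff ℝ ∞ (G0 n d) :=
  ContDiff.prodMk (((ContinuousLinearMap.restrictScalarsL ℂ (Cv (n + 1)) (Cv (n + 1)) ℝ ℝ).contDiff.comp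
    ((cd_dg (cd_th d)).comp contDiff_snd)).clm_apply contDiff_fst) contDiff_const

theorem sec_G0 (n : ℕ) (d : ℤ) : Sec (mod n d) (G0 n d) where
  cont := (cd_G0 n d).continuous
  hom z x h := Prod.ext (map_smul _ _ _) (Subsingleton.elim _ _)
  inv l x h := Prod.ext (by
    show dg (th d (sh h l)) (dg (mo d l h) x) = dg (th d h) x
    rw [dg_dg, th_sh]) rfl

theorem G0_zero {d : ℤ} {p : Cv (n + 1) × Rv 2} (hp : p.1 ≠ 0) (h : G0 n d p = 0) :
    p.1 0 ≠ 0 ∧ (∀ i : Fin n, p.1 i.succ = 0) ∧ th d p.2 = 0 := by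
  have h1 : ∀ i : Fin n, p.1 i.succ = 0 := fun i => by
    rw [← dg_succ (th d p.2) p.1]; exact congrFun (congrArg Prod.fst h) i.succ
  have h2 : p.1 0 ≠ 0 := fun e => hp (funext fun i => Fin.cases e h1 i)
  have h3 := congrFun (congrArg Prod.fst h) 0
  exact ⟨h2, h1, (mul_eq_zero.1 ((dg_zero _ _).symm.trans h3)).resolve_right h2⟩

theorem G0_der {d : ℤ} {p : Cv (n + 1) × Rv 2} (h : th d p.2 = 0) (q : Cv (n + 1) × Rv 2) :
    (fderiv ℝ (G0 n d) p q).1 0 = fderiv ℝ (th d) p.2 q.2 * p.1 0 ∧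
      ∀ i : Fin n, (fderiv ℝ (G0 n d) p q).1 i.succ = q.1 i.succ := by
  let pr : Fin (n + 1) → Cv (n + 1) × Rv 0 →L[ℝ] ℂ := fun i =>
    (ContinuousLinearMap.proj i).comp (ContinuousLinearMap.fst ℝ _ _)
  let ρ : Fin (n + 1) → Cv (n + 1) × Rv 2 →L[ℝ] ℂ := fun i =>
    (ContinuousLinearMap.proj i).comp (ContinuousLinearMap.fst ℝ _ _)
  have h1 := fun i => (pr i).hasFDerivAt.comp p
    ((cd_G0 n d).differentiable (by simp) p).hasFDerivAt
  constructor
  · have h2 := (((cd_th d).differentiable (by simp) p.2).hasFDerivAt.comp p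
      hasFDerivAt_snd).fun_mul (ρ 0).hasFDerivAt
    have h3 := DFunLike.congr_fun ((h1 0).unique (h2.congr_of_eventuallyEq
      (Eventually.of_forall fun x => dg_zero _ _))) q
    simp only [ContinuousLinearMap.add_apply, ContinuousLinearMap.smul_apply, Function.comp_apply,
      h, zero_mul, zero_add, ContinuousLinearMap.comp_apply, smul_eq_mul] at h3
    exact h3.trans (mul_comm _ _)
  · intro i
    exact DFunLike.congr_fun ((h1 i.succ).unique ((ρ i.succ).hasFDerivAt.congr_of_eventuallyEq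
      (Eventually.of_forall fun x => dg_succ _ _ _))) q

theorem no_zero (hC : CNT_statement) {d : ℤ} (hd : d ≠ 0)
    {G : Cv (n + 1) × Rv 2 → Cv (n + 1) × Rv 0} (hG : Sec (mod n d) G)
    (h0 : ∀ p : Cv (n + 1) × Rv 2, p.1 ≠ 0 → G p ≠ 0) : False := by
  classical
  have hd' : (d : ℝ) ≠ 0 := Int.cast_ne_zero.2 hd
  let e : ((Cv (n + 1) × Rv 0) × ℂ) ≃L[ℝ] (Cv (n + 1) × Rv 2) :=
    ContinuousLinearEquiv.ofFinrankEq (by simp [finrank_prod])
  let x0 : Cv (n + 1) := Pi.single 0 1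
  have hx0 : x0 ≠ 0 := fun e => by simpa [x0] using congrFun e 0
  let pt : ℤ → Cv (n + 1) × Rv 2 := fun k => (x0, ![(2 * k + 1) / (2 * d), 1 / 2])
  have hpt : ∀ k, pt k = pt 0 + (0, Pi.single 0 ((k : ℝ) / d)) := fun k => by
    refine Prod.ext (add_zero _).symm (funext fun i => ?_)
    fin_cases i
    · show (2 * (k : ℝ) + 1) / (2 * d) = (2 * ((0 : ℤ) : ℝ) + 1) / (2 * d) +
        (Pi.single 0 ((k : ℝ) / d) : Rv 2) 0
      rw [Pi.single_eq_same]; field_simp; push_cast; ring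
    · show (1 / 2 : ℝ) = 1 / 2 + (Pi.single 0 ((k : ℝ) / d) : Rv 2) 1
      simp
  have htr : ∀ (k : ℤ) p, G0 n d (p + (0, Pi.single 0 ((k : ℝ) / d))) = G0 n d p := fun k p => by
    simp only [G0, Prod.snd_add, Prod.fst_add, add_zero, th_tr hd]
  have hz0 : th d (pt 0).2 = 0 := by
    rw [th_loc d 0 (by simp [pt]) (by simp [pt]; norm_num)]
    have e1 : exp (-d * (pt 0).2 0 * (2 * π * I)) = -1 := by
      rw [← exp_neg_pi_mul_I]
      congr 1
      have : (d : ℂ) ≠ 0 := Int.cast_ne_zero.2 hd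
      simp [pt]; field_simp
    have e2 : ch ((pt 0).2 1 - (0 : ℤ) - 1) = ch ((pt 0).2 1 - (0 : ℤ)) := by
      simp [pt, ch]; norm_num
    rw [e1, e2]; ring
  have hG0 : G0 n d (pt 0) = 0 := by
    refine Prod.ext (funext fun i => ?_) rfl
    refine Fin.cases ?_ (fun i => ?_) i
    · exact (dg_zero _ _).trans (by rw [hz0, zero_mul]; rfl)
    · exact (dg_succ _ _ _).trans (by simp [pt, x0])
  have key := hC (n + 1) 2 (n + 1) 0 (mod n d) (G0 n d) G e (sec_G0 n d) hG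
    (fun p _ => (cd_G0 n d).differentiable (by simp) p) (fun p hp h => ?_) h0
    ((Finset.Ico 0 |d|).image pt) (fun p hp => ?_) (fun p hp h => ?_) fun q hq q' hq' h => ?_
  · have h1 : ∀ p ∈ (Finset.Ico 0 |d|).image pt, sgn e (fderiv ℝ (G0 n d) p) (muAt 2 p.1) =
        sgn e (fderiv ℝ (G0 n d) (pt 0)) (muAt 2 x0) := fun p hp => by
      obtain ⟨k, -, rfl⟩ := Finset.mem_image.1 hp
      congr 1
      rw [hpt k, ← fderiv_comp_add_right, funext (htr k)]
    rw [Finset.sum_congr rfl h1, Finset.sum_const, smul_eq_zero, Finset.card_eq_zero,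
      Finset.image_eq_empty, Finset.Ico_eq_empty_iff] at key
    rcases key with key | key
    · exact key (abs_pos.2 hd)
    have h2 : ((e : _ →L[ℝ] _).comp ((fderiv ℝ (G0 n d) (pt 0)).prod (muAt 2 x0))).det = 0 := by
      rw [← sign_eq_zero_iff]
      unfold sgn at key
      exact (by decide : ∀ s : SignType, (s : ℤ) = 0 → s = 0) _ key
    refine LinearMap.det_eq_zero_iff_ker_ne_bot.1 h2 (LinearMap.ker_eq_bot'.2 fun q hq => ?_)
    have h3 : (fderiv ℝ (G0 n d) (pt 0) q, muAt 2 x0 q) = 0 := e.injective (hq.trans (map_zero e).symm)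
    obtain ⟨h4, h5⟩ := G0_der (n := n) hz0 q
    rw [show fderiv ℝ (G0 n d) (pt 0) q = 0 from congrArg Prod.fst h3] at h4 h5
    have h6 : muAt 2 x0 q = 0 := congrArg Prod.snd h3
    have h7 : q.1 0 = 0 := by simpa [muAt_apply, x0, Pi.single_apply] using h6
    have h8 : fderiv ℝ (th d) (pt 0).2 q.2 = fderiv ℝ (th d) (pt 0).2 0 := by
      rw [map_zero, ← mul_one (fderiv ℝ (th d) (pt 0).2 q.2)]
      exact h4.symm
    exact Prod.ext (funext fun i => Fin.cases h7 (fun i => (h5 i).symm) i) ((th_zero hd hz0).2 h8)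
  · obtain ⟨a1, a2, a3⟩ := G0_zero hp h
    have h1 : Surjective (fderiv ℝ (th d) p.2) :=
      (LinearMap.injective_iff_surjective_of_finrank_eq_finrank
        (f := (fderiv ℝ (th d) p.2 : Rv 2 →ₗ[ℝ] ℂ)) (by simp)).1 (th_zero hd a3).2
    intro y
    obtain ⟨η, hη⟩ := h1 (y.1 0 / p.1 0)
    refine ⟨(y.1, η), Prod.ext (funext fun i => ?_) (Subsingleton.elim _ _)⟩
    refine Fin.cases ?_ (fun i => (G0_der a3 _).2 i) i
    rw [(G0_der a3 _).1, hη, div_mul_cancel₀ _ a1]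
  · obtain ⟨k, -, rfl⟩ := Finset.mem_image.1 hp
    exact ⟨hx0, by rw [hpt, htr, hG0]⟩
  · obtain ⟨a1, a2, a3⟩ := G0_zero hp h
    obtain ⟨N, k, b1, b2⟩ := (th_zero hd a3).1
    refine ⟨pt (k % d), Finset.mem_image_of_mem _ (Finset.mem_Ico.2
      ⟨Int.emod_nonneg _ hd, Int.emod_lt_abs _ hd⟩), ![k / d, N],
      p.1 0 / mo d ![k / d, N] (pt (k % d)).2, div_ne_zero a1 (exp_ne_zero _),
      Prod.ext (funext fun i => ?_) (funext fun i => ?_)⟩
    · show p.1 i = p.1 0 / _ * dg _ x0 i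
      refine Fin.cases ?_ (fun i => ?_) i
      · rw [dg_zero, ← mul_assoc, div_mul_cancel₀ _ (show mo _ _ _ ≠ 0 from exp_ne_zero _)]
        simp [x0]
      · rw [dg_succ, a2]; simp [x0]
    · fin_cases i
      · have e1 : (k : ℝ) = (k % d : ℤ) + d * (k / d : ℤ) := by
          exact_mod_cast (Int.emod_add_mul_ediv k d).symm
        show p.2 0 = (2 * ((k % d : ℤ) : ℝ) + 1) / (2 * d) + ((k / d : ℤ) : ℝ)
        rw [b2, e1]; field_simp; ring
      · show p.2 1 = 1 / 2 + (N : ℝ)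
        rw [b1, add_comm]
  · obtain ⟨k, hk, rfl⟩ := Finset.mem_image.1 hq
    obtain ⟨k', hk', rfl⟩ := Finset.mem_image.1 hq'
    obtain ⟨l, z, -, h⟩ := h
    have h1 : (2 * (k' : ℝ) + 1) / (2 * d) = (2 * k + 1) / (2 * d) + l 0 :=
      congrFun (congrArg Prod.snd h) 0
    have h2 : (k' : ℝ) = k + d * l 0 := by field_simp at h1; linarith
    have h3 : k' = k + d * l 0 := by exact_mod_cast h2
    rw [Finset.mem_Ico] at hk hk'
    have h4 : k' - k = 0 := Int.eq_zero_of_abs_lt_dvd ((abs_dvd d _).2 ⟨l 0, by rw [h3]; ring⟩)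
      (abs_lt.2 ⟨by linarith [hk.2, hk'.1], by linarith [hk.1, hk'.2]⟩)
    rw [sub_eq_zero.1 h4]

end Fdb

open Fdb in
theorem fdb (hC : CNT_statement) : FDB_statement := by
  intro m c G hG h0
  rcases m with _ | n
  · exact ⟨fun _ => 0, continuous_const, fun h => injective_of_subsingleton _, fun _ _ _ => rfl⟩
  obtain ⟨d, B, hB, hi, hs⟩ := classify c
  let j : (ℂ × Cv n) ≃L[ℂ] Cv (n + 1) := Fin.consEquivL ℂ fun _ => ℂ
  let A : Rv 2 → Cv (n + 1) →L[ℂ] Cv (n + 1) := fun h => (j : _ →L[ℂ] _).comp (B h)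
  have hA : Continuous A := continuous_const.clm_comp hB
  have hAi : ∀ h, Injective (A h) := fun h => j.injective.comp (hi h)
  have hAs : ∀ l h x, A (sh h l) (c.T l h x) = dg (mo d l h) (A h x) := fun l h x => by
    show j (B (sh h l) (c.T l h x)) = _
    rw [hs]
    funext i
    refine Fin.cases ?_ (fun i => ?_) i
    · rw [dg_zero]; rfl
    · rw [dg_succ]; rfl
  by_cases hd : d = 0
  · exact ⟨A, hA, hAi, fun l h x => by rw [hAs]; simp [hd, mo, dg]⟩
  have hu : ∀ h, IsUnit (A h) := fun h => ContinuousLinearMap.isUnit_iff_bijective.2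
    ⟨hAi h, (LinearMap.injective_iff_surjective (f := (A h : Cv (n + 1) →ₗ[ℂ] Cv (n + 1)))).1 (hAi h)⟩
  have hI : Continuous fun h => Ring.inverse (A h) := continuous_iff_continuousAt.2 fun h =>
    ContinuousAt.comp (g := Ring.inverse) (NormedRing.inverse_continuousAt (hu h).unit) hA.continuousAt
  have l1 : ∀ h x, Ring.inverse (A h) (A h x) = x := fun h x =>
    DFunLike.congr_fun (Ring.inverse_mul_cancel _ (hu h)) x
  have l2 : ∀ h x, A h (Ring.inverse (A h) x) = x := fun h x =>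
    DFunLike.congr_fun (Ring.mul_inverse_cancel _ (hu h)) x
  refine (no_zero hC hd (G := fun p => G (Ring.inverse (A p.2) p.1, p.2)) ⟨?_, fun z x h => ?_,
    fun l x h => ?_⟩ fun p hp => h0 _ _ fun e => hp ?_).elim
  · exact hG.cont.comp (((hI.comp continuous_snd).clm_apply continuous_fst).prodMk continuous_snd)
  · simp only [map_smul, hG.hom]
  · show G (Ring.inverse (A (sh h l)) (dg (mo d l h) x), sh h l) = G (Ring.inverse (A h) x, h)
    conv_lhs => rw [← l2 h x, ← hAs, l1]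
    exact hG.inv _ _ _
  · rw [← l2 p.2 p.1, e, map_zero]

end Vale.Agent.P247A

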