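import Vale.Agent.P247A.CntSta
import Vale.Agent.P251.G.BrDeg

/-!
# P247, stage 2: row STEP
-/

set_option linter.all false

open scoped ContDiff Topology
open Set Filter Metric Bornology

noncomputable section

namespace Vale.Agent.P247A

namespace Stp

open Vale.Agent.P205.TI.Deg Vale.Agent.P251.G

variable {n : ℕ} {f g : (Fin n → ℝ) → Fin n → ℝ} {z : Fin n → ℝ}

theorem near (h0 : f z = 0) (hd : DifferentiableAt ℝ f z) (h : (fderiv ℝ f z).det ≠ 0) :
    ∀ᶠ x in 𝓝 z, x ≠ z → ∀ t ∈ Icc (0 : ℝ) 1, (1 - t) • f x + t • fderiv ℝ f z (x - z) ≠ 0 := by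
  set L := fderiv ℝ f z
  obtain ⟨c, c0, hc⟩ : ∃ c > 0, ∀ v, ‖v‖ ≤ c * ‖L v‖ := by
    let e := L.toContinuousLinearEquivOfDetNeZero h
    refine ⟨‖(e.symm : (Fin n → ℝ) →L[ℝ] Fin n → ℝ)‖ + 1, by positivity, fun v => ?_⟩
    have := (e.symm : (Fin n → ℝ) →L[ℝ] Fin n → ℝ).le_opNorm (e v)
    rw [ContinuousLinearEquiv.coe_coe, e.symm_apply_apply] at this
    have k : e v = L v := rfl
    rw [k] at this
    nlinarith [norm_nonneg (L v)]
  filter_upwards [hd.hasFDerivAt.isLittleO.def (c := 1 / (2 * c)) (by positivity)] with x hx hz t ht e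
  rw [h0, sub_zero] at hx
  have e1 : L (x - z) = -((1 - t) • (f x - L (x - z))) := by
    rw [eq_neg_iff_add_eq_zero, ← e]
    module
  have e2 : ‖L (x - z)‖ ≤ ‖f x - L (x - z)‖ := by
    conv_lhs => rw [e1]
    rw [norm_neg, norm_smul, Real.norm_of_nonneg (by linarith [ht.2])]
    nlinarith [norm_nonneg (f x - L (x - z)), ht.1]
  have e3 := (hc (x - z)).trans (mul_le_mul_of_nonneg_left (e2.trans hx) c0.le)
  have e4 : c * (1 / (2 * c) * ‖x - z‖) = ‖x - z‖ / 2 := by field_simp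
  linarith [norm_pos_iff.2 (sub_ne_zero.2 hz)]

theorem fin {C : Set (Fin n → ℝ)} (hC : IsCompact C) (hf : ContinuousOn f C)
    (h : ∀ x ∈ C, f x = 0 → DifferentiableAt ℝ f x ∧ (fderiv ℝ f x).det ≠ 0) :
    {x | x ∈ C ∧ f x = 0}.Finite := by
  have c : IsCompact {x | x ∈ C ∧ f x = 0} := hC.of_isClosed_subset
    (hf.preimage_isClosed_of_isClosed hC.isClosed isClosed_singleton) fun x hx => hx.1
  obtain ⟨t, ht, ht'⟩ := c.elim_nhds_subcover _ fun x hx =>
    near hx.2 (h x hx.1 hx.2).1 (h x hx.1 hx.2).2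
  refine t.finite_toSet.subset fun x hx => ?_
  obtain ⟨z, hz, hxz⟩ := mem_iUnion₂.1 (ht' hx)
  by_cases e : x = z
  · exact e ▸ hz
  · exact absurd (by simp [hx.2]) (hxz e 0 ⟨le_rfl, zero_le_one⟩)

theorem loc (h0 : f z = 0) (hd : DifferentiableAt ℝ f z) (h : (fderiv ℝ f z).det ≠ 0)
    {V : Set (Fin n → ℝ)} (hV : V ∈ 𝓝 z) (hf : ContinuousOn f V) :
    ∃ r > 0, ball z r ⊆ V ∧ degR f (ball z r) = sg (fderiv ℝ f z).det := by
  obtain ⟨r, r0, hr⟩ := nhds_basis_closedBall.mem_iff.1 (inter_mem hV (near h0 hd h))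
  refine ⟨r, r0, fun x hx => (hr (ball_subset_closedBall hx)).1, ?_⟩
  set L := fderiv ℝ f z
  have sm : ContDiff ℝ ∞ fun x => L (x - z) := L.contDiff.comp (contDiff_id.sub contDiff_const)
  have ne : ∀ x ∈ frontier (ball z r), x ∈ closedBall z r ∧ x ≠ z := fun x hx => by
    rw [isOpen_ball.frontier_eq] at hx
    exact ⟨closure_ball_subset_closedBall hx.1, fun e => hx.2 (e ▸ mem_ball_self r0)⟩
  have d : ∀ x, fderiv ℝ (fun x => L (x - z)) x = L := fun x =>
    (by simpa using L.hasFDerivAt.comp x ((hasFDerivAt_id x).sub_const z) :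
      HasFDerivAt (fun x => L (x - z)) L x).fderiv
  rw [degR_homotopy isOpen_ball isBounded_ball
    (hf.mono fun x hx => (hr (closure_ball_subset_closedBall hx)).1) sm.continuous.continuousOn
    fun x hx => (hr (ne x hx).1).2 (ne x hx).2]
  obtain ⟨Z, h1, h2⟩ := degR_regular sm isOpen_ball isBounded_ball
    (fun x hx => by simpa using (hr (ne x hx).1).2 (ne x hx).2 1 ⟨zero_le_one, le_rfl⟩)
    fun x _ _ => by rwa [d]
  have : Z = {z} := by
    ext x
    rw [h1, Finset.mem_singleton]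
    refine ⟨fun hx => by_contra fun e => ?_, fun e => by simp [e, r0]⟩
    simpa [hx.2] using (hr (ball_subset_closedBall hx.1)).2 e 1 ⟨zero_le_one, le_rfl⟩
  rw [h2, this, Finset.sum_singleton, d]

theorem cnt {W K : Set (Fin n → ℝ)} (hW : IsOpen W) (hb : IsBounded W) (hK : K ⊆ W)
    (hf : ContinuousOn f (closure W)) (h0 : ∀ x ∈ closure W, f x = 0 → x ∈ K)
    (h : ∀ x ∈ closure W, f x = 0 → DifferentiableAt ℝ f x ∧ (fderiv ℝ f x).det ≠ 0) :
    ∃ A : Finset (Fin n → ℝ), (∀ x, x ∈ A ↔ x ∈ K ∧ f x = 0) ∧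
      degR f W = ∑ x ∈ A, (sg (fderiv ℝ f x).det : ℝ) := by
  have F := fin (closure_compact hb) hf h
  obtain ⟨U, hU, hUd⟩ := F.t2_separation
  choose! r r0 rU hr using fun x (hx : x ∈ closure W ∧ f x = 0) => loc hx.2 (h x hx.1 hx.2).1
    (h x hx.1 hx.2).2 (inter_mem ((hU x).2.mem_nhds (hU x).1) (hW.mem_nhds (hK (h0 x hx.1 hx.2))))
    (hf.mono fun y hy => subset_closure hy.2)
  refine ⟨F.toFinset, fun x => F.mem_toFinset.trans ⟨fun hx => ⟨h0 x hx.1 hx.2, hx.2⟩,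
    fun hx => ⟨subset_closure (hK hx.1), hx.2⟩⟩, ?_⟩
  rw [degR_sum hb hW hf F.toFinset (U := fun x => ball x (r x)) (fun _ _ => isOpen_ball)
    (fun x hx y hy => (rU x (F.mem_toFinset.1 hx) hy).2)
    (fun x hx y hy e => (hUd (F.mem_toFinset.1 hx) (F.mem_toFinset.1 hy) e).mono
      (fun a ha => (rU x (F.mem_toFinset.1 hx) ha).1) fun a ha => (rU y (F.mem_toFinset.1 hy) ha).1)
    fun x hx e => ⟨x, F.mem_toFinset.2 ⟨hx, e⟩, mem_ball_self (r0 x ⟨hx, e⟩)⟩]
  exact Finset.sum_congr rfl fun x hx => hr x (F.mem_toFinset.1 hx)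

theorem core {U K : Set (Fin n → ℝ)} (hU : IsOpen U) (hK : IsCompact K) (hKU : K ⊆ U)
    (hf : ContinuousOn f U) (hg : ContinuousOn g U) (he : ∀ x ∈ U, x ∉ K → f x = g x)
    (df : ∀ x ∈ U, f x = 0 → DifferentiableAt ℝ f x ∧ (fderiv ℝ f x).det ≠ 0)
    (dg : ∀ x ∈ U, g x = 0 → DifferentiableAt ℝ g x ∧ (fderiv ℝ g x).det ≠ 0) :
    ∃ A B : Finset (Fin n → ℝ), (∀ x, x ∈ A ↔ x ∈ K ∧ f x = 0) ∧ (∀ x, x ∈ B ↔ x ∈ K ∧ g x = 0) ∧
      ∑ x ∈ A, sg (fderiv ℝ f x).det = ∑ x ∈ B, sg (fderiv ℝ g x).det := by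
  obtain ⟨C, c1, c2, c3⟩ := exists_compact_between hK hU hKU
  have F := (fin c1 (hf.mono c3) fun x hx => df x (c3 hx)).diff (t := K)
  obtain ⟨D, d1, d2, d3⟩ := exists_compact_between hK
    (isOpen_interior.sdiff F.isClosed) fun x hx => ⟨c2 hx, fun e => e.2 hx⟩
  have cl : closure (interior D) ⊆ D := closure_minimal interior_subset d1.isClosed
  have s : ∀ x ∈ closure (interior D), x ∈ U := fun x hx => c3 (interior_subset (d3 (cl hx)).1)
  have zf : ∀ x ∈ closure (interior D), f x = 0 → x ∈ K := fun x hx e => by_contra fun k =>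
    (d3 (cl hx)).2 ⟨⟨interior_subset (d3 (cl hx)).1, e⟩, k⟩
  have b := d1.isBounded.subset (interior_subset (s := D))
  obtain ⟨A, a1, a2⟩ := cnt isOpen_interior b d2 (hf.mono s) zf fun x hx => df x (s x hx)
  obtain ⟨B, b1, b2⟩ := cnt isOpen_interior b d2 (hg.mono s)
    (fun x hx e => by_contra fun k => k (zf x hx ((he x (s x hx) k).trans e)))
    fun x hx => dg x (s x hx)
  refine ⟨A, B, a1, b1, ?_⟩
  rw [degR_homotopy isOpen_interior b (hf.mono s) (hg.mono s) fun x hx t _ e => by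
    rw [isOpen_interior.frontier_eq] at hx
    have k : x ∉ K := fun k => hx.2 (d2 k)
    rw [← he x (s x hx.1) k, ← add_smul, sub_add_cancel, one_smul] at e
    exact k (zf x hx.1 e), b2] at a2
  exact_mod_cast a2.symm

theorem det_cj {E F : Type} [NormedAddCommGroup E] [NormedSpace ℝ E] [NormedAddCommGroup F]
    [NormedSpace ℝ F] (e : F ≃L[ℝ] E) (g : E → E) (y : F) :
    (fderiv ℝ (fun z => e.symm (g (e z))) y).det = (fderiv ℝ g (e y)).det := by
  have h : fderiv ℝ (fun z => e.symm (g (e z))) y =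
      (e.symm : E →L[ℝ] F).comp ((fderiv ℝ g (e y)).comp (e : F →L[ℝ] E)) := by
    rw [← e.comp_right_fderiv, ← e.symm.comp_fderiv]
    rfl
  rw [h]
  exact LinearMap.det_conj (fderiv ℝ g (e y) : E →ₗ[ℝ] E) e.symm.toLinearEquiv

end Stp

theorem step : STEP_statement := by
  intro E _ _ _ f g U K hU hK hKU hf hg he df dg
  let e : (Fin (Module.finrank ℝ E) → ℝ) ≃L[ℝ] E := (Module.finBasis ℝ E).equivFunL.symm
  have c : ∀ {f : E → E}, ContinuousOn f U → ContinuousOn (fun z => e.symm (f (e z))) (e ⁻¹' U) :=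
    fun hf => e.symm.continuous.comp_continuousOn (hf.comp e.continuous.continuousOn fun _ h => h)
  have d : ∀ {f : E → E}, (∀ x ∈ U, f x = 0 → DifferentiableAt ℝ f x ∧ (fderiv ℝ f x).det ≠ 0) →
      ∀ x ∈ e ⁻¹' U, e.symm (f (e x)) = 0 → DifferentiableAt ℝ (fun z => e.symm (f (e z))) x ∧
        (fderiv ℝ (fun z => e.symm (f (e z))) x).det ≠ 0 := fun df x hx h => by
    have := df _ hx ((map_eq_zero_iff _ e.symm.injective).1 h)
    exact ⟨e.symm.differentiableAt.comp x (this.1.comp x e.differentiableAt),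
      by rw [Stp.det_cj]; exact this.2⟩
  obtain ⟨A, B, a, b, h⟩ := Stp.core (hU.preimage e.continuous)
    (e.toHomeomorph.isCompact_preimage.2 hK) (preimage_mono hKU) (c hf) (c hg)
    (fun x hx k => by rw [he _ hx k]) (d df) (d dg)
  refine ⟨A.map e.toEquiv.toEmbedding, B.map e.toEquiv.toEmbedding, fun x => ?_, fun x => ?_, ?_⟩
  · rw [Finset.mem_map_equiv, a]
    simp
  · rw [Finset.mem_map_equiv, b]
    simp
  · rw [Finset.sum_map, Finset.sum_map]
    simp only [Stp.det_cj] at h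
    exact h

end Vale.Agent.P247A
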