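import Vale.Agent.P247A.Cnt
import Vale.Agent.P247A.Step
import Vale.Agent.P247A.Fda
import Vale.Agent.P247A.Fdb

/-!
# P247, stage 2: the finite dimensional counting theorems, unconditionally
-/

set_option linter.all false

namespace Vale.Agent.P247A

theorem cnt : CNT_statement := cnt_of step

theorem fdA : FDA_statement := fda cnt ext sat part

theorem fdB : FDB_statement := fdb cnt

end Vale.Agent.P247A
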