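import Vale.Agent.P247A.RedSta

/-!
# P247, stage 2, row `FBBF`
-/

set_option linter.all false

open scoped ContDiff Topology
open Set Filter NormedSpace

noncomputable section

namespace Vale.Agent.P247A

namespace RedF

section logu

variable {E : Type} [NormedAddCommGroup E] [InnerProductSpace ℂ E] [FiniteDimensional ℂ E]

local instance cE : CompleteSpace E := FiniteDimensional.complete ℂ E

/-- unitary operators in finite dimension have logarithms -/
theorem log_unitary {a : E →L[ℂ] E} (ha : a ∈ unitary (E →L[ℂ] E)) :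
    exp (cfc Complex.log a) = a ∧ cfc Complex.log a ∈ skewAdjoint (E →L[ℂ] E) := by
  have hn : IsStarNormal a := isStarNormal_of_mem_unitary ha
  have hf : (spectrum ℂ a).Finite := by
    rw [ContinuousLinearMap.spectrum_eq]
    exact Module.End.finite_spectrum _
  have h1 : ∀ z ∈ spectrum ℂ a, ‖z‖ = 1 := fun z hz =>
    mem_sphere_zero_iff_norm.1 (spectrum.subset_circle_of_unitary ha hz)
  constructor
  · rw [← CFC.exp_eq_normedSpace_exp (𝕜 := ℂ), ← cfc_comp' _ _ a exp_continuous.continuousOn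
      (hf.continuousOn _)]
    conv_rhs => rw [← cfc_id' ℂ a]
    refine cfc_congr fun z hz => ?_
    have h0 : z ≠ 0 := norm_ne_zero_iff.1 (by rw [h1 z hz]; exact one_ne_zero)
    rw [← Complex.exp_eq_exp_ℂ, Complex.exp_log h0]
  · rw [skewAdjoint.mem_iff, ← cfc_star, ← cfc_neg]
    refine cfc_congr fun z hz => ?_
    refine Complex.ext ?_ ?_
    · simp [Complex.log_re, h1 z hz]
    · simp

theorem logu {b : ℕ} (g : (Fin b → ℤ) → E →L[ℂ] E) (g0 : ∀ v, g 0 v = v)
    (ga : ∀ l l' v, g (l + l') v = g l (g l' v)) (gn : ∀ l v, ‖g l v‖ = ‖v‖) :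
    (∀ l, g l ∈ unitary (E →L[ℂ] E)) ∧ ∃ u : Rv b → E →L[ℂ] E, Continuous u ∧
      (∀ h, u h ∈ unitary (E →L[ℂ] E)) ∧ ∀ l h, u (sh h l) = g l * u h := by
  have g0' : g 0 = 1 := ContinuousLinearMap.ext g0
  have ga' : ∀ l l', g (l + l') = g l * g l' := fun l l' => ContinuousLinearMap.ext (ga l l')
  have s1 : ∀ l, star (g l) * g l = 1 := fun l =>
    (ContinuousLinearMap.norm_map_iff_adjoint_comp_self _).1 (gn l)
  have s2 : ∀ l, star (g l) = g (-l) := fun l => by
    rw [← mul_one (star (g l)), ← g0', ← add_neg_cancel l, ga', ← mul_assoc, s1, one_mul]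
  have gu : ∀ l, g l ∈ unitary (E →L[ℂ] E) := fun l =>
    Unitary.mem_iff.2 ⟨s1 l, by rw [s2, ← ga', add_neg_cancel, g0']⟩
  have gc : ∀ l l', Commute (g l) (g l') := fun l l' => by
    rw [Commute, SemiconjBy, ← ga', ← ga', add_comm]
  let A : Fin b → E →L[ℂ] E := fun i => cfc Complex.log (g (Pi.single i 1))
  have c1 : ∀ i l, Commute (A i) (g l) := fun i l =>
    (gc _ _).cfc (by rw [s2]; exact gc _ _) _
  have c2 : ∀ i j, Commute (A i) (A j) := fun i j =>
    ((c1 i _).symm.cfc (by rw [s2]; exact (c1 i _).symm) _).symm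
  let S : Rv b → E →L[ℂ] E := fun h => ∑ i, h i • A i
  have c3 : ∀ h h', Commute (S h) (S h') := fun h h' =>
    Commute.sum_left _ _ _ fun i _ => Commute.sum_right _ _ _ fun j _ =>
      ((c2 i j).smul_left _).smul_right _
  have Sa : ∀ h h', S (h + h') = S h + S h' := fun h h' => by
    simp only [S, Pi.add_apply, add_smul, Finset.sum_add_distrib]
  letI : NormedAlgebra ℚ (E →L[ℂ] E) := .restrictScalars ℚ ℂ _
  have ua : ∀ h h', exp (S (h + h')) = exp (S h) * exp (S h') := fun h h' => by
    rw [Sa, exp_add_of_commute (c3 h h')]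
  have u0 : exp (S 0) = 1 := by simp [S]
  let T : AddSubgroup (Fin b → ℤ) :=
    { carrier := {l | exp (S fun i => (l i : ℝ)) = g l}
      add_mem' := fun {l l'} h h' => by
        have e : (fun i => ((l + l') i : ℝ)) = (fun i => (l i : ℝ)) + fun i => (l' i : ℝ) :=
          funext fun i => by simp
        rw [mem_setOf_eq, e, ua, h, h', ga']
      zero_mem' := by
        have e : (fun i => ((0 : Fin b → ℤ) i : ℝ)) = 0 := funext fun i => by simp
        rw [mem_setOf_eq, e, u0, g0']
      neg_mem' := fun {l} h => by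
        have e : (fun i => ((-l) i : ℝ)) + (fun i => (l i : ℝ)) = 0 := funext fun i => by simp
        have h1 := ua (fun i => ((-l) i : ℝ)) fun i => (l i : ℝ)
        rw [e, u0, h] at h1
        rw [mem_setOf_eq, ← mul_one (exp _), ← g0', ← add_neg_cancel l, ga', ← mul_assoc, ← h1,
          one_mul] }
  have hT : ∀ l, l ∈ T := fun l => by
    rw [← Finset.univ_sum_single l]
    refine T.sum_mem fun i _ => ?_
    have e : (Pi.single i (l i) : Fin b → ℤ) = l i • Pi.single i 1 := by
      rw [← Pi.single_smul, smul_eq_mul, mul_one]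
    rw [e]
    refine T.zsmul_mem ?_ _
    have e2 : (S fun j => ((Pi.single i 1 : Fin b → ℤ) j : ℝ)) = A i := by
      simp only [S]
      rw [Finset.sum_eq_single i (fun j _ hj => by simp [hj]) (by simp)]
      simp
    show exp (S _) = _
    rw [e2]
    exact (log_unitary (gu _)).1
  refine ⟨gu, fun h => exp (S h), exp_continuous.comp (by fun_prop), fun h =>
    exp_mem_unitary_of_mem_skewAdjoint (AddSubgroup.sum_mem _ fun i _ =>
      skewAdjoint.smul_mem _ (log_unitary (gu _)).2), fun l h => ?_⟩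
  have e : sh h l = (fun i => (l i : ℝ)) + h := funext fun i => add_comm _ _
  show exp (S _) = _ * exp (S h)
  rw [e, ua, hT l]

end logu

variable {b : ℕ} {V H W : Type} [NormedAddCommGroup V]
  [InnerProductSpace ℂ V] [CompleteSpace V] [NormedAddCommGroup H] [InnerProductSpace ℂ H]
  [CompleteSpace H] [NormedAddCommGroup W] [InnerProductSpace ℂ W] [CompleteSpace W]

theorem finV (F : Fam b V H W) [FiniteDimensional ℂ W] : FiniteDimensional ℂ V := by
  obtain ⟨C, hC⟩ := F.est 0
  let T : V →L[ℂ] W × H := (F.D 0).prod F.J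
  have hT : AntilipschitzWith (2 * |C|).toNNReal T := T.antilipschitz_of_bound fun v => by
    rw [Real.coe_toNNReal _ (by positivity)]
    have h1 : ‖F.D 0 v‖ ≤ ‖T v‖ := norm_fst_le (T v)
    have h2 : ‖F.J v‖ ≤ ‖T v‖ := norm_snd_le (T v)
    have h3 := le_abs_self C
    have h4 := abs_nonneg C
    have h5 := norm_nonneg (F.D 0 v)
    have h6 := norm_nonneg (F.J v)
    nlinarith [hC v]
  have hE := hT.isClosedEmbedding T.uniformContinuous
  obtain ⟨K, hK, hK'⟩ := F.J_cpt
  haveI : ProperSpace W := FiniteDimensional.proper ℂ W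
  rw [← isCompactOperator_id_iff_finiteDimensional]
  refine ⟨T ⁻¹' (Metric.closedBall (F.D 0 0) 1 ×ˢ K),
    hE.isCompact_preimage ((isCompact_closedBall _ _).prod hK), ?_⟩
  exact inter_mem ((F.D 0).continuous.continuousAt (Metric.closedBall_mem_nhds _ one_pos)) hK'

end RedF

open RedF

theorem fbbf : FBBF_statement := by
  intro V H W _ _ _ _ _ _ _ _ _ F hW hi
  haveI := finV F
  rw [LinearMap.index_eq_of_finiteDimensional] at hi
  let H0 : Submodule ℂ H := LinearMap.range (F.J : V →ₗ[ℂ] H)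
  let j : V ≃L[ℂ] H0 := (LinearEquiv.ofInjective (F.J : V →ₗ[ℂ] H) F.J_inj).toContinuousLinearEquiv
  have hj : ∀ v, (j v : H) = F.J v := fun _ => rfl
  have hr : Module.finrank ℂ H0 = Module.finrank ℂ W := by
    rw [← j.toLinearEquiv.finrank_eq]
    omega
  let e : H0 ≃ₗᵢ[ℂ] W := (stdOrthonormalBasis ℂ H0).equiv (stdOrthonormalBasis ℂ W) (finCongr hr)
  let g : (Fin 2 → ℤ) → H0 →L[ℂ] H0 := fun l => (j : V →L[ℂ] H0) ∘L F.gV l ∘L (j.symm : H0 →L[ℂ] V)
  have hg : ∀ l y, (g l y : H) = F.gH l y := fun l y => by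
    show F.J (F.gV l (j.symm y)) = _
    rw [F.J_g, ← hj, j.apply_symm_apply]
  have hg' : ∀ l y, j.symm (g l y) = F.gV l (j.symm y) := fun l y => j.symm_apply_apply _
  obtain ⟨gu, u, u1, u2, u3⟩ := logu g (fun v => Subtype.ext (by rw [hg, F.gH_zero]))
    (fun l l' v => Subtype.ext (by rw [hg, hg, hg, F.gH_add]))
    fun l v => (congrArg norm (hg l v)).trans (F.gH_norm l v)
  obtain ⟨-, w, w1, w2, w3⟩ := logu F.gW F.gW_zero F.gW_add F.gW_norm
  have hp : ∀ l y, H0.orthogonalProjection (F.gH l y) = g l (H0.orthogonalProjection y) := by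
    intro l y
    refine Subtype.ext (Submodule.eq_starProjection_of_mem_of_inner_eq_zero (g l _).2
      fun z hz => ?_)
    have h1 : z = F.gH l (g (-l) ⟨z, hz⟩) := by
      rw [hg, ← F.gH_add, add_neg_cancel, F.gH_zero]
    rw [hg, ← map_sub, h1]
    refine ((LinearMap.norm_map_iff_inner_map_map (F.gH l)).1 (F.gH_norm l) _ _).trans ?_
    exact Submodule.starProjection_inner_eq_zero y _ (g (-l) _).2
  refine ⟨fun h => (w h ∘L (e : H0 →L[ℂ] W) ∘L star (u h) - F.D h ∘L (j.symm : H0 →L[ℂ] V)) ∘L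
    H0.orthogonalProjection, 1, ?_, one_pos, fun l h y => ?_, fun h v => ?_⟩
  · exact ((w1.clm_comp (continuous_const.clm_comp u1.star)).sub
      (F.smooth.continuous.clm_comp continuous_const)).clm_comp continuous_const
  · show w (sh h l) (e (star (u (sh h l)) (H0.orthogonalProjection (F.gH l y)))) -
      F.D (sh h l) (j.symm (H0.orthogonalProjection (F.gH l y))) =
      F.gW l (w h (e (star (u h) (H0.orthogonalProjection y))) -
        F.D h (j.symm (H0.orthogonalProjection y)))
    have h1 : ∀ z, star (u (sh h l)) (g l z) = star (u h) z := fun z => by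
      show (star (u (sh h l)) * g l) z = _
      rw [u3, star_mul, mul_assoc, (Unitary.mem_iff.1 (gu l)).1, mul_one]
    rw [hp, h1, hg', F.D_g, map_sub, w3]
    rfl
  · have h1 : H0.orthogonalProjection (F.J v) = j v :=
      Submodule.orthogonalProjection_mem_subspace_eq_self (j v)
    show 1 * ‖F.J v‖ ≤ ‖F.D h v + (w h (e (star (u h) (H0.orthogonalProjection (F.J v)))) -
      F.D h (j.symm (H0.orthogonalProjection (F.J v))))‖
    rw [h1, j.symm_apply_apply, add_sub_cancel, one_mul,
      ContinuousLinearMap.norm_map_of_mem_unitary (w2 h), e.norm_map,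
      ContinuousLinearMap.norm_map_of_mem_unitary (Unitary.star_mem (u2 h))]
    exact le_rfl

end Vale.Agent.P247A
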