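import Vale.Agent.P247A.Red4
import Vale.Agent.P247A.RedF

/-!
# P247, stage 2, row RED: `FBB` from `FDB`
-/

set_option linter.all false

open scoped ContDiff Topology
open Set Filter Metric Module

noncomputable section

namespace Vale.Agent.P247A.Red

open ContinuousLinearMap (adjoint)

variable {b : ℕ} {V H W : Type} [NormedAddCommGroup V] [InnerProductSpace ℂ V]
  [NormedAddCommGroup H] [InnerProductSpace ℂ H] [NormedAddCommGroup W] [InnerProductSpace ℂ W]

theorem exists_off (hW : ¬ FiniteDimensional ℂ W) (G : Submodule ℂ W) [FiniteDimensional ℂ G]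
    (N : ℕ) : ∃ I : Ev N →L[ℂ] W, ∀ y, I y ∈ G → y = 0 := by
  obtain ⟨C, hC⟩ := G.exists_isCompl
  have h1 : ¬ FiniteDimensional ℂ C := fun h =>
    hW (Submodule.prodEquivOfIsCompl G C hC).finiteDimensional
  obtain ⟨f, hf⟩ := (Module.le_rank_iff_exists_linearMap (R := ℂ) (M := C) (n := N)).1
    (Cardinal.natCast_le_aleph0.trans (not_lt.1 fun h => h1 (Module.rank_lt_aleph0_iff.1 h)))
  refine ⟨LinearMap.toContinuousLinearMap (C.subtype ∘ₗ f ∘ₗ
    (EuclideanSpace.equiv (Fin N) ℂ).toLinearEquiv.toLinearMap), fun y hy => ?_⟩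
  have h2 := Submodule.disjoint_def.1 hC.disjoint _ hy (Subtype.prop _)
  exact (EuclideanSpace.equiv (Fin N) ℂ).injective (hf (Subtype.ext (by simpa using h2)))

theorem exists_indep (F : Fam b V H W) (hW : ¬ FiniteDimensional ℂ W) (G : Submodule ℂ W)
    [FiniteDimensional ℂ G] (N : ℕ) {Λ : Set (Fin b → ℤ)} (hΛ : Λ.Finite) {ι : Type} [Fintype ι]
    [DecidableEq ι] (s : Finset ι) : ∃ I : ι → Ev N →L[ℂ] W, ∀ (l : ι → Fin b → ℤ) (y : ι → Ev N),
      (∀ a, l a ∈ Λ) → ∑ a ∈ s, F.gW (l a) (I a (y a)) ∈ G → ∀ a ∈ s, y a = 0 := by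
  have := hΛ.to_subtype
  induction s using Finset.induction_on with
  | empty => exact ⟨0, by simp⟩
  | insert a s ha ih =>
    obtain ⟨I, hI⟩ := ih
    let G' := G ⊔ ⨆ q : ι × Λ, LinearMap.range ((F.gW q.2).comp (I q.1) : Ev N →ₗ[ℂ] W)
    obtain ⟨I₀, h₀⟩ := exists_off hW (⨆ l : Λ, G'.map (F.gW (-l) : W →ₗ[ℂ] W)) N
    refine ⟨Function.update I a I₀, fun l y hl hs => ?_⟩
    have e : ∑ c ∈ s, F.gW (l c) (Function.update I a I₀ c (y c)) =
        ∑ c ∈ s, F.gW (l c) (I c (y c)) := Finset.sum_congr rfl fun c hc => by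
      rw [Function.update_of_ne (ne_of_mem_of_not_mem hc ha)]
    rw [Finset.sum_insert ha, Function.update_self, e] at hs
    have h1 : ∑ c ∈ s, F.gW (l c) (I c (y c)) ∈ G' := Submodule.sum_mem _ fun c _ =>
      Submodule.mem_sup_right (Submodule.mem_iSup_of_mem (c, ⟨l c, hl c⟩) ⟨y c, rfl⟩)
    have h2 : y a = 0 := h₀ _ (Submodule.mem_iSup_of_mem ⟨l a, hl a⟩
      ⟨_, (G'.add_mem_iff_left h1).1 (Submodule.mem_sup_left hs), gW_neg' F _ _⟩)
    rw [h2, map_zero, map_zero, zero_add] at hs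
    intro c hc
    rcases Finset.mem_insert.1 hc with rfl | hc
    · exact h2
    · exact hI l y hl hs c hc

theorem exists_lat' (h : Rv b) : ∃ l h', ‖h'‖ ≤ 1 ∧ h = sh h' l := by
  obtain ⟨l, hl⟩ := exists_lat h 0
  exact ⟨l, _, by rw [sub_zero] at hl; linarith, (sh_neg h l).symm⟩

/-- an injective perturbation -/
theorem inj_apx [CompleteSpace V] [CompleteSpace W] {F : Fam b V H W}
    (hW : ¬ FiniteDimensional ℂ W) {N : ℕ} (a : Apx F N) (G : Submodule ℂ W)
    [FiniteDimensional ℂ G] (hG : ∀ h, ‖h‖ ≤ 1 → ∀ y, a.P h y ∈ G) {ε : ℝ} (hε : 0 < ε) :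
    ∃ a' : Apx F N, a'.S = a.S ∧ (∀ h y, a'.P h y = 0 → y = 0) ∧
      ∀ h, ‖h‖ ≤ 1 → ‖a'.P h - a.P h‖ ≤ ε := by
  obtain ⟨Λ, hΛ, kΛ⟩ := lo_fin (b := b) 1
  obtain ⟨I, hI⟩ := exists_indep F hW G N hΛ (Finset.univ : Finset (Fin b → Bool))
  let Q : Rv b → Ev N →L[ℂ] W := fun h => ∑ c, (tb c h • F.gW (lo c h)).comp (I c)
  have Qs : ContDiff ℝ ∞ Q := ContDiff.sum fun c _ => contDiff_iff_contDiffAt.2 fun _ =>
    comp_smooth (tb_smooth c F.gW).contDiffAt contDiffAt_const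
  have Qa : ∀ h y, Q h y = ∑ c, tb c h • F.gW (lo c h) (I c y) := fun h y => by simp [Q]
  have Qg : ∀ l h y, Q (sh h l) y = F.gW l (Q h y) := fun l h y => by
    simp only [Qa, map_sum, ContinuousLinearMap.map_smul_of_tower, tb_sh, lo_sh, F.gW_add]
  have c1 : Continuous fun z : ℝ × Rv b => z.1 • Q z.2 :=
    continuous_fst.smul (Qs.continuous.comp continuous_snd)
  have ev := (isCompact_closedBall (0 : Rv b) 1).eventually_forall_of_forall_eventually
    (x₀ := (0 : ℝ)) (P := fun t h => (∀ w, ∃ v y, F.D h v + (a.P h + t • Q h) y = w) ∧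
      ‖t • Q h‖ < ε) fun h _ => (ev_cop (D := fun z : ℝ × Rv b => F.D z.2)
        (P := fun z => a.P z.2 + z.1 • Q z.2)
        (F.smooth.continuous.comp continuous_snd).continuousAt
        ((a.P_sm.continuous.comp continuous_snd).add c1).continuousAt
        (by simpa using a.surj h)).and
      (c1.norm.continuousAt.eventually_lt continuousAt_const (by simpa using hε))
  obtain ⟨t, ht, t0⟩ := ((ev.filter_mono nhdsWithin_le_nhds).and
    (self_mem_nhdsWithin (s := Ioi (0 : ℝ)))).exists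
  have Pg : ∀ l h y, (a.P (sh h l) + t • Q (sh h l)) y = F.gW l ((a.P h + t • Q h) y) :=
    fun l h y => by
      simp only [ContinuousLinearMap.add_apply, ContinuousLinearMap.smul_apply, a.P_g, Qg, map_add,
        ContinuousLinearMap.map_smul_of_tower]
  refine ⟨⟨fun h => a.P h + t • Q h, a.S, a.P_sm.add (Qs.const_smul t), a.S_sm, Pg, a.S_g,
    fun h w => ?_⟩, rfl, fun h y hy => ?_, fun h hh => ?_⟩
  · obtain ⟨l, h', hh, rfl⟩ := exists_lat' h
    obtain ⟨v, y, e⟩ := (ht h' (mem_closedBall_zero_iff.2 hh)).1 (F.gW (-l) w)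
    exact ⟨F.gV l v, y, by rw [F.D_g, Pg, ← map_add, e, gW_neg]⟩
  · obtain ⟨l, h', hh, rfl⟩ := exists_lat' h
    have h1 : (a.P h' + t • Q h') y = 0 := by
      rw [← norm_eq_zero, ← F.gW_norm l, ← Pg]; exact norm_eq_zero.2 hy
    obtain ⟨c, hc⟩ := tb_pos h'
    have h2 := hI (fun c => lo c h') (fun c => (t * tb c h') • y) (fun c => kΛ c h' hh) (by
      have : ∑ c, F.gW (lo c h') (I c ((t * tb c h') • y)) = -a.P h' y := by
        rw [eq_neg_iff_add_eq_zero, add_comm, ← h1]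
        simp only [ContinuousLinearMap.add_apply, ContinuousLinearMap.smul_apply, Qa,
          ContinuousLinearMap.map_smul_of_tower, Finset.smul_sum, mul_smul]
      rw [this]
      exact G.neg_mem (hG _ hh _)) c (Finset.mem_univ _)
    rw [hc, mul_one] at h2
    exact (smul_eq_zero.1 h2).resolve_left (ne_of_gt t0)
  · simpa using (ht h (mem_closedBall_zero_iff.2 hh)).2.le

/-- the left inverse of a family of embeddings -/
theorem exists_linv [CompleteSpace H] {Z : Type} [TopologicalSpace Z] {m : ℕ}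
    {j : Z → Cv m →L[ℂ] H} (hj : Continuous j) (hi : ∀ z x, j z x = 0 → x = 0) :
    ∃ κ : Z → H →L[ℂ] Cv m, Continuous κ ∧ ∀ z y x,
      κ z y = x ↔ ∀ x', inner ℂ (j z x') (j z x - y) = 0 := by
  let e := EuclideanSpace.equiv (Fin m) ℂ
  let i : Z → Ev m →L[ℂ] H := fun z => (j z).comp e.toContinuousLinearMap
  have ic : Continuous i := hj.clm_comp continuous_const
  have ac : Continuous fun z => adjoint (i z) := adj_smooth.continuous.comp ic
  have u : ∀ z, IsUnit ((adjoint (i z)).comp (i z)) := fun z => by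
    have h1 : Function.Injective ((adjoint (i z)).comp (i z)) :=
      (injective_iff_map_eq_zero _).2 fun x hx => by
        have h2 : inner ℂ (i z x) (i z x) = 0 := by
          rw [← ContinuousLinearMap.adjoint_inner_left, show adjoint (i z) (i z x) = 0 from hx,
            inner_zero_left]
        exact (map_eq_zero_iff _ e.injective).1 (hi z _ (inner_self_eq_zero.1 h2))
    exact ContinuousLinearMap.isUnit_iff_bijective.2 ⟨h1,
      (LinearMap.injective_iff_surjective (f := ((adjoint (i z)).comp (i z) : Ev m →ₗ[ℂ] Ev m))).1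
        h1⟩
  have k : ∀ z y x', inner ℂ (j z x') (j z (e (Ring.inverse ((adjoint (i z)).comp (i z))
      (adjoint (i z) y))) - y) = 0 := fun z y x' => by
    have h1 := DFunLike.congr_fun (Ring.mul_inverse_cancel _ (u z)) (adjoint (i z) y)
    rw [show j z x' = i z (e.symm x') from congrArg (j z) (e.apply_symm_apply x').symm,
      ← ContinuousLinearMap.adjoint_inner_right, map_sub]
    exact (congrArg _ (sub_eq_zero.2 h1)).trans (inner_zero_right _)
  refine ⟨fun z => e.toContinuousLinearMap.comp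
    ((Ring.inverse ((adjoint (i z)).comp (i z))).comp (adjoint (i z))),
    continuous_const.clm_comp (Continuous.clm_comp (continuous_iff_continuousAt.2 fun z => ?_) ac),
    fun z y x => ⟨fun h => h ▸ k z y, fun h => ?_⟩⟩
  · obtain ⟨w, hw⟩ := u z
    exact ContinuousAt.comp (g := Ring.inverse) (by rw [← hw]; exact NormedRing.inverse_continuousAt w)
      (ac.clm_comp ic).continuousAt
  · refine sub_eq_zero.1 (hi z _ (inner_self_eq_zero (𝕜 := ℂ).1 ?_))
    have h1 := k z y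
    conv_lhs => rw [map_sub (j z), ← sub_sub_sub_cancel_right _ _ y, inner_sub_right]
    rw [sub_sub_sub_cancel_right, ← map_sub, h, sub_zero]
    exact h1 _

theorem inner_g (F : Fam b V H W) (l : Fin b → ℤ) (x y : H) :
    inner ℂ (F.gH l x) (F.gH l y) = inner ℂ x y :=
  (⟨F.gH l, F.gH_norm l⟩ : H →ₗᵢ[ℂ] H).inner_map_map x y

theorem fbb_inf [CompleteSpace V] [CompleteSpace H] [CompleteSpace W] (hB : FDB_statement)
    (F : Fam 2 V H W) (hW : ¬ FiniteDimensional ℂ W) {K : V × Rv 2 → W × Cv 0 × Rv 0}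
    (hK : KMap F K) (hi : (F.D 0 : V →ₗ[ℂ] W).index = 0)
    (h0 : ∀ v h, v ≠ 0 → F.tot K (v, h) ≠ 0) :
    ∃ A : Rv 2 → H →L[ℂ] W, Continuous A ∧ (∀ l h y, A (sh h l) (F.gH l y) = F.gW l (A h y)) ∧
      ∀ h v, F.D h v + A h (F.J v) = 0 → v = 0 := by
  obtain ⟨S, hS, kS⟩ := hK.cpt 1
  obtain ⟨c, hc, kc⟩ := low F.smooth.continuous F.J_cpt F.est (A := {q | ‖q.1‖ = 1 ∧ ‖q.2‖ ≤ 1})
    (by
      simp only [setOf_and]
      refine (isClosed_eq ?_ ?_).inter (isClosed_le ?_ ?_) <;> fun_prop)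
    (R := 1) (fun q hq => ⟨hq.1.le, hq.2⟩) hK.cont hS (fun q hq => kS _ _ hq.1.le hq.2)
    fun q hq => h0 q.1 q.2 fun h1 => by simpa [h1] using hq.1
  obtain ⟨N, a₀, G, _, ka⟩ := apx F 1 (hS.image continuous_fst) 0
    (show 0 < c / 3 by positivity)
  obtain ⟨C, hC⟩ := ((isCompact_closedBall (0 : Rv 2) 1).prod hS).exists_bound_of_continuousOn
    (f := fun z => a₀.S z.1 z.2.1) ((a₀.S_sm.continuous.comp continuous_fst).clm_apply
      continuous_snd.fst).continuousOn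
  obtain ⟨a, aS, ai, aP⟩ := inj_apx hW a₀ G (fun h hh => (ka h hh).2.2.2)
    (show 0 < c / 3 / (|C| + 1) by positivity)
  have nz : ∀ v h, v ≠ 0 → a.tot K (v, h) ≠ 0 := fun v h v0 hz => by
    obtain ⟨l, h', hh, rfl⟩ := exists_lat' h
    obtain ⟨w, rfl⟩ : ∃ w, v = F.gV l w := ⟨_, (gV_neg F l v).symm⟩
    have w0 : 0 < ‖w‖ := norm_pos_iff.2 fun h1 => v0 (by rw [h1, map_zero])
    obtain ⟨u, u1, k3⟩ : ∃ u, ‖u‖ = 1 ∧ a.tot K (u, h') = 0 :=
      ⟨((‖w‖ : ℂ))⁻¹ • w, by simp [norm_smul, w0.ne'], by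
        rw [← norm_eq_zero, a.tot_hom hK, ← a.tot_inv hK l, hz, norm_zero, mul_zero]⟩
    have k1 : c ≤ ‖F.tot K (u, h')‖ := kc (u, h') ⟨u1, hh⟩
    have k2 := a.tot_sub (K := K) (u, h')
    have k4 := (ka h' hh).2.1 _ ⟨_, kS _ _ u1.le hh, rfl⟩
    have k5 := hC (h', K (u, h')) ⟨mem_closedBall_zero_iff.2 hh, kS _ _ u1.le hh⟩
    have k6 := (a.P h' - a₀.P h').le_of_opNorm_le_of_le (aP h' hh)
      (k5.trans ((le_abs_self C).trans (le_add_of_nonneg_right zero_le_one)))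
    rw [div_mul_cancel₀ _ (by positivity), ContinuousLinearMap.sub_apply, norm_sub_rev] at k6
    have k7 := norm_sub_le_norm_sub_add_norm_sub (K (u, h')).1 (a₀.P h' (a₀.S h' (K (u, h')).1))
      (a.P h' (a₀.S h' (K (u, h')).1))
    rw [k3, sub_zero, aS] at k2
    dsimp only at k2 k6
    linarith
  obtain ⟨m, ⟨k⟩⟩ := exists_ker a
  obtain rfl : m = N := by have := k.dim; omega
  let e : (Ev m × Cv 0) ≃L[ℂ] Cv m := ContinuousLinearEquiv.ofFinrankEq (by simp)
  obtain ⟨B, Bc, Bi, Bg⟩ := hB m k.c (k.G K e) (k.sec hK e) fun x h x0 hz =>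
    nz _ h (k.ne hK e x0 hz) (by rw [k.tot_eq e, hz]; simp)
  have U1 : ∀ h x, (k.U h x).1 = 0 → x = 0 := fun h x h1 => by
    have h2 := k.mem h x
    rw [h1, map_zero, zero_add] at h2
    rw [← k.inv h x, show k.U h x = 0 from Prod.ext h1 (ai _ _ h2), map_zero]
  obtain ⟨κ, κc, hκ⟩ := exists_linv (j := fun h => F.J.comp
    ((ContinuousLinearMap.fst ℂ V (Ev m)).comp (k.U h)))
    (continuous_const.clm_comp (continuous_const.clm_comp k.U_sm.continuous))
    fun h x hx => U1 h x (F.J_inj (hx.trans (map_zero _).symm))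
  have κg : ∀ l h y, κ (sh h l) (F.gH l y) = k.c.T l h (κ h y) := fun l h y => by
    refine (hκ _ _ _).2 fun x' => ?_
    obtain ⟨x, rfl⟩ : ∃ x, x' = k.c.T l h x := ⟨k.c.T (-l) (sh h l) x', by
      have := k.c.add l (-l) (sh h l) x'
      rwa [add_neg_cancel, k.c.zero, sh_sh, neg_add_cancel, sh_zero] at this⟩
    show inner ℂ (F.J (k.U _ _).1) (F.J (k.U _ _).1 - _) = 0
    rw [k.U_g, k.U_g, F.J_g, F.J_g, ← map_sub, inner_g]
    exact (hκ h y _).1 rfl x
  let e' := (EuclideanSpace.equiv (Fin m) ℂ).symm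
  refine ⟨fun h => (a.P h).comp ((((ContinuousLinearMap.snd ℂ V (Ev m)).comp (k.U h)) +
    e'.toContinuousLinearMap.comp (B h)).comp (κ h)), a.P_sm.continuous.clm_comp
      (((continuous_const.clm_comp k.U_sm.continuous).add (continuous_const.clm_comp Bc)).clm_comp
        κc), fun l h y => ?_, fun h v hv => ?_⟩
  · show a.P _ ((k.U _ (κ _ _)).2 + e' (B _ (κ _ _))) = F.gW l (a.P _ ((k.U _ _).2 + e' (B _ _)))
    rw [κg, k.U_g, Bg, a.P_g]
    rfl
  · have h1 := k.onto h v _ hv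
    generalize k.U' h _ = x at h1
    have h2 : v = (k.U h x).1 := by rw [h1]
    have h3 : κ h (F.J v) = x := (hκ _ _ _).2 fun x' => by
      show inner ℂ _ (F.J (k.U h x).1 - _) = 0
      rw [← h2, sub_self, inner_zero_right]
    have h4 : F.D h v + a.P h ((k.U h (κ h (F.J v))).2 + e' (B h (κ h (F.J v)))) = 0 := hv
    rw [h3, map_add, ← add_assoc, h2, k.mem, zero_add] at h4
    have h5 : x = 0 := Bi h (((map_eq_zero_iff _ e'.injective).1 (ai _ _ h4)).trans
      (map_zero _).symm)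
    rw [h2, h5, map_zero, Prod.fst_zero]

end Vale.Agent.P247A.Red

namespace Vale.Agent.P247A

open Red

theorem fbb_of (hB : FDB_statement) : FBB_statement := by
  intro V H W _ _ _ _ _ _ _ _ _ F K hK hi h0
  by_cases hW : FiniteDimensional ℂ W
  · exact fbbf V H W F hW hi
  obtain ⟨A, Ac, Ag, Ai⟩ := fbb_inf hB F hW hK hi h0
  obtain ⟨S, hS, hS'⟩ := IsCompactOperator.image_closedBall_subset_compact
    (f := (F.J : V →ₗ[ℂ] H)) F.J_cpt 1
  have c1 : Continuous fun z : Rv 2 × H => (A z.1 z.2, (0 : ℝ)) :=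
    ((Ac.comp continuous_fst).clm_apply continuous_snd).prodMk continuous_const
  obtain ⟨c, hc, kc⟩ := low F.smooth.continuous F.J_cpt F.est (A := {q | ‖q.1‖ = 1 ∧ ‖q.2‖ ≤ 1})
    (by
      simp only [setOf_and]
      refine (isClosed_eq ?_ ?_).inter (isClosed_le ?_ ?_) <;> fun_prop)
    (R := 1) (fun q hq => ⟨hq.1.le, hq.2⟩) (k := fun q => (A q.2 (F.J q.1), (0 : ℝ)))
    (c1.comp (continuous_snd.prodMk (F.J.continuous.comp continuous_fst)))
    (((isCompact_closedBall (0 : Rv 2) 1).prod hS).image c1)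
    (fun q hq => ⟨(q.2, F.J q.1), ⟨mem_closedBall_zero_iff.2 hq.2,
      hS' ⟨q.1, mem_closedBall_zero_iff.2 hq.1.le, rfl⟩⟩, rfl⟩)
    fun q hq h => by simpa [Ai _ _ (congrArg Prod.fst h)] using hq.1
  refine ⟨A, c / (‖F.J‖ + 1), Ac, by positivity, Ag, fun h v => ?_⟩
  obtain ⟨l, h', hh, rfl⟩ := exists_lat' h
  obtain ⟨w, rfl⟩ : ∃ w, v = F.gV l w := ⟨_, (gV_neg F l v).symm⟩
  rw [F.D_g, F.J_g, Ag, ← map_add, F.gW_norm, F.gH_norm]
  rcases eq_or_ne w 0 with rfl | w0
  · simp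
  have n0 := norm_pos_iff.2 w0
  have k1 := kc (((‖w‖ : ℂ))⁻¹ • w, h') ⟨by simp [norm_smul, n0.ne'], hh⟩
  simp only [map_smul, ← smul_add, Prod.norm_def, norm_smul, norm_inv, Complex.norm_real, norm_norm,
    norm_zero] at k1
  rw [max_eq_left (by positivity), le_inv_mul_iff₀ n0] at k1
  rw [div_mul_eq_mul_div, div_le_iff₀ (by positivity)]
  have k2 := F.J.le_opNorm w
  nlinarith [norm_nonneg F.J, norm_nonneg (F.D h' w + A h' (F.J w))]

end Vale.Agent.P247A
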