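import Vale.Agent.P247A.AllQ0
import Vale.Agent.P247A.Dic6
import Vale.Agent.P247A.Cnt
import Vale.Agent.P247A.FdAll
import Vale.Agent.P247A.Fda
import Vale.Agent.P247A.Fdb
import Vale.Agent.P247A.Red5
import Vale.Agent.P247W.Apd
import Vale.Agent.P247W.Dirq
import Vale.Agent.P247W.Eig
import Vale.Agent.P247W.Est
import Vale.Agent.P247W.Exi
import Vale.Agent.P247W.Ff2
import Vale.Agent.P247W.Grn
import Vale.Agent.P247W.Pos
import Vale.Agent.P247W.Seq
import Vale.Agent.P247W.Untr

/-!
# P247, stage 2: the Seiberg-Witten rows plugged together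
-/

namespace Vale.Agent.P247A

open Vale.Agent Vale.Agent.P247X Vale.Agent.P247W

theorem fba : FBA_statement := fba_of fdA

theorem fbb : FBB_statement := fbb_of fdB

theorem swh_of_quant (q : QUANT_statement) : SWH_statement :=
  swh_of (swq_of eigd grn exd1 (exd2 fbb q) (hig_of aprd untr est seq ff posq dirq))

theorem bp_of_bpq (h : BPQ_statement) : BP_statement := bph_of (h fba) h1z

theorem q1_of' (h : BPQ_statement) (q : QUANT_statement) (no : NO19_statement) : Q1_statement :=
  q1_of (bp_of_bpq h) (swh_of_quant q) no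

end Vale.Agent.P247A
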