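import Vale.Agent.P247A.CntSta

/-!
# P247, stage 2: linear algebra of the sign `sgn`
-/

set_option linter.all false

open scoped ContDiff Topology
open Set Filter Function

noncomputable section

namespace Vale.Agent.P247A

namespace Cn

section
variable {E F : Type} [NormedAddCommGroup E] [NormedSpace ℝ E] [FiniteDimensional ℝ E]
  [NormedAddCommGroup F] [NormedSpace ℝ F] [FiniteDimensional ℝ F]

theorem det_shear (N : E →ₗ[ℝ] E) (hN : ∀ x, N (N x) = 0) : 0 < LinearMap.det (1 + N) := by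
  have h1 : (1 + N) = (1 + (1 / 2 : ℝ) • N) * (1 + (1 / 2 : ℝ) • N) := by
    ext x
    simp only [LinearMap.add_apply, Module.End.mul_apply, Module.End.one_apply,
      LinearMap.smul_apply, map_add, map_smul, hN]
    module
  have h2 : (1 + (1 / 2 : ℝ) • N) * (1 - (1 / 2 : ℝ) • N) = 1 := by
    ext x
    simp only [LinearMap.add_apply, LinearMap.sub_apply, Module.End.mul_apply,
      Module.End.one_apply, LinearMap.smul_apply, map_sub, map_smul, hN]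
    module
  have h3 : LinearMap.det (1 + (1 / 2 : ℝ) • N) ≠ 0 := by
    intro h
    have := congrArg LinearMap.det h2
    rw [map_mul, h, map_one] at this
    simp at this
  rw [h1, map_mul]
  exact mul_self_pos.mpr h3

theorem det_cx {V : Type} [NormedAddCommGroup V] [NormedSpace ℂ V] [FiniteDimensional ℂ V]
    (T : V →ₗ[ℂ] V) (hT : Injective T) : 0 < LinearMap.det (T.restrictScalars ℝ) := by
  rw [LinearMap.det_restrictScalars, Algebra.norm_complex_apply, Complex.normSq_pos]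
  intro h
  exact LinearMap.det_eq_zero_iff_ker_ne_bot.mp h (LinearMap.ker_eq_bot.mpr hT)

theorem prod_onto {L : E →L[ℝ] F} (hL : Surjective L) {μ : E →L[ℝ] ℂ} (k : ℂ →L[ℝ] E)
    (hk : ∀ z, L (k z) = 0) {a : ℂ} (ha : a ≠ 0) (hμ : ∀ z, μ (k z) = a * z) :
    Surjective (L.prod μ) := by
  rintro ⟨y, w⟩
  obtain ⟨q, rfl⟩ := hL y
  refine ⟨q + k ((w - μ q) / a), ?_⟩
  ext
  · simp [hk]
  · simp [hμ]; field_simp; ring

theorem det_ne (e : (F × ℂ) ≃L[ℝ] E) {P : E →L[ℝ] F × ℂ} (hP : Surjective P) :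
    ((e : (F × ℂ) →L[ℝ] E).comp P).det ≠ 0 := by
  intro h
  have h1 : Surjective (((e : (F × ℂ) →L[ℝ] E).comp P : E →L[ℝ] E) : E →ₗ[ℝ] E) :=
    e.surjective.comp hP
  exact LinearMap.det_eq_zero_iff_ker_ne_bot.mp h
    (LinearMap.ker_eq_bot.mpr (LinearMap.injective_iff_surjective.mpr h1))

theorem inj_of_onto (e : (F × ℂ) ≃L[ℝ] E) {P : E →L[ℝ] F × ℂ} (hP : Surjective P) :
    Injective P := by
  have h1 : Surjective (((e : (F × ℂ) →L[ℝ] E).comp P : E →L[ℝ] E) : E →ₗ[ℝ] E) :=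
    e.surjective.comp hP
  have h2 := LinearMap.injective_iff_surjective.mpr h1
  intro x y h
  apply h2
  simp [h]

theorem onto_of_det (e : (F × ℂ) ≃L[ℝ] E) {P : E →L[ℝ] F × ℂ}
    (h : ((e : (F × ℂ) →L[ℝ] E).comp P).det ≠ 0) : Surjective P := by
  have h1 : Injective (((e : (F × ℂ) →L[ℝ] E).comp P : E →L[ℝ] E) : E →ₗ[ℝ] E) := by
    rw [← LinearMap.ker_eq_bot]
    by_contra h'
    exact h (LinearMap.det_eq_zero_iff_ker_ne_bot.mpr h')
  have h2 := LinearMap.injective_iff_surjective.mp h1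
  intro y
  obtain ⟨x, hx⟩ := h2 (e y)
  exact ⟨x, e.injective (by simpa using hx)⟩

theorem det_tri {G : Type} [NormedAddCommGroup G] [NormedSpace ℝ G] [FiniteDimensional ℝ G]
    (B : F →ₗ[ℝ] F) (hB : 0 < LinearMap.det B) (C : G →ₗ[ℝ] G) (hC : 0 < LinearMap.det C)
    (l : F →ₗ[ℝ] G) (S : F × G →ₗ[ℝ] F × G) (hS : ∀ y w, S (y, w) = (B y, C (l y + w))) :
    0 < LinearMap.det S := by
  have h : S = (B.prodMap C) * (1 + (LinearMap.inr ℝ F G).comp (l.comp (LinearMap.fst ℝ F G))) := by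
    apply LinearMap.ext
    rintro ⟨y, w⟩
    simp [hS, add_comm]
  rw [h, map_mul, LinearMap.det_prodMap]
  exact mul_pos (mul_pos hB hC) (det_shear _ (by simp))

theorem det_tri' {G : Type} [NormedAddCommGroup G] [NormedSpace ℝ G] [FiniteDimensional ℝ G]
    (B : F →ₗ[ℝ] F) (hB : 0 < LinearMap.det B) (l : G →ₗ[ℝ] F) (S : F × G →ₗ[ℝ] F × G)
    (hS : ∀ y w, S (y, w) = (B y + l w, w)) : 0 < LinearMap.det S := by
  have h : S = (1 + (LinearMap.inl ℝ F G).comp (l.comp (LinearMap.snd ℝ F G))) *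
      (B.prodMap LinearMap.id) := by
    apply LinearMap.ext
    rintro ⟨y, w⟩
    simp [hS]
  rw [h, map_mul, LinearMap.det_prodMap]
  exact mul_pos (det_shear _ (by simp)) (by simpa using hB)

theorem det_mulc {c : ℂ} (hc : c ≠ 0) :
    0 < LinearMap.det ((LinearMap.mulLeft ℂ c).restrictScalars ℝ) :=
  det_cx _ (fun x y h => mul_left_cancel₀ hc (by simpa using h))

end

end Cn

section
variable {E F : Type} [NormedAddCommGroup E] [NormedSpace ℝ E] [FiniteDimensional ℝ E]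
  [NormedAddCommGroup F] [NormedSpace ℝ F] [FiniteDimensional ℝ F]

/-- the sign does not depend on the choices -/
theorem sgn_congr (e : (F × ℂ) ≃L[ℝ] E) {L₁ L₂ : E →L[ℝ] F} {μ₁ μ₂ : E →L[ℝ] ℂ}
    (hL : Surjective L₁) (k : ℂ →L[ℝ] E) (hk : ∀ z, L₁ (k z) = 0) {a₁ a₂ : ℂ} (h₁ : a₁ ≠ 0)
    (h₂ : a₂ ≠ 0) (A : E →L[ℝ] E) (hA : 0 < A.det) (B : F →L[ℝ] F) (hB : 0 < B.det)
    (hAB : ∀ q, L₂ (A q) = B (L₁ q)) (hμ₁ : ∀ z, μ₁ (k z) = a₁ * z)
    (hμ₂ : ∀ z, μ₂ (A (k z)) = a₂ * z) : sgn e L₂ μ₂ = sgn e L₁ μ₁ := by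
  have hP := Cn.prod_onto hL k hk h₁ hμ₁
  have hI := Cn.inj_of_onto e hP
  obtain ⟨σ, hσ⟩ := (L₁ : E →ₗ[ℝ] F).exists_rightInverse_of_surjective
    (LinearMap.range_eq_top.mpr hL)
  have hσ' : ∀ y, L₁ (σ y) = y := fun y => by simpa using LinearMap.congr_fun hσ y
  have hq : ∀ q, q = σ (L₁ q) + k ((μ₁ q - μ₁ (σ (L₁ q))) / a₁) := by
    intro q
    apply hI
    ext
    · simp [hk, hσ']
    · simp only [ContinuousLinearMap.prod_apply, map_add, hμ₁, Prod.snd_add]; field_simp; ring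
  have hc : a₂ / a₁ ≠ 0 := div_ne_zero h₂ h₁
  set C : ℂ →ₗ[ℝ] ℂ := (LinearMap.mulLeft ℂ (a₂ / a₁)).restrictScalars ℝ with hC
  set C' : ℂ →ₗ[ℝ] ℂ := (LinearMap.mulLeft ℂ (a₁ / a₂)).restrictScalars ℝ with hC'
  set l : F →ₗ[ℝ] ℂ := C' ∘ₗ (μ₂ : E →ₗ[ℝ] ℂ) ∘ₗ (A : E →ₗ[ℝ] E) ∘ₗ σ - (μ₁ : E →ₗ[ℝ] ℂ) ∘ₗ σ
    with hl
  set S : F × ℂ →ₗ[ℝ] F × ℂ := ((B : F →ₗ[ℝ] F) ∘ₗ LinearMap.fst ℝ F ℂ).prod
    (C ∘ₗ (l ∘ₗ LinearMap.fst ℝ F ℂ + LinearMap.snd ℝ F ℂ)) with hS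
  have hSd : 0 < LinearMap.det S :=
    Cn.det_tri (B : F →ₗ[ℝ] F) hB C (Cn.det_mulc hc) l S (fun y w => by simp [hS])
  have key : (((e : (F × ℂ) →L[ℝ] E).comp (L₂.prod μ₂) : E →L[ℝ] E) : E →ₗ[ℝ] E) ∘ₗ
      (A : E →ₗ[ℝ] E) = ((e.toLinearEquiv : (F × ℂ) →ₗ[ℝ] E) ∘ₗ S ∘ₗ
        (e.toLinearEquiv.symm : E →ₗ[ℝ] (F × ℂ))) ∘ₗ
        (((e : (F × ℂ) →L[ℝ] E).comp (L₁.prod μ₁) : E →L[ℝ] E) : E →ₗ[ℝ] E) := by
    apply LinearMap.ext
    intro q
    have h3 : μ₂ (A q) = μ₂ (A (σ (L₁ q))) + a₂ * ((μ₁ q - μ₁ (σ (L₁ q))) / a₁) := by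
      conv_lhs => rw [hq q]
      rw [map_add, map_add, hμ₂]
    simp [hS, hl, hC, hC', hAB, h3]
    field_simp
    ring
  have hd := congrArg LinearMap.det key
  rw [LinearMap.det_comp, LinearMap.det_comp, LinearMap.det_conj] at hd
  have hs := congrArg SignType.sign hd
  rw [sign_mul, sign_mul, sign_pos hSd, sign_pos (show 0 < LinearMap.det (A : E →ₗ[ℝ] E) from hA),
    mul_one, one_mul] at hs
  unfold sgn
  exact congrArg (fun s : SignType => (s : ℤ)) hs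

theorem sgn_ne' (e : (F × ℂ) ≃L[ℝ] E) {L : E →L[ℝ] F} {μ : E →L[ℝ] ℂ}
    (hL : Surjective L) (k : ℂ →L[ℝ] E) (hk : ∀ z, L (k z) = 0) {a : ℂ} (ha : a ≠ 0)
    (hμ : ∀ z, μ (k z) = a * z) : sgn e L μ ≠ 0 := by
  have h := Cn.det_ne e (Cn.prod_onto hL k hk ha hμ)
  unfold sgn
  rcases lt_or_gt_of_ne h with h | h
  · rw [sign_neg h]; simp
  · rw [sign_pos h]; simp

end

/-- the complex line through `x` -/
def kl {m : ℕ} (b : ℕ) (x : Cv m) : ℂ →L[ℝ] Cv m × Rv b :=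
  (((ContinuousLinearMap.id ℂ ℂ).smulRight x).restrictScalars ℝ).prod 0

@[simp] theorem kl_apply {m b : ℕ} (x : Cv m) (z : ℂ) : kl b x z = (z • x, 0) := by
  simp [kl]

/-- the square of the length -/
def nsq {m : ℕ} (x : Cv m) : ℂ := ∑ i, starRingEnd ℂ (x i) * x i

theorem nsq_ne {m : ℕ} {x : Cv m} (hx : x ≠ 0) : nsq x ≠ 0 := by
  intro h
  apply hx
  have h1 : ((∑ i, Complex.normSq (x i) : ℝ) : ℂ) = 0 := by
    rw [← h, nsq]; push_cast
    exact Finset.sum_congr rfl fun i _ => by rw [Complex.normSq_eq_conj_mul_self]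
  have h2 : ∑ i, Complex.normSq (x i) = 0 := by exact_mod_cast h1
  rw [Finset.sum_eq_zero_iff_of_nonneg (fun i _ => Complex.normSq_nonneg _)] at h2
  ext i
  simpa using h2 i (Finset.mem_univ i)

theorem muAt_kl {m b : ℕ} (x : Cv m) (z : ℂ) : muAt b x (kl b x z) = nsq x * z := by
  rw [muAt_apply, nsq, Finset.sum_mul]
  exact Finset.sum_congr rfl fun i _ => by simp; ring

theorem sgn_ne {m b : ℕ} {F : Type} [NormedAddCommGroup F] [NormedSpace ℝ F]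
    [FiniteDimensional ℝ F] (e : (F × ℂ) ≃L[ℝ] (Cv m × Rv b)) {L : Cv m × Rv b →L[ℝ] F}
    (hL : Surjective L) {x : Cv m} (hx : x ≠ 0) (hk : ∀ z : ℂ, L (z • x, 0) = 0) :
    sgn e L (muAt b x) ≠ 0 :=
  sgn_ne' e hL (kl b x) (fun z => by simpa using hk z) (nsq_ne hx) (muAt_kl x)

/-- the action of a complex number on the target -/
def rho (M n : ℕ) (z : ℂ) : Cv M × Rv n →L[ℝ] Cv M × Rv n :=
  ((z • ContinuousLinearMap.id ℂ (Cv M)).restrictScalars ℝ).prodMap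
    (‖z‖ • ContinuousLinearMap.id ℝ (Rv n))

theorem rho_apply {M n : ℕ} (z : ℂ) (y : Cv M × Rv n) : rho M n z y = (z • y.1, ‖z‖ • y.2) := by
  simp [rho, Prod.map]

theorem rho_det {M n : ℕ} {z : ℂ} (hz : z ≠ 0) : 0 < (rho M n z).det := by
  refine Cn.det_tri ((z • LinearMap.id : Cv M →ₗ[ℂ] Cv M).restrictScalars ℝ)
    (Cn.det_cx _ fun x y h => smul_right_injective _ hz (by simpa using h))
    (‖z‖ • LinearMap.id) ?_ 0 _ (fun y w => by simp [rho_apply])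
  rw [LinearMap.det_smul]
  simpa using pow_pos (norm_pos_iff.mpr hz) _

theorem rho_mul {M n : ℕ} (z w : ℂ) (y : Cv M × Rv n) :
    rho M n (z * w) y = rho M n z (rho M n w y) := by
  simp [rho_apply, mul_smul]

theorem rho_one {M n : ℕ} (y : Cv M × Rv n) : rho M n 1 y = y := by
  simp [rho_apply]

theorem norm_rho {M n : ℕ} (z : ℂ) (y : Cv M × Rv n) : ‖rho M n z y‖ = ‖z‖ * ‖y‖ := by
  rw [rho_apply, Prod.norm_def, Prod.norm_def, norm_smul, norm_smul, norm_norm,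
    mul_max_of_nonneg _ _ (norm_nonneg z)]

theorem Sec.orb {m b M n : ℕ} {c : Coc m b} {G : Cv m × Rv b → Cv M × Rv n} (hG : Sec c G)
    (l : Fin b → ℤ) (z : ℂ) (q : Cv m × Rv b) :
    G (z • c.T l q.2 q.1, sh q.2 l) = rho M n z (G q) := by
  rw [hG.hom, hG.inv, rho_apply]

end Vale.Agent.P247A
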