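import Vale.Agent.P247A.Part

/-!
# P247, stage 2: good maps, the step lemma
-/

set_option linter.all false

open scoped ContDiff Topology
open Set Filter Function Metric

noncomputable section

namespace Vale.Agent.P247A

namespace Cn

variable {m b M n : ℕ}

/-- differentiable invariant maps with nondegenerate zeros -/
structure Good (c : Coc m b) (G : Cv m × Rv b → Cv M × Rv n) : Prop where
  sec : Sec c G
  diff : ∀ p : Cv m × Rv b, p.1 ≠ 0 → DifferentiableAt ℝ G p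
  onto : ∀ p : Cv m × Rv b, p.1 ≠ 0 → G p = 0 → Surjective (fderiv ℝ G p)

/-- representatives of the orbits of zeros -/
structure Rep (c : Coc m b) (G : Cv m × Rv b → Cv M × Rv n) (Z : Finset (Cv m × Rv b)) : Prop where
  mem : ∀ p ∈ Z, p.1 ≠ 0 ∧ G p = 0
  ex : ∀ p : Cv m × Rv b, p.1 ≠ 0 → G p = 0 → ∃ q ∈ Z, c.Orb q p
  uniq : ∀ q ∈ Z, ∀ q' ∈ Z, c.Orb q q' → q = q'

theorem kern {c : Coc m b} {G : Cv m × Rv b → Cv M × Rv n} (hG : Sec c G) {p : Cv m × Rv b}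
    (hd : DifferentiableAt ℝ G p) (h0 : G p = 0) (z : ℂ) : fderiv ℝ G p (kl b p.1 z) = 0 := by
  have h1 : HasFDerivAt (fun w : ℂ => kl b p.1 w + (0, p.2)) (kl b p.1) 1 :=
    (kl b p.1).hasFDerivAt.add_const _
  have h2 : HasFDerivAt G (fderiv ℝ G p) (kl b p.1 1 + (0, p.2)) := by
    simpa using hd.hasFDerivAt
  have h3 := h2.comp (1 : ℂ) h1
  have h4 : (G ∘ fun w : ℂ => kl b p.1 w + (0, p.2)) = fun _ => 0 := by
    funext w
    have := hG.hom w p.1 p.2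
    rw [Prod.mk.eta, h0] at this
    simpa [Prod.mk_zero_zero] using this
  rw [h4] at h3
  have h5 := h3.unique (hasFDerivAt_const (0 : Cv M × Rv n) (1 : ℂ))
  simpa using congrArg (fun T : ℂ →L[ℝ] Cv M × Rv n => T z) h5

theorem orb_zero {c : Coc m b} {G : Cv m × Rv b → Cv M × Rv n} (hG : Sec c G)
    {q p : Cv m × Rv b} (h : c.Orb q p) (h0 : G q = 0) : G p = 0 := by
  obtain ⟨z, -, hz⟩ := hG.of_orb h
  rw [hz _ _ G hG, h0, map_zero]

theorem orb_der {c : Coc m b} {G : Cv m × Rv b → Cv M × Rv n} (hG : Sec c G)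
    (hd : ∀ p : Cv m × Rv b, p.1 ≠ 0 → DifferentiableAt ℝ G p) {q p : Cv m × Rv b}
    (h : c.Orb q p) (hq : q.1 ≠ 0) : ∃ (A : Cv m × Rv b →L[ℝ] Cv m × Rv b) (z : ℂ), z ≠ 0 ∧
      0 < A.det ∧ (∀ v, fderiv ℝ G p (A v) = rho M n z (fderiv ℝ G q v)) ∧
      ∀ w, A (kl b q.1 w) = kl b p.1 w := by
  have hp := orb_ne h hq
  obtain ⟨l, z, hz, rfl⟩ := h
  have h0 : DifferentiableAt ℝ (fun h : Rv b => (c.T l h).restrictScalars ℝ) q.2 :=
    ((ContinuousLinearMap.restrictScalarsL ℂ (Cv m) (Cv m) ℝ ℝ).differentiable.comp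
      ((c.smooth l).differentiable (by simp))) q.2
  have h1 := (((h0.hasFDerivAt.comp q hasFDerivAt_snd).clm_apply hasFDerivAt_fst).const_smul
    z).prodMk (hasFDerivAt_snd.add_const (fun i => (l i : ℝ)))
  have h2 := (hd _ hp).hasFDerivAt.comp q h1
  have h3 := (rho M n z).hasFDerivAt.comp q (hd q hq).hasFDerivAt
  have h4 := h2.unique (h3.congr_of_eventuallyEq (Eventually.of_forall fun q' => hG.orb l z q'))
  refine ⟨_, z, hz, ?_, fun v => congrArg (fun T : _ →L[ℝ] _ => T v) h4, fun w => ?_⟩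
  · refine det_tri' ((z • (c.T l q.2 : Cv m →ₗ[ℂ] Cv m)).restrictScalars ℝ)
      (det_cx _ fun x y hxy => T_inj c l q.2 (smul_right_injective _ hz (by simpa using hxy)))
      ((z • ((fderiv ℝ (fun h : Rv b => (c.T l h).restrictScalars ℝ) q.2).flip q.1) :
        Rv b →L[ℝ] Cv m) : Rv b →ₗ[ℝ] Cv m) _ fun y w => ?_
    simp
  · simp [smul_comm z w]

theorem orb_onto {c : Coc m b} {G : Cv m × Rv b → Cv M × Rv n} (hG : Sec c G)
    (hd : ∀ p : Cv m × Rv b, p.1 ≠ 0 → DifferentiableAt ℝ G p) {q p : Cv m × Rv b}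
    (h : c.Orb q p) (hq : q.1 ≠ 0) (ho : Surjective (fderiv ℝ G q)) :
    Surjective (fderiv ℝ G p) := by
  obtain ⟨A, z, hz, -, h1, -⟩ := orb_der hG hd h hq
  intro y
  obtain ⟨v, hv⟩ := ho (rho M n z⁻¹ y)
  exact ⟨A v, by rw [h1, hv, ← rho_mul, mul_inv_cancel₀ hz, rho_one]⟩

theorem orb_sgn {c : Coc m b} {G : Cv m × Rv b → Cv M × Rv n} (hG : Good c G)
    (e : ((Cv M × Rv n) × ℂ) ≃L[ℝ] (Cv m × Rv b)) {q p : Cv m × Rv b}
    (h : c.Orb q p) (hq : q.1 ≠ 0) (h0 : G q = 0) :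
    sgn e (fderiv ℝ G p) (muAt b p.1) = sgn e (fderiv ℝ G q) (muAt b q.1) := by
  obtain ⟨A, z, hz, hA, h1, h2⟩ := orb_der hG.sec hG.diff h hq
  exact sgn_congr e (hG.onto q hq h0) (kl b q.1) (kern hG.sec (hG.diff q hq) h0) (nsq_ne hq)
    (nsq_ne (orb_ne h hq)) A hA (rho M n z) (rho_det hz) h1 (muAt_kl _)
    (fun w => by rw [h2, muAt_kl])

/-- the coordinate functional -/
def muj (b : ℕ) (j : Fin m) : Cv m × Rv b →L[ℝ] ℂ :=
  ((ContinuousLinearMap.proj j : Cv m →L[ℂ] ℂ).restrictScalars ℝ).comp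
    (ContinuousLinearMap.fst ℝ (Cv m) (Rv b))

@[simp] theorem muj_apply (j : Fin m) (q : Cv m × Rv b) : muj b j q = q.1 j := rfl

/-- the map whose zeros are the zeros in the slice -/
def hat (e : ((Cv M × Rv n) × ℂ) ≃L[ℝ] (Cv m × Rv b)) (j : Fin m)
    (G : Cv m × Rv b → Cv M × Rv n) (q : Cv m × Rv b) : Cv m × Rv b := e (G q, q.1 j - 1)

theorem hat_zero {e : ((Cv M × Rv n) × ℂ) ≃L[ℝ] (Cv m × Rv b)} {j : Fin m}
    {G : Cv m × Rv b → Cv M × Rv n} {q : Cv m × Rv b} :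
    hat e j G q = 0 ↔ G q = 0 ∧ q.1 j = 1 := by
  simp [hat, sub_eq_zero]

theorem hat_der {c : Coc m b} {G : Cv m × Rv b → Cv M × Rv n} (hG : Good c G)
    (e : ((Cv M × Rv n) × ℂ) ≃L[ℝ] (Cv m × Rv b)) {j : Fin m} {q : Cv m × Rv b}
    (h0 : G q = 0) (h1 : q.1 j = 1) : DifferentiableAt ℝ (hat e j G) q ∧
      (fderiv ℝ (hat e j G) q).det ≠ 0 ∧ (SignType.sign (fderiv ℝ (hat e j G) q).det : ℤ) =
        sgn e (fderiv ℝ G q) (muAt b q.1) := by
  have hq : q.1 ≠ 0 := fun h => by simp [h] at h1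
  have h2 : HasFDerivAt (hat e j G) (e.toContinuousLinearMap.comp ((fderiv ℝ G q).prod (muj b j))) q :=
    e.hasFDerivAt.comp q
      ((hG.diff q hq).hasFDerivAt.prodMk ((muj b j).hasFDerivAt.sub_const 1))
  have hk := kern hG.sec (hG.diff q hq) h0
  have hj : ∀ z, muj b j (kl b q.1 z) = 1 * z := fun z => by simp [h1]
  rw [h2.fderiv]
  refine ⟨h2.differentiableAt, det_ne e (prod_onto (hG.onto q hq h0) _ hk one_ne_zero hj), ?_⟩
  exact sgn_congr e (hG.onto q hq h0) (kl b q.1) hk (nsq_ne hq) one_ne_zero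
    (ContinuousLinearMap.id ℝ _) (by simp [ContinuousLinearMap.det]) (ContinuousLinearMap.id ℝ _)
    (by simp [ContinuousLinearMap.det]) (fun _ => rfl) (muAt_kl _) hj

theorem sat_orb {c : Coc m b} {a : Slc m b} {q p : Cv m × Rv b} (h : c.Orb q p)
    (hq : q ∈ a.sat c) : p ∈ a.sat c := by
  obtain ⟨q', h1, h2, h3⟩ := hq
  exact ⟨q', h1, h2, orb_trans h3 h⟩

theorem step_main (hS : STEP_statement) {c : Coc m b} {G G' : Cv m × Rv b → Cv M × Rv n}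
    (hG : Good c G) (hG' : Good c G') (e : ((Cv M × Rv n) × ℂ) ≃L[ℝ] (Cv m × Rv b))
    (a₀ : Slc m b) (hsat : ∀ q, q ∉ a₀.sat c → G' q = G q) {Z : Finset (Cv m × Rv b)}
    (hZ : Rep c G Z) : ∃ Z', Rep c G' Z' ∧ ∑ p ∈ Z', sgn e (fderiv ℝ G' p) (muAt b p.1) =
      ∑ p ∈ Z, sgn e (fderiv ℝ G p) (muAt b p.1) := by
  classical
  obtain ⟨K₁, c1, s1, u1⟩ := exists_compact_between a₀.cK isOpen_ball a₀.sub
  obtain ⟨K₂, c2, s2, u2⟩ := exists_compact_between c1 isOpen_ball u1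
  obtain ⟨φ, φ0, φ1, -⟩ := exists_continuous_zero_one_of_isClosed
    (isOpen_interior (s := K₂)).isClosed_compl c1.isClosed
    (disjoint_compl_left_iff_subset.mpr s2)
  let a : Slc m b := { a₀ with K := K₂, cK := c2, sub := u2 }
  have hsub : ∀ q, q ∉ a.sat c → q ∉ a₀.sat c := fun q h ⟨q', h1, h2, h3⟩ =>
    h ⟨q', interior_subset (s2 (interior_subset (s1 h1))), h2, h3⟩
  set H : Cv m × Rv b → Cv M × Rv n := fun q => G q + φ q • (G' q - G q) with hH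
  have germ : ∀ q ∈ a.sl, H =ᶠ[𝓝 q] G' := by
    intro q hq
    by_cases h : q ∈ a₀.K
    · filter_upwards [isOpen_interior.mem_nhds (s1 h)] with q' h'
      simp [hH, φ1 (interior_subset h')]
    · have h1 : q ∉ a₀.sat c := fun ⟨q', h1, h2, h3⟩ =>
        h (sl_inj c a₀ ⟨a₀.sub h1, h2⟩ hq h3 ▸ h1)
      filter_upwards [sat m b c a₀ q (fun h => ball_ne a hq.1 (by simp [h])) h1] with q' h'
      simp [hH, hsat q' h']
  have germ' : ∀ q ∈ a.sl, hat e a.j H =ᶠ[𝓝 q] hat e a.j G' := fun q hq =>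
    (germ q hq).mono fun q' h => by simp [hat, h]
  have hz : ∀ q ∈ ball a.p a.r, hat e a.j H q = 0 → G' q = 0 ∧ q.1 a.j = 1 := fun q hq h =>
    ⟨(germ q ⟨hq, (hat_zero.mp h).2⟩).self_of_nhds ▸ (hat_zero.mp h).1, (hat_zero.mp h).2⟩
  have hc : ∀ G : Cv m × Rv b → Cv M × Rv n, Continuous G → Continuous (hat e a.j G) :=
    fun G h => e.continuous.comp (h.prodMk ((muj b a.j).continuous.sub continuous_const))
  obtain ⟨A, B, hA, hB, hAB⟩ := hS _ (hat e a.j G) (hat e a.j H) (ball a.p a.r) K₂ isOpen_ball c2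
    u2 (hc G hG.sec.cont).continuousOn
    (hc H (hG.sec.cont.add (φ.continuous.smul (hG'.sec.cont.sub hG.sec.cont)))).continuousOn
    (fun q _ h => by
      have : φ q = 0 := φ0 fun h' => h (interior_subset h')
      simp [hat, hH, this])
    (fun q _ h => ⟨(hat_der hG e (hat_zero.mp h).1 (hat_zero.mp h).2).1,
      (hat_der hG e (hat_zero.mp h).1 (hat_zero.mp h).2).2.1⟩)
    (fun q hq h => by
      obtain ⟨h1, h2⟩ := hz q hq h
      rw [(germ' q ⟨hq, h2⟩).fderiv_eq, (germ' q ⟨hq, h2⟩).differentiableAt_iff]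
      exact ⟨(hat_der hG' e h1 h2).1, (hat_der hG' e h1 h2).2.1⟩)
  have hB' : ∀ q, q ∈ B ↔ q ∈ K₂ ∧ G' q = 0 ∧ q.1 a.j = 1 := fun q => by
    rw [hB]
    refine ⟨fun h => ⟨h.1, hz q (u2 h.1) h.2⟩, fun h => ⟨h.1, ?_⟩⟩
    rw [(germ' q ⟨u2 h.1, h.2.2⟩).self_of_nhds]
    exact hat_zero.mpr h.2
  have hne : ∀ q : Cv m × Rv b, q.1 a.j = 1 → q.1 ≠ 0 := fun q h1 h => by simp [h] at h1
  have hBs : ∀ q ∈ B, q ∈ a.sat c := fun q h =>
    ⟨q, ((hB' q).mp h).1, ((hB' q).mp h).2.2, orb_refl c q⟩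
  refine ⟨Z.filter (· ∉ a.sat c) ∪ B, ⟨fun p hp => ?_, fun p hp h0 => ?_, fun q hq q' hq' h => ?_⟩,
    ?_⟩
  · rcases Finset.mem_union.mp hp with h | h
    · rw [Finset.mem_filter] at h
      exact ⟨(hZ.mem p h.1).1, (hsat p (hsub p h.2)).trans (hZ.mem p h.1).2⟩
    · exact ⟨hne p ((hB' p).mp h).2.2, ((hB' p).mp h).2.1⟩
  · by_cases h : p ∈ a.sat c
    · obtain ⟨q, h1, h2, h3⟩ := h
      exact ⟨q, Finset.mem_union_right _
        ((hB' q).mpr ⟨h1, orb_zero hG'.sec (orb_symm h3) h0, h2⟩), h3⟩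
    · obtain ⟨q, h1, h2⟩ := hZ.ex p hp ((hsat p (hsub p h)).symm.trans h0)
      exact ⟨q, Finset.mem_union_left _ (Finset.mem_filter.mpr ⟨h1, fun h' => h (sat_orb h2 h')⟩),
        h2⟩
  · rcases Finset.mem_union.mp hq with h1 | h1 <;> rcases Finset.mem_union.mp hq' with h2 | h2
    · exact hZ.uniq q (Finset.mem_filter.mp h1).1 q' (Finset.mem_filter.mp h2).1 h
    · exact absurd (sat_orb (orb_symm h) (hBs q' h2)) (Finset.mem_filter.mp h1).2
    · exact absurd (sat_orb h (hBs q h1)) (Finset.mem_filter.mp h2).2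
    · exact sl_inj c a ⟨u2 ((hB' q).mp h1).1, ((hB' q).mp h1).2.2⟩
        ⟨u2 ((hB' q').mp h2).1, ((hB' q').mp h2).2.2⟩ h
  · have hdj : Disjoint (Z.filter (· ∉ a.sat c)) B := Finset.disjoint_left.mpr fun q h1 h2 =>
      (Finset.mem_filter.mp h1).2 (hBs q h2)
    rw [Finset.sum_union hdj, ← Finset.sum_filter_not_add_sum_filter Z (· ∈ a.sat c)]
    congr 1
    · refine Finset.sum_congr rfl fun p hp => ?_
      rw [Finset.mem_filter] at hp
      have : G' =ᶠ[𝓝 p] G := (sat m b c a p (hZ.mem p hp.1).1 hp.2).mono fun q h =>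
        hsat q (hsub q h)
      rw [this.fderiv_eq]
    · have e1 : ∑ p ∈ B, sgn e (fderiv ℝ G' p) (muAt b p.1) =
          ∑ p ∈ A, sgn e (fderiv ℝ G p) (muAt b p.1) := by
        refine Eq.trans (Finset.sum_congr rfl fun p hp => ?_)
          (hAB.symm.trans (Finset.sum_congr rfl fun p hp => ?_))
        · obtain ⟨h1, h2, h3⟩ := (hB' p).mp hp
          rw [(germ' p ⟨u2 h1, h3⟩).fderiv_eq, (hat_der hG' e h2 h3).2.2]
        · have := hat_zero.mp ((hA p).mp hp).2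
          exact (hat_der hG e this.1 this.2).2.2
      rw [e1]
      have hA' : ∀ p ∈ A, p ∈ K₂ ∧ G p = 0 ∧ p.1 a.j = 1 := fun p hp =>
        ⟨((hA p).mp hp).1, hat_zero.mp ((hA p).mp hp).2⟩
      have hex : ∀ p ∈ A, ∃ q ∈ Z, c.Orb q p := fun p hp =>
        hZ.ex p (hne p (hA' p hp).2.2) (hA' p hp).2.1
      choose ψ hψ hψ' using hex
      refine Finset.sum_bij ψ (fun p hp => Finset.mem_filter.mpr ⟨hψ p hp, ?_⟩)
        (fun p hp p' hp' h => ?_) (fun q hq => ?_) fun p hp => ?_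
      · exact ⟨p, (hA' p hp).1, (hA' p hp).2.2, orb_symm (hψ' p hp)⟩
      · exact sl_inj c a ⟨u2 (hA' p hp).1, (hA' p hp).2.2⟩ ⟨u2 (hA' p' hp').1, (hA' p' hp').2.2⟩
          (orb_trans (orb_symm (hψ' p hp)) (h ▸ hψ' p' hp'))
      · obtain ⟨hq1, p, h1, h2, h3⟩ := Finset.mem_filter.mp hq
        have hp : p ∈ A := (hA p).mpr
          ⟨h1, hat_zero.mpr ⟨orb_zero hG.sec (orb_symm h3) (hZ.mem q hq1).2, h2⟩⟩
        exact ⟨p, hp, hZ.uniq _ (hψ p hp) q hq1 (orb_trans (hψ' p hp) h3)⟩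
      · exact orb_sgn hG e (hψ' p hp) (hZ.mem _ (hψ p hp)).1 (hZ.mem _ (hψ p hp)).2

end Cn

end Vale.Agent.P247A
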