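import Vale.Agent.P247V.Cyc
import Vale.Agent.P247M.H1

/-!
# P247, stage 2: row COV (helper19)
-/

set_option linter.all false

open scoped Manifold ContDiff Topology
open Set Filter MeasureTheory

noncomputable section

namespace Vale.Agent.P247A

open Vale.Agent.P247.SCY Vale.Agent.P247.SCY.HS Vale.Agent.P247X Vale.Agent.P247M Vale.Agent.P247V
open Vale.Agent.P267.H175 (SmAt dF)
open Vale.Agent.P267
open Vale.Agent.P247C (dArg dArg_apply)

namespace Cov

/-- a root of a function with a continuous logarithm has a continuous logarithm -/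
theorem log_root {T : Type*} [TopologicalSpace T] {U : Set T} {u : T → ℂ} {f : T → ℝ} {k : ℕ}
    (hk : k ≠ 0) (hu : ContinuousOn u U) (hf : ContinuousOn f U)
    (h : ∀ x ∈ U, u x ^ k = Complex.exp (Complex.I * f x)) :
    ∃ f' : T → ℝ, ContinuousOn f' U ∧ ∀ x ∈ U, u x = Complex.exp (Complex.I * f' x) := by
  let c : T → ℂ := fun x => u x / Complex.exp (Complex.I * (f x / k : ℝ))
  have hk' : (k : ℂ) ≠ 0 := Nat.cast_ne_zero.2 hk
  have hc : ∀ x ∈ U, c x ^ k = 1 := fun x hx => by
    show (u x / _) ^ k = 1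
    rw [div_pow, h x hx, ← Complex.exp_nat_mul, div_eq_one_iff_eq (Complex.exp_ne_zero _)]
    congr 1
    push_cast
    field_simp
  have hcc : ContinuousOn c U :=
    hu.div ((continuousOn_const.mul (Complex.continuous_ofReal.comp_continuousOn
      (hf.div_const _))).cexp) fun x _ => Complex.exp_ne_zero _
  refine ⟨fun x => f x / k + Complex.arg (c x), (hf.div_const _).add fun x hx => ?_, fun x hx => ?_⟩
  · have h1 := ev_const hk (hcc x hx) (by
      filter_upwards [self_mem_nhdsWithin] with t ht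
      rw [hc t ht, hc x hx])
    refine (continuousWithinAt_const (b := Complex.arg (c x))).congr_of_eventuallyEq ?_ rfl
    filter_upwards [h1] with t ht
    rw [ht]
  · have h1 : ‖c x‖ = 1 := by
      have := congrArg norm (hc x hx)
      rw [norm_pow, norm_one] at this
      exact (pow_eq_one_iff_of_nonneg (norm_nonneg _) hk).1 this
    have h2 := Complex.norm_mul_exp_arg_mul_I (c x)
    rw [h1, Complex.ofReal_one, one_mul, mul_comm] at h2
    rw [Complex.ofReal_add, mul_add, Complex.exp_add, h2]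
    exact (mul_div_cancel₀ _ (Complex.exp_ne_zero _)).symm

variable {X : Type} [Cl4 X]

theorem ang_eq {g : X → ℂ} {x : X} (h : SmC g x) (v : TangentSpace (𝓡 4) x) :
    ang g x v = dArg g x ![v] / (2 * Real.pi) :=
  congrArg (fun t : ℝ => t / (2 * Real.pi)) (dArg_apply h v).symm

theorem dfr_eq {f : X → ℝ} {x : X} (h : SmF f x) (v : TangentSpace (𝓡 4) x) :
    dfr f x v = Df f x v :=
  mfderiv_eq_Df h v

theorem circ_mon {b : ℕ} {g : Fin b → X → ℂ} (hg : ∀ i, Circ (g i)) (m : Fin b → ℤ) :
    Circ (fun x => ∏ i, g i x ^ m i) ∧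
      ∀ x v, ang (fun x => ∏ i, g i x ^ m i) x v = ∑ i, (m i : ℝ) * ang (g i) x v := by
  have h1 := fun i => circ_zpow (hg i).1 (hg i).2 (m i)
  obtain ⟨h2, h3, h4⟩ := circ_prod Finset.univ (g := fun i x => g i x ^ m i) (fun i => (h1 i).1)
    fun i => (h1 i).2.1
  refine ⟨⟨h2, h3⟩, fun x v => ?_⟩
  rw [ang_eq (h2 x), h4, Finset.sum_apply, ContinuousAlternatingMap.sum_apply, Finset.sum_div]
  refine Finset.sum_congr rfl fun i _ => ?_
  rw [(h1 i).2.2, ang_eq ((hg i).1 x), ← mul_div_assoc]
  rfl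

theorem ang_pow {r : X → ℂ} (hr : Circ r) (d : ℕ) (x : X) (v : TangentSpace (𝓡 4) x) :
    ang (fun x => r x ^ d) x v = d * ang r x v := by
  have h1 := circ_zpow hr.1 hr.2 (d : ℤ)
  simp only [zpow_natCast, Int.cast_natCast] at h1
  rw [ang_eq (h1.1 x), h1.2.2, ang_eq (hr.1 x), ← mul_div_assoc]
  rfl

/-- roots of monomials -/
theorem dvd_of_root {b : ℕ} (B : H1B X b) (m : Fin b → ℤ) {d : ℕ} {r : X → ℂ} (hr : Circ r)
    (h : ∀ x, r x ^ d = ∏ i, B.g i x ^ m i) (i : Fin b) : (d : ℤ) ∣ m i := by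
  obtain ⟨n, f, hf, h1⟩ := B.lat r hr
  have h2 := B.indep (fun i => (m i : ℝ) - d * n i) (fun x => d * f x) (contMDiff_const.mul hf)
    fun x v => by
      have h3 := (circ_mon B.circ m).2 x v
      rw [← funext h, ang_pow hr, h1, mul_add, Finset.mul_sum] at h3
      rw [dfr_eq (f := fun x => d * f x) (contMDiffAt_const.mul (hf x)), Df_const_mul _ (hf x)]
      rw [dfr_eq (hf x)] at h3
      simp only [sub_mul, Finset.sum_sub_distrib, mul_assoc, ← h3, add_sub_cancel_left]
      rfl
  have h3 : (m i : ℝ) - d * n i = 0 := congrFun h2 i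
  exact ⟨n i, by exact_mod_cast sub_eq_zero.1 h3⟩

theorem quot_zero_left {μ : Form X 4} {α β : Form X 2} {x : X} (h : α x = 0) :
    quot μ α β x = 0 := by
  simp [quot, wedge, h]

theorem quot_zero_right {μ : Form X 4} {α β : Form X 2} {x : X} (h : β x = 0) :
    quot μ α β x = 0 := by
  simp [quot, wedge, h]

/-- four lifts -/
theorem four {μ : Form X 4} (hμ : Volume μ) {u : X → ℂ} (C : Cyc X u 4) {U : Set X} {f : X → ℝ}
    (hU : IsOpen U) (hf : ContinuousOn f U) (h : ∀ x ∈ U, u x = Complex.exp (Complex.I * f x))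
    {α : Form X 2} (hα : SC α) (hs : SuppIn α U) (hp : 0 < pair μ α α) :
    ¬ BPlusLe3 (up C.p μ) := by
  classical
  obtain ⟨K, hK, hKU, h0⟩ := hs
  let r : Fin 4 → X → ℂ := fun j x => Complex.I ^ (j : ℕ) * Complex.exp (Complex.I * f x / 4)
  have hr : ∀ j, ∀ x ∈ U, r j x ^ 4 = u x := fun j x hx => by
    rw [h x hx, mul_pow, ← pow_mul, mul_comm _ 4, pow_mul, Complex.I_pow_four, one_pow, one_mul,
      ← Complex.exp_nat_mul]
    congr 1
    push_cast
    ring
  have hrc : ∀ j, ContinuousOn (r j) U := fun j => continuousOn_const.mul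
    ((continuousOn_const.mul (Complex.continuous_ofReal.comp_continuousOn hf)).div_const _).cexp
  let S : Fin 4 → Set C.Y := fun j => C.sheet (r j) ∩ C.p ⁻¹' U
  have hS : ∀ j, IsOpen (S j) := fun j => C.sheet_open (by norm_num) hU (hrc j) (hr j)
  have hd : ∀ i j y, y ∈ S i → y ∈ S j → i = j := fun i j y a b =>
    Fin.ext (Complex.isPrimitiveRoot_I.pow_inj i.2 j.2
      (mul_right_cancel₀ (Complex.exp_ne_zero _) ((show C.z y = r i _ from a.1).symm.trans b.1)))
  let β : Fin 4 → Form C.Y 2 := fun j y => if y ∈ S j then up C.p α y else 0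
  have hβ : ∀ j y, rf (β j) =ᶠ[𝓝 y] rf (up C.p α) ∨ ∀ᶠ t in 𝓝 y, rf (β j) t = 0 := by
    intro j y
    by_cases hy : y ∈ S j
    · left
      filter_upwards [(hS j).mem_nhds hy] with t ht
      exact if_pos ht
    · right
      have h1 : IsClosed {t ∈ C.p ⁻¹' K | C.z t = r j (C.p t)} :=
        (hK.isClosed.preimage C.et.cont).isClosed_eq C.circ.1.continuous.continuousOn
          ((hrc j).comp C.et.cont.continuousOn fun t ht => hKU ht)
      filter_upwards [h1.isOpen_compl.mem_nhds fun h2 => hy ⟨h2.2, hKU h2.1⟩] with t ht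
      by_cases h2 : t ∈ S j
      · exact (if_pos h2).trans (h0 _ fun h3 => ht ⟨h3, h2.1⟩)
      · exact if_neg h2
  have hu := sc_iff.1 (C.et.sc_up hα)
  have hsc : ∀ j, SC (β j) := fun j => sc_iff.2 ⟨fun y => (hβ j y).elim
    (fun h1 => (hu.1 y).congr h1) smAt_of_zero, fun y => (hβ j y).elim
    (fun h1 => (H175.dF_congr h1).trans (hu.2 y)) dF_of_zero⟩
  have hg : (Matrix.of fun i j => pair (up C.p μ) (β i) (β j)) =
      Matrix.diagonal fun _ => pair μ α α := by
    ext i j
    rw [Matrix.of_apply, Matrix.diagonal_apply]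
    split_ifs with hij
    · subst hij
      have h1 : quot (up C.p μ) (β i) (β i) = (S i).indicator fun y => quot μ α α (C.p y) := by
        funext y
        by_cases hy : y ∈ S i
        · rw [indicator_of_mem hy, ← quot_up]
          unfold quot
          rw [show β i y = up C.p α y from if_pos hy]
        · rw [indicator_of_notMem hy]
          exact quot_zero_left (if_neg hy)
      unfold pair
      rw [h1, integral_indicator (hS i).measurableSet, C.et.setIntegral_up μ (hS i).measurableSet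
        ((C.sheet_inj _).mono inter_subset_left)
        (P247M.continuous_quot hμ hα.1 hα.1).aestronglyMeasurable, C.sheet_image (hr i)]
      exact setIntegral_eq_integral_of_forall_compl_eq_zero fun x hx =>
        quot_zero_left (h0 x fun h2 => hx (hKU h2))
    · have h1 : quot (up C.p μ) (β i) (β j) = fun _ => 0 := by
        funext y
        by_cases hy : y ∈ S i
        · exact quot_zero_right (if_neg fun h2 => hij (hd i j y hy h2))
        · exact quot_zero_left (if_neg hy)
      unfold pair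
      rw [h1, integral_zero]
  exact fun hb => hb ⟨β, hsc, by rw [hg]; exact Matrix.PosDef.diagonal fun _ => hp⟩

end Cov

open Cov in
/-- row COV -/
theorem cov (hB : BP_statement) : COV_statement := by
  intro X _ μ hμ w hw b B m hm U f hU hf h α hα hs
  by_contra hp
  obtain ⟨i0, hi0⟩ := Function.ne_iff.1 hm
  obtain ⟨m', h1, h2⟩ := Finset.extract_gcd (s := Finset.univ) m ⟨i0, Finset.mem_univ _⟩
  obtain ⟨k, hk⟩ := Int.eq_ofNat_of_zero_le
    (Int.nonneg_of_normalize_eq_self (Finset.normalize_gcd (s := Finset.univ) (f := m)))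
  rw [hk] at h1
  have hk0 : k ≠ 0 := fun e => hi0 (by rw [h1 i0 (Finset.mem_univ _), e]; simp)
  have hc := (circ_mon B.circ m').1
  obtain ⟨f', hf', h'⟩ := log_root hk0 hc.1.continuous.continuousOn hf fun x hx => by
    rw [← h x hx, ← Finset.prod_pow]
    refine Finset.prod_congr rfl fun i hi => ?_
    rw [h1 i hi, ← zpow_natCast, ← zpow_mul, mul_comm]
  obtain ⟨C⟩ := exists_cyc hc (n := 4) (by norm_num) fun d hd _ r hr h3 => by
    have h4 : (d : ℤ) ∣ Finset.univ.gcd m' := Finset.dvd_gcd fun i _ => dvd_of_root B m' hr h3 i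
    rw [h2] at h4
    have := Int.le_of_dvd one_pos h4
    omega
  exact four hμ C hU hf' h' hα hs (not_le.1 hp)
    (hB C.Y _ (C.et.volume_up hμ) _ (C.et.hyp_up hw))

end Vale.Agent.P247A
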