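import Vale.Agent.P205.TI.Deg

/-!
# P247, stage 2: the degree integral does not change under compactly supported modifications
-/

set_option linter.all false

open MeasureTheory Matrix Set Topology
open scoped ContDiff

namespace Vale.Agent.P247A.Dg

open Vale.Agent.P205.TI.Deg

variable {n : ℕ}

theorem const_in_time {φ χ : (Fin n → ℝ) → ℝ} {f u : (Fin n → ℝ) → (Fin n → ℝ)}
    (hφ : ContDiff ℝ 1 φ) (hf : ContDiff ℝ 2 f) (hu : ContDiff ℝ 2 u)
    (hχ : ContDiff ℝ 1 χ) (hχc : HasCompactSupport χ)
    (h : ∀ x, u x ≠ 0 → fderiv ℝ χ x = 0) :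
    ∫ x, χ x * (φ (f x + u x) * detC n (rows (fun y => f y + u y) x))
      = ∫ x, χ x * (φ (f x) * detC n (rows f x)) := by
  have hfd : Differentiable ℝ f := hf.differentiable (by norm_num)
  have hud : Differentiable ℝ u := hu.differentiable (by norm_num)
  have hφd : Differentiable ℝ φ := hφ.differentiable (by norm_num)
  have c1 : Continuous (rows f) := (contDiff_rows (k := 1) hf (by norm_num)).continuous
  have c2 : Continuous (rows u) := (contDiff_rows (k := 1) hu (by norm_num)).continuous
  have c3 : Continuous f := hf.continuous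
  have c4 : Continuous u := hu.continuous
  have c5 : Continuous φ := hφ.continuous
  have c7 : Continuous (detC n) := continuous_detC
  have c8 : Continuous χ := hχ.continuous
  set G : ℝ → (Fin n → ℝ) → ℝ := fun t x =>
    χ x * (φ (f x + t • u x) * detC n (rows (fun y => f y + t • u y) x)) with hG
  set G' : ℝ → (Fin n → ℝ) → ℝ := fun t x => χ x * tder φ f u t x with hG'
  have hGcont : ∀ t, Continuous (G t) := by
    intro t
    simp only [hG, rows_add_smul hfd hud]
    exact c8.mul ((c5.comp (by fun_prop)).mul (c7.comp (by fun_prop)))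
  have hG'cont : Continuous (fun q : ℝ × (Fin n → ℝ) => G' q.1 q.2) :=
    (c8.comp continuous_snd).mul (continuous_tder hφ hf hu)
  have hderiv : ∀ t x, HasDerivAt (fun s => G s x) (G' t x) t := by
    intro t x
    have := (hasDerivAt_time hfd hud hφd x t).const_mul (χ x)
    simp only [hG, hG', tder]
    simpa only [rows_add_smul hfd hud] using this
  have hD : ∀ t, HasDerivAt (fun s => ∫ x, G s x) (∫ x, G' t x) t := by
    intro t
    have hK : IsCompact (Icc (t - 1) (t + 1) ×ˢ tsupport χ) := isCompact_Icc.prod hχc
    obtain ⟨C, hC⟩ := hK.exists_bound_of_continuousOn hG'cont.continuousOn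
    refine (hasDerivAt_integral_of_dominated_loc_of_deriv_le (μ := volume) (F := G) (F' := G')
      (bound := (tsupport χ).indicator (fun _ => C)) (s := Icc (t - 1) (t + 1)) (x₀ := t)
      (Icc_mem_nhds (by linarith) (by linarith)) ?_ ?_ ?_ ?_ ?_ ?_).2
    · exact Filter.Eventually.of_forall fun s => (hGcont s).aestronglyMeasurable
    · exact (hGcont t).integrable_of_hasCompactSupport (hχc.mul_right)
    · exact (hG'cont.comp (Continuous.prodMk_right t)).aestronglyMeasurable
    · refine Filter.Eventually.of_forall fun x s hs => ?_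
      by_cases hx : x ∈ tsupport χ
      · rw [indicator_of_mem hx]
        exact hC (s, x) ⟨hs, hx⟩
      · rw [indicator_of_notMem hx]
        simp [hG', image_eq_zero_of_notMem_tsupport hx]
    · rw [integrable_indicator_iff (isClosed_tsupport χ).measurableSet]
      exact integrableOn_const hχc.measure_lt_top.ne
    · exact Filter.Eventually.of_forall fun x s _ => hderiv s x
  have hzero : ∀ t ∈ Icc (0:ℝ) 1, ∫ x, G' t x = 0 := by
    intro t ht
    set ft : (Fin n → ℝ) → (Fin n → ℝ) := fun y => f y + t • u y with hft
    have hftC : ContDiff ℝ 2 ft := hf.add (hu.const_smul t)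
    set hj : Fin n → (Fin n → ℝ) → ℝ := fun j y =>
      φ (ft y) * detC n (Function.update (rows ft y) j (u y)) with hhj
    have hjC : ∀ j, ContDiff ℝ 1 (hj j) := by
      intro j
      refine (hφ.comp (hftC.of_le (by norm_num))).mul ?_
      refine (detC n).contDiff.comp ?_
      rw [contDiff_pi]
      intro i
      by_cases hij : i = j
      · subst hij
        simpa using hu.of_le (by norm_num)
      · simp only [Function.update_of_ne hij]
        exact contDiff_pi.1 (contDiff_rows (k := 1) hftC (by norm_num)) i
    have e1 : ∀ x, G' t x = ∑ j, χ x * fderiv ℝ (hj j) x (Pi.single j 1) := by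
      intro x
      rw [← Finset.mul_sum]
      simp only [hG', hhj]
      rw [div_eq hftC hud hφd x]
      simp only [tder, hft, rows_add_smul hfd hud]
    have hint : ∀ j, Integrable (fun x => χ x * fderiv ℝ (hj j) x (Pi.single j 1)) := by
      intro j
      refine Continuous.integrable_of_hasCompactSupport ?_ hχc.mul_right
      exact c8.mul (((hjC j).continuous_fderiv (by norm_num)).clm_apply continuous_const)
    rw [integral_congr_ae (Filter.Eventually.of_forall e1), integral_finsetSum _ fun j _ => hint j]
    refine Finset.sum_eq_zero fun j _ => ?_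
    have hz : ∀ x, fderiv ℝ χ x (Pi.single j 1) * hj j x = 0 := by
      intro x
      by_cases hx : u x = 0
      · have : detC n (Function.update (rows ft x) j 0) = 0 :=
          (detC n).toMultilinearMap.map_update_zero _ _
        simp [hhj, hx, this]
      · rw [h x hx]
        simp
    rw [integral_mul_fderiv_eq_neg_fderiv_mul_of_integrable]
    · simp [hz]
    · simp only [hz, integrable_fun_zero]
    · exact hint j
    · exact Continuous.integrable_of_hasCompactSupport (c8.mul (hjC j).continuous) hχc.mul_right
    · exact fun x _ => (hχ.differentiable (by norm_num)) x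
    · exact fun x _ => ((hjC j).differentiable (by norm_num)) x
  have hconst := constant_of_has_deriv_right_zero (f := fun s => ∫ x, G s x) (a := 0) (b := 1)
    (fun s _ => (hD s).continuousAt.continuousWithinAt) (fun s hs => by
      have := (hD s).hasDerivWithinAt (s := Ici s)
      rwa [hzero s ⟨hs.1, hs.2.le⟩] at this) 1 (by simp only [mem_Icc, zero_le_one, Std.le_refl,
                                                     and_self])
  simpa [hG] using hconst

/-- the integrand of the degree integral -/
noncomputable def dn (f : (Fin n → ℝ) → (Fin n → ℝ)) (x : Fin n → ℝ) : ℝ :=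
  phi n (f x) * (fderiv ℝ f x).det

theorem dn_eq (f : (Fin n → ℝ) → (Fin n → ℝ)) : dn f = fun x => phi n (f x) * detC n (rows f x) :=
  funext fun x => by rw [dn, det_fderiv_eq]

theorem dn_cont {f : (Fin n → ℝ) → (Fin n → ℝ)} (hf : ContDiff ℝ ∞ f) : Continuous (dn f) :=
  dn_eq f ▸ continuous_integrand hf

theorem dn_congr {f g : (Fin n → ℝ) → (Fin n → ℝ)} {x : Fin n → ℝ} (h : f =ᶠ[𝓝 x] g) :
    dn f x = dn g x := by
  rw [dn, dn, h.fderiv_eq, h.eq_of_nhds]

theorem int_modif {f u : (Fin n → ℝ) → (Fin n → ℝ)} (hf : ContDiff ℝ ∞ f) (hu : ContDiff ℝ ∞ u)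
    {C : Set (Fin n → ℝ)} (hC : IsCompact C) (h0 : ∀ x, x ∉ C → u x = 0) {R : ℝ}
    (hR : C ⊆ Metric.ball 0 R) :
    ∫ x in Metric.ball 0 R, (dn (fun y => f y + u y) x - dn f x) = 0 := by
  obtain ⟨χ, c1, c2, -, c4⟩ := exists_cutoff hC Metric.isOpen_ball Metric.isBounded_ball hR
  have k := const_in_time (phi_contDiff.of_le (by exact_mod_cast le_top)) (hf.of_le two_le_infty)
    (hu.of_le two_le_infty) (c1.of_le (by exact_mod_cast le_top)) c2 fun x hx => by
      rw [(c4 x (by_contra fun a => hx (h0 x a))).fderiv_eq]
      simp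
  have z : ∀ x, x ∉ C → dn (fun y => f y + u y) x - dn f x = 0 := fun x hx => by
    rw [dn_congr (g := f), sub_self]
    filter_upwards [hC.isClosed.isOpen_compl.mem_nhds hx] with y hy
    rw [h0 y hy, add_zero]
  rw [setIntegral_eq_integral_of_forall_compl_eq_zero fun x hx => z x fun a => hx (hR a)]
  have e : ∀ x, dn (fun y => f y + u y) x - dn f x =
      χ x * dn (fun y => f y + u y) x - χ x * dn f x := fun x => by
    by_cases hx : x ∈ C
    · rw [(c4 x hx).eq_of_nhds, one_mul, one_mul]
    · rw [← mul_sub, z x hx, mul_zero]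
  simp only [e]
  have i1 : Integrable fun x => χ x * dn (fun y => f y + u y) x :=
    (c1.continuous.mul (dn_cont (hf.add hu))).integrable_of_hasCompactSupport c2.mul_right
  have i2 : Integrable fun x => χ x * dn f x :=
    (c1.continuous.mul (dn_cont hf)).integrable_of_hasCompactSupport c2.mul_right
  rw [integral_sub i1 i2, dn_eq, dn_eq, k, sub_self]

end Vale.Agent.P247A.Dg
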