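import Vale.Agent.P247A.Dg1

/-!
# P247, stage 2: a smooth map from a compact oriented manifold to a vector space has degree zero
-/

set_option linter.all false

open MeasureTheory Set Topology Filter Metric
open scoped ContDiff

noncomputable section

namespace Vale.Agent.P247A.Dg

open Vale.Agent.P205.TI.Deg

/-- a finite oriented atlas of global charts with a partition of unity -/
structure At (E Y : Type) [NormedAddCommGroup E] [NormedSpace ℝ E] [TopologicalSpace Y] where
  A : Type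
  fA : Fintype A
  ψ : A → E → Y
  ψo : ∀ a, IsOpenEmbedding (ψ a)
  τ : A → A → E → E
  τ_spec : ∀ a b y, ψ a y ∈ range (ψ b) → ψ b (τ a b y) = ψ a y
  τ_diff : ∀ a b y, ψ a y ∈ range (ψ b) → DifferentiableAt ℝ (τ a b) y
  τ_det : ∀ a b y, ψ a y ∈ range (ψ b) → 0 < (fderiv ℝ (τ a b) y).det
  ζ : A → Y → ℝ
  ζ_sm : ∀ a b, ContDiff ℝ ∞ fun y => ζ a (ψ b y)
  ζ_sum : ∀ x, ∑ a, ζ a x = 1
  C : A → Set E
  C_cpt : ∀ a, IsCompact (C a)
  ζ_supp : ∀ a x, x ∉ ψ a '' C a → ζ a x = 0

attribute [instance] At.fA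

variable {n : ℕ} {Y : Type} [TopologicalSpace Y] (M : At (Fin n → ℝ) Y)

theorem det_comp' {E : Type} [NormedAddCommGroup E] [NormedSpace ℝ E] (A B : E →L[ℝ] E) :
    (A.comp B).det = A.det * B.det := LinearMap.det_comp (A : E →ₗ[ℝ] E) (B : E →ₗ[ℝ] E)

namespace At

/-- densities -/
structure Den (D : M.A → (Fin n → ℝ) → ℝ) : Prop where
  cont : ∀ a, Continuous (D a)
  tr : ∀ a b y, M.ψ a y ∈ range (M.ψ b) → D a y = (fderiv ℝ (M.τ a b) y).det * D b (M.τ a b y)

/-- the integral of a density -/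
def I (D : M.A → (Fin n → ℝ) → ℝ) : ℝ := ∑ a, ∫ y, M.ζ a (M.ψ a y) * D a y

/-- smooth maps -/
def Sm (f : Y → Fin n → ℝ) : Prop := ∀ a, ContDiff ℝ ∞ fun y => f (M.ψ a y)

/-- the density of a map -/
def dm (f : Y → Fin n → ℝ) (a : M.A) : (Fin n → ℝ) → ℝ := dn fun y => f (M.ψ a y)

variable {M} {D D' : M.A → (Fin n → ℝ) → ℝ} {f : Y → Fin n → ℝ}

theorem Den.sub (h : M.Den D) (h' : M.Den D') : M.Den fun a y => D a y - D' a y :=
  ⟨fun a => (h.cont a).sub (h'.cont a), fun a b y hy => by rw [h.tr a b y hy, h'.tr a b y hy]; ring⟩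

theorem opn (a b : M.A) : IsOpen (M.ψ a ⁻¹' range (M.ψ b)) :=
  (M.ψo b).isOpen_range.preimage (M.ψo a).continuous

theorem Sm.den (h : M.Sm f) : M.Den (M.dm f) := ⟨fun a => dn_cont (h a), fun a b y hy => by
  have e : (fun y => f (M.ψ a y)) =ᶠ[𝓝 y] (fun z => f (M.ψ b z)) ∘ M.τ a b := by
    filter_upwards [(opn a b).mem_nhds hy] with z hz
    simp only [Function.comp, M.τ_spec a b z hz]
  simp only [dm, dn]
  rw [e.fderiv_eq, fderiv_comp y ((h b).differentiable (by simp) _) (M.τ_diff a b y hy),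
    M.τ_spec a b y hy]
  rw [det_comp']
  ring⟩

theorem Den.cov (h : M.Den D) (a b : M.A) {g : Y → ℝ}
    (hg : ∀ x, g x ≠ 0 → x ∈ range (M.ψ a) ∧ x ∈ range (M.ψ b)) :
    ∫ y, g (M.ψ a y) * D a y = ∫ z, g (M.ψ b z) * D b z := by
  have im : M.τ a b '' (M.ψ a ⁻¹' range (M.ψ b)) = M.ψ b ⁻¹' range (M.ψ a) := by
    ext z
    constructor
    · rintro ⟨y, hy, rfl⟩
      exact ⟨y, (M.τ_spec a b y hy).symm⟩
    · rintro ⟨y, hy⟩
      exact ⟨y, ⟨z, hy.symm⟩, (M.ψo b).injective ((M.τ_spec a b y ⟨z, hy.symm⟩).trans hy)⟩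
  have k := integral_image_eq_integral_abs_det_fderiv_smul (μ := volume) (f := M.τ a b)
    (f' := fun y => fderiv ℝ (M.τ a b) y) (opn a b).measurableSet
    (fun y hy => (M.τ_diff a b y hy).hasFDerivAt.hasFDerivWithinAt)
    (fun y hy y' hy' e => (M.ψo a).injective (by rw [← M.τ_spec a b y hy, ← M.τ_spec a b y' hy', e]))
    fun z => g (M.ψ b z) * D b z
  rw [im, setIntegral_eq_integral_of_forall_compl_eq_zero fun z hz => by
    rw [show g (M.ψ b z) = 0 from by_contra fun c => hz (hg _ c).1, zero_mul]] at k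
  rw [k, ← setIntegral_eq_integral_of_forall_compl_eq_zero (s := M.ψ a ⁻¹' range (M.ψ b))
    fun z hz => by rw [show g (M.ψ a z) = 0 from by_contra fun c => hz (hg _ c).2, zero_mul]]
  refine setIntegral_congr_fun (opn a b).measurableSet fun y hy => ?_
  simp only [smul_eq_mul]
  rw [abs_of_pos (M.τ_det a b y hy), M.τ_spec a b y hy, h.tr a b y hy]
  ring

theorem Den.intg (h : M.Den D) (a : M.A) : Integrable fun y => M.ζ a (M.ψ a y) * D a y :=
  ((M.ζ_sm a a).continuous.mul (h.cont a)).integrable_of_hasCompactSupport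
    (HasCompactSupport.intro (M.C_cpt a) fun y hy => by
      rw [Pi.mul_apply, M.ζ_supp a _ fun ⟨z, hz, e⟩ => hy ((M.ψo a).injective e ▸ hz), zero_mul])

theorem Den.I_sub (h : M.Den D) (h' : M.Den D') :
    M.I (fun a y => D a y - D' a y) = M.I D - M.I D' := by
  rw [I, I, I, ← Finset.sum_sub_distrib]
  refine Finset.sum_congr rfl fun a _ => ?_
  rw [← integral_sub (h.intg a) (h'.intg a)]
  simp only [mul_sub]

theorem Den.loc (h : M.Den D) (b : M.A) (z : Fin n → ℝ) (r : ℝ) :
    ∑ a, ∫ y, (M.ψ b '' ball z r).indicator (M.ζ a) (M.ψ a y) * D a y = ∫ y in ball z r, D b y := by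
  have e : ∀ a, ∫ y, (M.ψ b '' ball z r).indicator (M.ζ a) (M.ψ a y) * D a y =
      ∫ y in ball z r, M.ζ a (M.ψ b y) * D b y := fun a => by
    rw [h.cov a b fun x hx => ⟨image_subset_range _ _ (by_contra fun c => hx (by
      rw [indicator_apply_eq_zero]; exact fun _ => M.ζ_supp a x c)),
      image_subset_range _ _ (mem_of_indicator_ne_zero hx)⟩, ← integral_indicator measurableSet_ball]
    congr 1
    funext y
    by_cases hy : y ∈ ball z r
    · rw [indicator_of_mem hy, indicator_of_mem (mem_image_of_mem _ hy)]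
    · rw [indicator_of_notMem hy, indicator_of_notMem (s := M.ψ b '' ball z r)
        fun ⟨y', h1, h2⟩ => hy ((M.ψo b).injective h2 ▸ h1), zero_mul]
  simp only [e]
  have i : ∀ a, IntegrableOn (fun y => M.ζ a (M.ψ b y) * D b y) (ball z r) := fun a =>
    (((M.ζ_sm a b).continuous.mul (h.cont b)).continuousOn.integrableOn_compact
      (isCompact_closedBall z r)).mono_set ball_subset_closedBall
  rw [← integral_finsetSum _ fun a _ => i a]
  simp only [← Finset.sum_mul, M.ζ_sum, one_mul]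

theorem Den.split (h : M.Den D) {ι : Type} [Fintype ι] (b : ι → M.A) (z : ι → Fin n → ℝ)
    (r : ι → ℝ) (hd : ∀ k l, k ≠ l → Disjoint (M.ψ (b k) '' ball (z k) (r k))
      (M.ψ (b l) '' ball (z l) (r l)))
    (h0 : ∀ a y, (∀ k, M.ψ a y ∉ M.ψ (b k) '' ball (z k) (r k)) → D a y = 0) :
    M.I D = ∑ k, ∫ y in ball (z k) (r k), D (b k) y := by
  simp only [← h.loc]
  rw [Finset.sum_comm, I]
  refine Finset.sum_congr rfl fun a _ => ?_
  rw [← integral_finsetSum _ fun k _ => ?_]
  · congr 1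
    funext y
    by_cases c : ∃ k, M.ψ a y ∈ M.ψ (b k) '' ball (z k) (r k)
    · obtain ⟨k, hk⟩ := c
      rw [Finset.sum_eq_single k (fun l _ hl => by
        rw [indicator_of_notMem (disjoint_left.1 (hd k l hl.symm) hk), zero_mul]) (by simp),
        indicator_of_mem hk]
    · rw [h0 a y (not_exists.1 c)]
      simp
  · have := (h.intg a).indicator ((((M.ψo (b k)).isOpenMap _ (isOpen_ball (x := z k) (ε := r k))).preimage
      (M.ψo a).continuous).measurableSet)
    refine this.congr (Eventually.of_forall fun y => ?_)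
    by_cases c : M.ψ a y ∈ M.ψ (b k) '' ball (z k) (r k)
    · simp only []
      rw [indicator_of_mem c, indicator_of_mem (mem_preimage.2 c)]
    · simp only []
      rw [indicator_of_notMem c, indicator_of_notMem (mt mem_preimage.1 c), zero_mul]

theorem Sm.add (h : M.Sm f) (s : Finset M.A) (c : Fin n → ℝ) :
    M.Sm fun x => f x + (∑ a ∈ s, M.ζ a x) • c := fun b =>
  (h b).add ((ContDiff.sum fun a _ => M.ζ_sm a b).smul contDiff_const)

variable [T2Space Y]

theorem Sm.step (h : M.Sm f) (b : M.A) (c : Fin n → ℝ) :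
    M.I (M.dm fun x => f x + M.ζ b x • c) = M.I (M.dm f) := by
  have h' : M.Sm fun x => f x + M.ζ b x • c := by simpa using h.add {b} c
  obtain ⟨R, hR⟩ := (M.C_cpt b).isBounded.subset_ball 0
  rw [← sub_eq_zero, ← h'.den.I_sub h.den, (h'.den.sub h.den).split (fun _ : Unit => b)
    (fun _ => 0) (fun _ => R) (fun k l hk => (hk rfl).elim) fun a y hy => ?_]
  · simp only [Finset.univ_unique, Finset.sum_singleton]
    exact int_modif (u := fun y => M.ζ b (M.ψ b y) • c) (h b) ((M.ζ_sm b b).smul contDiff_const)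
      (M.C_cpt b) (fun y hy => by
        rw [M.ζ_supp b _ fun ⟨z, hz, e⟩ => hy ((M.ψo b).injective e ▸ hz), zero_smul]) hR
  · rw [sub_eq_zero]
    refine dn_congr ?_
    filter_upwards [(((M.C_cpt b).image (M.ψo b).continuous).isClosed.isOpen_compl.preimage
      (M.ψo a).continuous).mem_nhds fun c => hy () (image_mono hR c)] with z hz
    rw [M.ζ_supp b _ hz, zero_smul, add_zero]

omit [T2Space Y] in
theorem cover (x : Y) : ∃ a, x ∈ M.ψ a '' M.C a := by
  by_contra! c
  have := M.ζ_sum x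
  rw [Finset.sum_eq_zero fun a _ => M.ζ_supp a x (c a)] at this
  exact zero_ne_one this

omit [T2Space Y] in
theorem dm_zero {a : M.A} {y : Fin n → ℝ} (h : 1 ≤ ‖f (M.ψ a y)‖) : M.dm f a y = 0 := by
  rw [dm, dn, phi_zero h, zero_mul]

theorem Sm.I_zero (hn : 0 < n) (h : M.Sm f) : M.I (M.dm f) = 0 := by
  classical
  choose B hB using fun a => (M.C_cpt a).exists_bound_of_continuousOn (h a).continuous.continuousOn
  obtain ⟨B', hB'⟩ := (finite_range B).bddAbove
  have : Nonempty (Fin n) := ⟨⟨0, hn⟩⟩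
  set c : Fin n → ℝ := fun _ => |B'| + 1
  have k : ∀ s : Finset M.A, M.I (M.dm fun x => f x + (∑ a ∈ s, M.ζ a x) • c) = M.I (M.dm f) := by
    intro s
    induction s using Finset.induction_on with
    | empty => simp
    | insert b s hb ih =>
      rw [← ih, ← (h.add s c).step b c]
      simp only [Finset.sum_insert hb, add_smul, add_assoc, add_comm, add_left_comm]
  rw [← k Finset.univ, I]
  refine Finset.sum_eq_zero fun a _ => ?_
  have z : ∀ y, M.dm (fun x => f x + (∑ a, M.ζ a x) • c) a y = 0 := fun y => dm_zero (by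
    obtain ⟨b, z, h1, h2⟩ := cover (M := M) (M.ψ a y)
    have h3 := hB b z h1
    have h4 := hB' (mem_range_self b)
    have h5 : ‖c‖ = |B'| + 1 := by rw [pi_norm_const, Real.norm_of_nonneg (by positivity)]
    have h6 := norm_sub_le (f (M.ψ b z) + c) (f (M.ψ b z))
    rw [add_sub_cancel_left] at h6
    rw [M.ζ_sum, one_smul, ← h2]
    linarith [le_abs_self B'])
  simp [z]

theorem Sm.deg0 (hn : 0 < n) (h : M.Sm f) {ι : Type} [Fintype ι] (a : ι → M.A)
    (y : ι → Fin n → ℝ) (inj : Function.Injective fun k => M.ψ (a k) (y k))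
    (hz : ∀ x, f x = 0 ↔ ∃ k, x = M.ψ (a k) (y k))
    (hd : ∀ k, (fderiv ℝ (fun z => f (M.ψ (a k) z)) (y k)).det ≠ 0) :
    ∑ k, sg (fderiv ℝ (fun z => f (M.ψ (a k) z)) (y k)).det = 0 := by
  obtain ⟨U, hU, hUd⟩ := (finite_range fun k => M.ψ (a k) (y k)).t2_separation
  choose r r0 rU _ Λ Λ0 hJ using fun k => local_regular (h (a k)) ((hz _).2 ⟨k, rfl⟩) (hd k)
    (((hU (M.ψ (a k) (y k))).2.preimage (M.ψo (a k)).continuous).mem_nhds (hU _).1)
  have op : IsOpen (⋃ k, M.ψ (a k) '' ball (y k) (r k)) :=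
    isOpen_iUnion fun k => (M.ψo _).isOpenMap _ isOpen_ball
  choose m m0 hm using fun b => exists_pos_lower_bound
    ((M.C_cpt b).diff (op.preimage (M.ψo b).continuous)) (h b).continuous.continuousOn
    fun z h1 h2 => by
      obtain ⟨k, hk⟩ := (hz _).1 h2
      exact h1.2 (mem_iUnion.2 ⟨k, y k, mem_ball_self (r0 k), hk.symm⟩)
  obtain ⟨c₁, hc₁⟩ := (finite_range Λ).bddAbove
  obtain ⟨c₂, hc₂⟩ := (finite_range fun b => (m b)⁻¹).bddAbove
  set c := max (max c₁ c₂) 0
  have h' : M.Sm fun x => c • f x := fun b => (h b).const_smul c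
  have k := h'.den.split a y r (fun k l hk => (hUd (mem_range_self k) (mem_range_self l)
    fun e => hk (inj e)).mono (by rintro _ ⟨z, h1, rfl⟩; exact rU k (ball_subset_closedBall h1))
    (by rintro _ ⟨z, h1, rfl⟩; exact rU l (ball_subset_closedBall h1))) fun b z h1 => dm_zero (by
      obtain ⟨b', z', h2, h3⟩ := cover (M := M) (M.ψ b z)
      have h4 := hm b' z' ⟨h2, fun e => by
        obtain ⟨k, hk⟩ := mem_iUnion.1 e
        exact h1 k (h3 ▸ hk)⟩
      have h5 : (m b')⁻¹ ≤ c := (hc₂ (mem_range_self b')).trans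
        ((le_max_right _ _).trans (le_max_left _ _))
      rw [norm_smul, Real.norm_of_nonneg (le_max_right _ _), ← h3]
      calc 1 = (m b')⁻¹ * m b' := (inv_mul_cancel₀ (m0 b').ne').symm
        _ ≤ _ := mul_le_mul h5 h4 (m0 b').le (le_max_right _ _))
  rw [h'.I_zero hn] at k
  have e : ∀ k, ∫ z in ball (y k) (r k), M.dm (fun x => c • f x) (a k) z =
      sg (fderiv ℝ (fun z => f (M.ψ (a k) z)) (y k)).det := fun k => by
    rw [← hJ k c ((hc₁ (mem_range_self k)).trans ((le_max_left _ _).trans (le_max_left _ _))), dm,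
      dn_eq, J]
  simp only [e] at k
  exact_mod_cast k.symm

end At

end Vale.Agent.P247A.Dg
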