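import Vale.Agent.P247E.Dict
import Vale.Agent.P247A.SpecQ

/-!
# P247, stage 2: the dictionary between a smooth manifold and its concrete model (forms)
-/

set_option linter.all false

open scoped ContDiff Topology Manifold ComplexConjugate
open Set Filter MeasureTheory

noncomputable section

namespace Vale.Agent.P247A

open Vale.Agent.P204.T4 Vale.Agent.P204.Mfd Vale.Agent.P247.SCY Vale.Agent.P204.GX
open Vale.Agent.P247E
open Vale.Agent.P247X (LB B1Zero Cl4 Tri SC Cont DOn Coh lc Jw dfc)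
open Vale.Agent.P247.H74 (e)

variable {X : Type} [MetricSpace X] [ChartedSpace E4 X]

/-- `M` is a model of the smooth manifold `X`; `fr x` is the measurable frame -/
structure Mod (M : CM X) where
  P : M.A → Par X
  psi : ∀ a, M.ψ a = (P a).psi
  fr : X → V4 →L[ℝ] E4
  co : X → E4 →L[ℝ] V4
  co_fr : ∀ x v, co x (fr x v) = v
  fr_co : ∀ x u, fr x (co x u) = u
  m_eq : ∀ a y v, app (M.m a y) v = co ((P a).psi y) ((P a).dpsi y v)
  ci : X → M.A
  ci_mem : ∀ x, x ∈ range (P (ci x)).psi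
  ci_meas : ∀ a c, MeasurableSet {y | ci ((P a).psi y) = c}

namespace Mod

variable {M : CM X} (D : Mod M)

/-- a two-form in the frame -/
def t2 (α : HS.Form X 2) (x : X) : L2 := compL ((bx α x).compContinuousLinearMap (D.fr x))

/-- the two-form with given components -/
def b2 (u : X → L2) : HS.Form X 2 := fun x =>
  ((toAlt (u x)).compContinuousLinearMap (D.co x) : E4 [⋀^Fin 2]→L[ℝ] ℝ)

/-- a one-form in the frame -/
def t1 (θ : HS.Form X 1) (x : X) : V4 := fun c => un1 (ax1 θ x) (D.fr x (e c))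

/-- the one-form with given components -/
def b1 (η : X → V4) : HS.Form X 1 := fun x =>
  (oneE ((dpL (η x)).comp (D.co x)) : E4 [⋀^Fin 1]→L[ℝ] ℝ)

/-- the volume form on the frame -/
def hx (μ : HS.Form X 4) (x : X) : ℝ := ax μ x fun i => D.fr x (e i)

theorem cov (x : X) : ∃ a, x ∈ range (D.P a).psi := ⟨_, D.ci_mem x⟩

theorem ψ_eq (a : M.A) (y : V4) : M.ψ a y = (D.P a).psi y := by rw [D.psi]

theorem ev_t2 (α : HS.Form X 2) (x : X) (v w : V4) :
    ev (D.t2 α x) v w = α x ![D.fr x v, D.fr x w] := by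
  unfold t2
  rw [ev_compL]
  exact comp_apply2 (E := V4) (F := E4) (bx α x) (D.fr x) v w

theorem b2_apply (u : X → L2) (x : X) (v w : E4) :
    D.b2 u x ![v, w] = ev (u x) (D.co x v) (D.co x w) :=
  (comp_apply2 (E := E4) (F := V4) (toAlt (u x)) (D.co x) v w).trans (toAlt_apply _ _ _)

theorem t2_b2 (u : X → L2) : D.t2 (D.b2 u) = u := by
  funext x
  apply ext_ev
  intro v w
  rw [ev_t2, b2_apply, D.co_fr, D.co_fr]

theorem form2_ext {α β : HS.Form X 2} (h : ∀ x (v w : E4), α x ![v, w] = β x ![v, w]) : α = β := by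
  funext x
  ext m
  have hm : m = ![m 0, m 1] := by funext i; fin_cases i <;> rfl
  rw [hm]; exact h x _ _

theorem form1_ext {α β : HS.Form X 1} (h : ∀ x (v : E4), α x ![v] = β x ![v]) : α = β := by
  funext x
  ext m
  have hm : m = ![m 0] := by funext i; fin_cases i; rfl
  rw [hm]; exact h x _

theorem apply_t2 (α : HS.Form X 2) (x : X) (v w : E4) :
    α x ![v, w] = ev (D.t2 α x) (D.co x v) (D.co x w) := by
  rw [ev_t2, D.fr_co, D.fr_co]

theorem b2_t2 (α : HS.Form X 2) : D.b2 (D.t2 α) = α :=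
  form2_ext fun x v w => by rw [b2_apply, ← apply_t2]

theorem t2_add (α β : HS.Form X 2) : D.t2 (fun x => α x + β x) = D.t2 α + D.t2 β := by
  funext x
  apply ext_ev
  intro v w
  rw [Pi.add_apply, ev_add, ev_t2, ev_t2, ev_t2]; rfl

theorem t2_smul (c : ℝ) (α : HS.Form X 2) : D.t2 (fun x => c • α x) = c • D.t2 α := by
  funext x
  apply ext_ev
  intro v w
  rw [Pi.smul_apply, ev_smul, ev_t2, ev_t2]; rfl

theorem t2_sub (α β : HS.Form X 2) : D.t2 (fun x => α x - β x) = D.t2 α - D.t2 β := by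
  rw [eq_sub_iff_add_eq, ← t2_add]
  simp only [sub_add_cancel]

theorem t2_zero : D.t2 (fun _ => 0) = 0 := by
  have h := D.t2_smul 0 fun _ => 0
  simpa only [zero_smul] using h

theorem t2_lc {n : ℕ} (c : Fin n → HS.Form X 2) (v : Fin n → ℝ) :
    D.t2 (lc c v) = ∑ i, v i • D.t2 (c i) := by
  have h : ∀ s : Finset (Fin n), D.t2 (fun x => ∑ i ∈ s, v i • c i x) =
      ∑ i ∈ s, v i • D.t2 (c i) := fun s => by
    induction s using Finset.cons_induction with
    | empty => simpa only [Finset.sum_empty] using D.t2_zero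
    | cons i s hi ih => simp only [Finset.sum_cons]; rw [t2_add, t2_smul, ih]
  exact h _

theorem t1_apply (θ : HS.Form X 1) (x : X) (c : Fin 4) : D.t1 θ x c = θ x ![D.fr x (e c)] :=
  un1_apply _ _

theorem dp_t1 (θ : HS.Form X 1) (x : X) (v : V4) : dp (D.t1 θ x) v = θ x ![D.fr x v] :=
  (dp_lin ((un1 (ax1 θ x)).comp (D.fr x)) v).trans (un1_apply _ _)

theorem b1_apply (η : X → V4) (x : X) (v : E4) : D.b1 η x ![v] = dp (η x) (D.co x v) := by
  show oneE ((dpL (η x)).comp (D.co x)) ![v] = _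
  rw [oneE_apply, ContinuousLinearMap.comp_apply, dpL_apply]
  rfl

theorem apply_t1 (θ : HS.Form X 1) (x : X) (v : E4) : θ x ![v] = dp (D.t1 θ x) (D.co x v) := by
  rw [dp_t1, D.fr_co]

theorem t1_b1 (η : X → V4) : D.t1 (D.b1 η) = η := by
  funext x
  apply ext_dp
  intro v
  rw [dp_t1, b1_apply, D.co_fr]

theorem b1_t1 (θ : HS.Form X 1) : D.b1 (D.t1 θ) = θ :=
  form1_ext fun x v => by rw [b1_apply, ← apply_t1]

variable [IsManifold (𝓡 4) ∞ X]

theorem m'_eq (a : M.A) (y v : V4) :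
    (D.P a).dpsi y (app (M.m' a y) v) = D.fr ((D.P a).psi y) v := by
  have h := M.m_m' a y v
  rw [D.m_eq] at h
  conv_rhs => rw [← h]
  rw [D.fr_co]

theorem cf_t2 (α : HS.Form X 2) (a : M.A) :
    M.cf a (D.t2 α) = fun y => compL ((D.P a).form α y) := by
  funext y
  apply ext_ev
  intro v w
  rw [CM.cf, ev_pull, D.m_eq, D.m_eq, D.ψ_eq, ← apply_t2, ev_compL, Par.form_apply]

theorem cf1_t1 (θ : HS.Form X 1) (a : M.A) : M.cf1 a (D.t1 θ) = p1 (D.P a) θ := by
  funext y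
  apply ext_dp
  intro v
  rw [CM.cf1, dp_copp, D.m_eq, D.ψ_eq, ← apply_t1, dp_p1, un1_apply]
  rfl

theorem form_smooth {α : HS.Form X 2} (h : D.t2 α ∈ M.Om) (a : M.A) :
    ContDiff ℝ ∞ ((D.P a).form α) := by
  have h1 : ContDiff ℝ ∞ (M.cf a (D.t2 α)) := h a
  rw [cf_t2] at h1
  exact (cV.comp_contDiff_iff (f := (D.P a).form α)).1 h1

theorem smooth2 {α : HS.Form X 2} : HS.Smooth α ↔ D.t2 α ∈ M.Om := by
  refine ⟨fun h a => ?_, fun h => smoothForm_of_pars D.P D.cov (D.form_smooth h)⟩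
  rw [cf_t2]
  exact compL.contDiff.comp ((D.P a).form_smooth h)

theorem sc2 {α : HS.Form X 2} : SC α ↔ D.t2 α ∈ M.Om ∧ ∀ a, Closed (M.cf a (D.t2 α)) := by
  refine ⟨fun h => ⟨D.smooth2.1 h.1, fun a => ?_⟩, fun h => ⟨D.smooth2.2 h.1,
    closedForm_of_pars D.P D.cov (D.form_smooth h.1) fun a => ?_⟩⟩
  · rw [cf_t2]
    exact (closed_iff (((D.P a).form_smooth h.1).differentiable (by simp))).2
      ((D.P a).form_closed h.1 h.2)
  · rw [← closed_iff ((D.form_smooth h.1 a).differentiable (by simp)), ← cf_t2]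
    exact h.2 a

theorem loc_at {k : ℕ} {θ : HS.Form X k} (h : HS.Smooth θ) (a : M.A) (y : V4) :
    ContDiffAt ℝ ∞ (HS.loc (D.P a).e θ) ((D.P a).g y) :=
  (h _ (D.P a).he _ ((D.P a).g_mem y)).contDiffAt
    ((D.P a).e.open_target.mem_nhds ((D.P a).g_mem y))

theorem smooth1 {θ : HS.Form X 1} : HS.Smooth θ ↔ M.Sm1 (D.t1 θ) := by
  refine ⟨fun h a => ?_, fun h => smooth_of_p1 D.P D.cov fun a => ?_⟩
  · rw [cf1_t1]
    exact contDiff_iff_contDiffAt.2 fun y => p1_smoothAt (D.P a) (D.loc_at h a y)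
  · rw [← cf1_t1]; exact h a

theorem dOn {θ : HS.Form X 1} {α : HS.Form X 2} (h : HS.Smooth θ) :
    DOn univ θ α ↔ M.dX (D.t1 θ) = D.t2 α := by
  have h1 := D.smooth1.1 h
  constructor
  · intro hd
    refine M.ext_cf fun a y _ => ?_
    rw [M.cf_dX h1, cf1_t1, cf_t2,
      d1_p1 (D.P a) (D.loc_at h a y) (hd _ (D.P a).he _ ((D.P a).g_mem y) (mem_univ _))]
  · intro hd c hc z hz _
    obtain ⟨a, ha⟩ := D.cov (c.symm z)
    have hz' : z ∈ (D.P a).cdom c := ⟨hz, ha⟩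
    have h2 : HS.loc c θ =ᶠ[𝓝 z] fun z => (one1 (p1 (D.P a) θ ((D.P a).cc c z))).compContinuousLinearMap
        (fderiv ℝ ((D.P a).cc c) z) := by
      filter_upwards [((D.P a).isOpen_cdom c).mem_nhds hz'] with w hw
      exact loc_p1 (D.P a) θ hc hw
    have hη : Differentiable ℝ (p1 (D.P a) θ) := by
      rw [← cf1_t1]; exact (h1 a).differentiable (by simp)
    have h3 : DifferentiableAt ℝ (fun y => one1 (p1 (D.P a) θ y)) ((D.P a).cc c z) :=
      one1.differentiableAt.comp _ (hη _)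
    have h4 := congrFun (M.cf_dX h1 a) ((D.P a).cc c z)
    rw [hd, cf_t2, cf1_t1] at h4
    rw [h2.extDeriv_eq, extDeriv_pullback (r := ∞) h3 ((D.P a).cc_smoothAt hc hz') minS,
      extDeriv_one1 (hη _), ← h4, toAlt_compL]
    exact ((D.P a).pullForm_eq α hc hz').symm

theorem exact2 {α : HS.Form X 2} : HS.Exact α ↔ ∃ η, M.Sm1 η ∧ D.t2 α = M.dX η := by
  constructor
  · rintro ⟨θ, h1, h2⟩
    exact ⟨_, D.smooth1.1 h1, ((D.dOn h1).1 fun c hc y hy _ => h2 c hc y hy).symm⟩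
  · rintro ⟨η, h1, h2⟩
    have h3 : HS.Smooth (D.b1 η) := D.smooth1.2 (by rwa [t1_b1])
    exact ⟨_, h3, fun c hc y hy => (D.dOn h3).2 (by rw [t1_b1, h2]) c hc y hy (mem_univ _)⟩

theorem sc1 {θ : HS.Form X 1} : SC θ ↔ M.Sm1 (D.t1 θ) ∧ M.dX (D.t1 θ) = 0 := by
  have h0 : ∀ c : OpenPartialHomeomorph X E4, HS.loc c (fun _ => 0 : HS.Form X 2) = fun _ => 0 :=
    fun c => by funext y; ext v; rfl
  have h : HS.Smooth θ → (HS.Closed θ ↔ M.dX (D.t1 θ) = 0) := fun h => by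
    rw [← D.t2_zero, ← D.dOn h]
    exact ⟨fun k c hc y hy _ => by rw [h0]; exact k c hc y hy,
      fun k c hc y hy => by have := k c hc y hy (mem_univ _); rwa [h0] at this⟩
  exact ⟨fun k => ⟨D.smooth1.1 k.1, (h k.1).1 k.2⟩,
    fun k => ⟨D.smooth1.2 k.1, (h (D.smooth1.2 k.1)).2 k.2⟩⟩

section fns
variable {E : Type} [NormedAddCommGroup E] [NormedSpace ℝ E]

theorem at_of {f : X → E} {a : M.A} {y : V4} (h : ContDiffAt ℝ ∞ (fun y => f ((D.P a).psi y)) y) :
    ContMDiffAt (𝓡 4) 𝓘(ℝ, E) ∞ f ((D.P a).psi y) := by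
  have hr := (D.P a).isOpen_range.mem_nhds (mem_range_self y)
  have h2 : f =ᶠ[𝓝 ((D.P a).psi y)] fun x => f ((D.P a).psi ((D.P a).inv x)) := by
    filter_upwards [hr] with z hz
    rw [(D.P a).psi_inv hz]
  refine ContMDiffAt.congr_of_eventuallyEq ?_ h2
  rw [← (D.P a).inv_psi y] at h
  exact h.comp_contMDiffAt (((D.P a).contMDiffOn_inv _ (mem_range_self y)).contMDiffAt hr)

include D in
theorem smF {f : X → E} : ContMDiff (𝓡 4) 𝓘(ℝ, E) ∞ f ↔ SmF M f := by
  refine ⟨fun h a => ?_, fun h x => ?_⟩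
  · rw [D.psi]
    exact contDiff_iff_contDiffAt.2 fun y => contDiffAt_psi (D.P a) (h _)
  · obtain ⟨a, y, rfl⟩ := D.cov x
    have h1 := h a
    rw [D.psi] at h1
    exact D.at_of h1.contDiffAt

theorem fderiv_fv {f : X → E} {a : M.A} {y : V4}
    (hf : ContMDiffAt (𝓡 4) 𝓘(ℝ, E) ∞ f ((D.P a).psi y)) (c : Fin 4) :
    fderiv ℝ (fun y => f ((D.P a).psi y)) y (fv M a y c) =
      mfderiv (𝓡 4) 𝓘(ℝ, E) f ((D.P a).psi y) (D.fr ((D.P a).psi y) (e c)) := by
  rw [fderiv_psi (D.P a) hf, fv, D.m'_eq]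

theorem df_eq {f : X → E} {x : X} (hf : ContMDiffAt (𝓡 4) 𝓘(ℝ, E) ∞ f x) (c : Fin 4) :
    df M f x c = mfderiv (𝓡 4) 𝓘(ℝ, E) f x (D.fr x (e c)) := by
  have h := M.ψ_cy x
  rw [D.psi] at h
  unfold df
  rw [D.psi, D.fderiv_fv (by rw [h]; exact hf), h]

end fns

include D in
theorem b1_of (h : B1Zero X) : B1 M := by
  intro η hη h0
  obtain ⟨f, hf, hdf⟩ := h (D.b1 η) (D.sc1.2 (by rw [t1_b1]; exact ⟨hη, h0⟩))
  refine ⟨f, D.smF.1 hf, fun x c => ?_⟩
  rw [D.df_eq (hf x)]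
  have h1 := D.t1_apply (D.b1 η) x c
  rw [t1_b1] at h1
  exact h1.trans (hdf x _)

/-! ### integrals -/

theorem m4_hx (μ : HS.Form X 4) (a : M.A) (y : V4) :
    m4 (D.P a) μ y = det4 (M.m a y) * D.hx μ ((D.P a).psi y) := by
  have h1 := top_comp2 (ax μ ((D.P a).psi y)) (D.fr ((D.P a).psi y))
    ((D.co ((D.P a).psi y)).comp ((D.P a).dpsi y))
  have h2 : matL ((D.co ((D.P a).psi y)).comp ((D.P a).dpsi y)) = M.m a y :=
    m4_ext fun v => by rw [app_matL, D.m_eq]; rfl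
  rw [h2] at h1
  refine Eq.trans ?_ h1
  unfold m4
  congr 1
  funext i
  exact (D.fr_co _ _).symm

theorem quot_eq (μ : HS.Form X 4) (α β : HS.Form X 2) (x : X) :
    HS.quot μ α β x = Q (D.t2 α x) (D.t2 β x) / D.hx μ x := by
  have h1 : HS.quot μ α β x = Q (cx α x) (cx β x) / ax μ x HS.bas := by
    show HS.wedge (bx α x) (bx β x) HS.bas / ax μ x HS.bas = _
    rw [wedge_eq]; rfl
  have h2 : ∀ α : HS.Form X 2, D.t2 α x =
      pull (matL ((toE.symm : E4 →L[ℝ] V4).comp (D.fr x))) (cx α x) := fun α => by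
    apply ext_ev
    intro v w
    rw [ev_t2, ev_pull, app_matL, app_matL, ev_cx]
    show _ = omv α x (toE (toE.symm (D.fr x v))) (toE (toE.symm (D.fr x w)))
    rw [P204.Mfd.toE.apply_symm_apply, P204.Mfd.toE.apply_symm_apply]; rfl
  have h3 : D.hx μ x = det4 (matL ((toE.symm : E4 →L[ℝ] V4).comp (D.fr x))) * ax μ x HS.bas :=
    top_comp _ _
  have h4 : det4 (matL ((toE.symm : E4 →L[ℝ] V4).comp (D.fr x))) ≠ 0 := by
    refine left_ne_zero_of_mul_eq_one (b := det4 (matL ((D.co x).comp (toE : V4 →L[ℝ] E4)))) ?_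
    rw [← det4_mm, ← det4_one]
    congr 1
    refine m4_ext fun v => ?_
    rw [P204.GX.app_mm, app_matL, app_matL, app_one]
    show toE.symm (D.fr x (D.co x (toE v))) = v
    rw [D.fr_co, P204.Mfd.toE.symm_apply_apply]
  rw [h1, h2, h2, Q_pull, h3, mul_div_mul_left _ _ h4]

theorem continuous_hx {μ : HS.Form X 4} (hμ : HS.Smooth μ) : Continuous (D.hx μ) := by
  rw [continuous_iff_continuousAt]
  intro x
  obtain ⟨a, y, rfl⟩ := D.cov x
  rw [← (D.P a).isOpenEmbedding.continuousAt_iff]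
  have h1 : D.hx μ ∘ (D.P a).psi = fun y => m4 (D.P a) μ y / det4 (M.m a y) := by
    funext y
    rw [m4_hx, mul_div_cancel_left₀ _ (M.m_det a y).ne']; rfl
  rw [h1]
  exact ((contDiff_m4 (D.P a) hμ).continuous.div (M.continuous_det_m a)
    fun y => (M.m_det a y).ne').continuousAt

variable [CompactSpace X] [MeasurableSpace X] [BorelSpace X]

theorem vol_mu {μ : HS.Form X 4} (hμ : HS.Smooth μ) :
    HS.vol μ = M.mu.withDensity fun x => ENNReal.ofReal |D.hx μ x| := by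
  refine vol_unique μ (fun i => D.P ((Fintype.equivFin M.A).symm i)) (fun x => ?_) _
    fun i E hE hEr => ?_
  · obtain ⟨a, h⟩ := D.cov x
    exact ⟨Fintype.equivFin M.A a, by rwa [Equiv.symm_apply_apply]⟩
  generalize (Fintype.equivFin M.A).symm i = a at hEr ⊢
  have hf : Measurable fun x => ENNReal.ofReal |D.hx μ x| :=
    (D.continuous_hx hμ).abs.measurable.ennreal_ofReal
  have hψ : Measurable (D.P a).psi := (D.P a).isOpenEmbedding.continuous.measurable
  have h0 := M.mu_restrict a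
  rw [D.psi] at h0
  have h1 : M.mu.restrict E = (Measure.map (D.P a).psi
      (volume.withDensity fun y => ENNReal.ofReal (det4 (M.m a y)))).restrict E := by
    rw [← h0, Measure.restrict_restrict hE, inter_eq_left.2 hEr]
  have hf' : Measurable fun y => ENNReal.ofReal |D.hx μ ((D.P a).psi y)| := hf.comp hψ
  rw [withDensity_apply _ hE, h1, Measure.restrict_map hψ hE, lintegral_map hf hψ,
    restrict_withDensity (hψ hE), lintegral_withDensity_eq_lintegral_mul _ (M.measurable_dens' a) hf']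
  refine lintegral_congr fun y => ?_
  rw [Pi.mul_apply, m4_hx, abs_mul, abs_of_pos (M.m_det a y), ENNReal.ofReal_mul (M.m_det a y).le]

theorem pair_eq {μ : HS.Form X 4} (hμ : HS.Smooth μ) (h0 : ∀ x, 0 < D.hx μ x)
    (α β : HS.Form X 2) : HS.pair μ α β = M.pr (D.t2 α) (D.t2 β) := by
  have hf : Measurable fun x => ENNReal.ofReal |D.hx μ x| :=
    (D.continuous_hx hμ).abs.measurable.ennreal_ofReal
  unfold HS.pair CM.pr
  rw [D.vol_mu hμ, integral_withDensity_eq_integral_toReal_smul hf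
    (Filter.Eventually.of_forall fun x => ENNReal.ofReal_lt_top)]
  refine integral_congr_ae (Filter.Eventually.of_forall fun x => ?_)
  show (ENNReal.ofReal |D.hx μ x|).toReal • HS.quot μ α β x = _
  rw [ENNReal.toReal_ofReal (abs_nonneg _), abs_of_pos (h0 x), D.quot_eq, smul_eq_mul,
    mul_div_cancel₀ _ (h0 x).ne']

end Mod

end Vale.Agent.P247A
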