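import Vale.Agent.P247A.Dic1
import Vale.Agent.P247E.Jac

/-!
# P247, stage 2: the dictionary (line bundles, the triple, existence), row `DICT3`
-/

set_option linter.all false

open scoped ContDiff Topology Manifold ComplexConjugate
open Set Filter MeasureTheory

noncomputable section

namespace Vale.Agent.P247A

open Vale.Agent.P204.T4 Vale.Agent.P204.Mfd Vale.Agent.P247.SCY Vale.Agent.P204.GX
open Vale.Agent.P247E
open Vale.Agent.P247X (LB B1Zero Cl4 Tri SC Cont DOn Coh lc Jw dfc)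
open Vale.Agent.P247.H74 (e)
open Vale.Agent.P247.H647 (cov)

section
variable {X : Type} [MetricSpace X] [ChartedSpace E4 X] [IsManifold (𝓡 4) ∞ X] [CompactSpace X]

namespace Mod

variable {M : CM X} (D : Mod M) (L : LB X)

/-- the charts are subordinate to the cover of `L` -/
def Sub (i : M.A → Fin L.n) : Prop := ∀ a y, (D.P a).psi y ∈ L.U (i a)

variable {D L} {i : M.A → Fin L.n} (hi : D.Sub L i)

include hi

theorem Sub.mem {a : M.A} {x : X} (h : x ∈ range (D.P a).psi) : x ∈ L.U (i a) := by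
  obtain ⟨y, rfl⟩ := h
  exact hi a y

theorem Sub.mem_ci (x : X) : x ∈ L.U (i (D.ci x)) := hi.mem (D.ci_mem x)

theorem Sub.A_loc (a : M.A) (y : V4) :
    ContDiffAt ℝ ∞ (HS.loc (D.P a).e (L.A (i a))) ((D.P a).g y) :=
  (L.A_smooth (i a) _ (D.P a).he _ ⟨(D.P a).g_mem y, hi a y⟩).contDiffAt
    (((D.P a).e.isOpen_inter_preimage_symm (L.opn _)).mem_nhds ⟨(D.P a).g_mem y, hi a y⟩)

omit hi in
theorem mem_O {a b : M.A} {y : V4} (h : y ∈ M.O a b) : (D.P a).psi y ∈ range (D.P b).psi := by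
  rw [← D.psi, ← D.psi]; exact h

omit hi in
theorem psi_τ {a b : M.A} {y : V4} (h : y ∈ M.O a b) : (D.P b).psi (M.τ a b y) = (D.P a).psi y := by
  rw [← D.psi, ← D.psi]; exact M.ψ_τ h

omit hi in
theorem dpsi_τ {a b : M.A} {y : V4} (h : y ∈ M.O a b) (v : V4) :
    (D.P b).dpsi (M.τ a b y) (fderiv ℝ (M.τ a b) y v) = (D.P a).dpsi y v := by
  have h1 := fv_tau M h (app (M.m a y) v)
  rw [M.m'_m] at h1
  rw [h1, D.m'_eq, D.psi_τ h, D.m_eq, D.fr_co]

/-- the gauge from the chart `a` to the selected chart -/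
def gam (D : Mod M) (L : LB X) (i : M.A → Fin L.n) (a : M.A) (y : V4) : ℂ :=
  L.g (i (D.ci ((D.P a).psi y))) (i a) ((D.P a).psi y)

theorem Sub.gam_G {a b : M.A} {y : V4} (h : y ∈ M.O a b) :
    conj (D.gam L i b (M.τ a b y)) * D.gam L i a y = L.g (i b) (i a) ((D.P a).psi y) := by
  unfold gam
  have h1 := hi.mem (mem_O h)
  rw [psi_τ h, g_conj L (hi.mem_ci _) h1]
  exact L.g_co _ _ _ _ ⟨⟨h1, hi.mem_ci _⟩, hi a y⟩

theorem Sub.gam_meas (a : M.A) : Measurable (D.gam L i a) := by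
  have hc : ∀ c, ContinuousOn (fun y => L.g (i c) (i a) ((D.P a).psi y))
      (Par.dom (D.P a) (D.P c)) := fun c y hy =>
    (contDiffAt_psi (D.P a) (g_at L (hi.mem hy) (hi a y))).continuousAt.continuousWithinAt
  choose T hT1 hT2 using fun c => measurable_piece (Par.isOpen_dom (D.P a) (D.P c)) (hc c)
  refine measurable_cover (fun j => {y | D.ci ((D.P a).psi y) = (Fintype.equivFin M.A).symm j})
    (fun j => D.ci_meas a _) (fun y => ⟨Fintype.equivFin M.A _, (Equiv.symm_apply_apply _ _).symm⟩)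
    (fun j => T _) (fun j => hT1 ((Fintype.equivFin M.A).symm j)) fun j y hy => ?_
  have h1 : D.ci ((D.P a).psi y) = (Fintype.equivFin M.A).symm j := hy
  rw [← h1, hT2 _ y (D.ci_mem _)]
  rfl

/-- the line bundle on the model -/
def Sub.lb : LBc M where
  γ := D.gam L i
  γ_meas := hi.gam_meas
  γ_norm a y := L.g_norm _ _ _ ⟨hi.mem_ci _, hi a y⟩
  A a y := dpL (p1 (D.P a) (L.A (i a)) y)
  A_smooth a := dpL.contDiff.comp
    (contDiff_iff_contDiffAt.2 fun y => p1_smoothAt (D.P a) (hi.A_loc a y))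
  G_smooth a b := ContDiffOn.congr (f := fun y => L.g (i b) (i a) ((D.P a).psi y))
    (fun y hy => (contDiffAt_psi (D.P a) (g_at L (hi.mem (mem_O hy)) (hi a y))).contDiffWithinAt)
    fun y hy => hi.gam_G hy
  G_der a b y hy v := by
    have hO := (M.isOpen_O a b).mem_nhds hy
    have hg := g_at L (hi.mem (mem_O hy)) (hi a y)
    have h1 : (fun y => conj (D.gam L i b (M.τ a b y)) * D.gam L i a y) =ᶠ[𝓝 y]
        fun y => L.g (i b) (i a) ((D.P a).psi y) := by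
      filter_upwards [hO] with z hz using hi.gam_G hz
    have h2 := fderiv_unit ((contDiffAt_psi (D.P a) hg).differentiableAt (by simp)) (by
      filter_upwards [hO] with z hz
      exact L.g_norm _ _ _ ⟨hi.mem (mem_O hz), hi a z⟩) v
    have h3 := L.A_tr (i b) (i a) _ ⟨hi.mem (mem_O hy), hi a y⟩ ((D.P a).dpsi y v)
    rw [h1.fderiv_eq, h2, hi.gam_G hy, dpL_apply, dpL_apply, dp_p1, dp_p1, dpsi_τ hy, psi_τ hy,
      un1_apply, un1_apply, fderiv_psi (D.P a) hg]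
    congr 3
    exact h3.symm

theorem Sub.lb_A (a : M.A) (y v : V4) :
    hi.lb.A a y v = L.A (i a) ((D.P a).psi y) ![(D.P a).dpsi y v] := by
  show dpL (p1 (D.P a) (L.A (i a)) y) v = _
  rw [dpL_apply, dp_p1, un1_apply]; rfl

theorem Sub.lb_F : hi.lb.F = (2 * Real.pi) • D.t2 L.F := by
  rw [← D.t2_smul, ← glue_cf M (D.t2 _)]
  unfold LBc.F
  congr 1
  funext a y
  have h1 : (fun y c => hi.lb.A a y (e c)) = p1 (D.P a) (L.A (i a)) := by
    funext y c
    exact (hi.lb_A a y _).trans (un1_apply _ _).symm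
  rw [h1, d1_p1 (D.P a) (hi.A_loc a y) (L.dA (i a) _ (D.P a).he _ ((D.P a).g_mem y) (hi a y)),
    D.cf_t2]

/-- the components of a section -/
def sec (D : Mod M) (L : LB X) (i : M.A → Fin L.n) (s : X → ℂ) (j : Fin L.n) (x : X) : ℂ :=
  L.g j (i (D.ci x)) x * s x

theorem Sub.lo_eq (s : X → ℂ) (a : M.A) (y : V4) :
    hi.lb.lo a s y = D.sec L i s (i a) ((D.P a).psi y) := by
  show conj (D.gam L i a y) * s (M.ψ a y) = _
  rw [D.ψ_eq, gam, g_conj L (hi.mem_ci _) (hi a y), sec]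

theorem Sub.sec_tr (s : X → ℂ) {j k : Fin L.n} {x : X} (hx : x ∈ L.U j ∩ L.U k) :
    D.sec L i s j x = L.g j k x * D.sec L i s k x := by
  unfold sec
  rw [← mul_assoc, L.g_co _ _ _ _ ⟨hx, hi.mem_ci x⟩]

theorem Sub.sec_norm (s : X → ℂ) {j : Fin L.n} {x : X} (hx : x ∈ L.U j) :
    ‖D.sec L i s j x‖ = ‖s x‖ := by
  rw [sec, norm_mul, L.g_norm _ _ _ ⟨hx, hi.mem_ci x⟩, one_mul]

theorem Sub.sec_at {s : X → ℂ} (hs : hi.lb.Sm s) {j : Fin L.n} {x : X} (hx : x ∈ L.U j) :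
    ContMDiffAt (𝓡 4) 𝓘(ℝ, ℂ) ∞ (D.sec L i s j) x := by
  obtain ⟨a, y, rfl⟩ := D.cov x
  have h1 : ContDiff ℝ ∞ fun y => D.sec L i s (i a) ((D.P a).psi y) := by
    simp only [← hi.lo_eq]; exact hs a
  have h2 : D.sec L i s j =ᶠ[𝓝 ((D.P a).psi y)] fun x => L.g j (i a) x * D.sec L i s (i a) x := by
    filter_upwards [(L.opn _).mem_nhds (hi a y), (L.opn j).mem_nhds hx] with z k1 k2
    exact hi.sec_tr s ⟨k2, k1⟩
  refine ContMDiffAt.congr_of_eventuallyEq ?_ h2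
  exact (contDiff_mul (𝕜 := ℝ)).contDiffAt.comp_contMDiffAt
    ((g_at L hx (hi a y)).prodMk_space (D.at_of h1.contDiffAt))

omit hi in
/-- change of the trivialisation in the covariant derivative -/
theorem nab_tr (L : LB X) (θ : HS.Form X 1) {j k : Fin L.n} {x : X} (hx : x ∈ L.U j ∩ L.U k)
    {s t : X → ℂ} (ht : ContMDiffAt (𝓡 4) 𝓘(ℝ, ℂ) ∞ t x)
    (h : s =ᶠ[𝓝 x] fun z => L.g j k z * t z) (v : TangentSpace (𝓡 4) x) :
    nabX L θ j s x v = L.g j k x * nabX L θ k t x v := by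
  obtain ⟨p, rfl, -⟩ := exists_par_in isOpen_univ (mem_univ x)
  obtain ⟨u, rfl⟩ : ∃ u, p.dpsi 0 u = v := ⟨_, p.dpsi_dinv 0 v⟩
  have hg := g_at L hx.1 hx.2
  have hc := p.isOpenEmbedding.continuous.continuousAt (x := 0)
  have hs : ContMDiffAt (𝓡 4) 𝓘(ℝ, ℂ) ∞ s (p.psi 0) := by
    refine ContMDiffAt.congr_of_eventuallyEq ?_ h
    exact (contDiff_mul (𝕜 := ℝ)).contDiffAt.comp_contMDiffAt (hg.prodMk_space ht)
  have dg := (contDiffAt_psi p hg).differentiableAt (by simp)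
  have dt := (contDiffAt_psi p ht).differentiableAt (by simp)
  have h1 : fderiv ℝ (fun y => s (p.psi y)) 0 u = L.g j k (p.psi 0) * fderiv ℝ (fun y => t (p.psi y)) 0 u
      + fderiv ℝ (fun y => L.g j k (p.psi y)) 0 u * t (p.psi 0) := by
    have h0 : (fun y => s (p.psi y)) =ᶠ[𝓝 0] fun y => L.g j k (p.psi y) * t (p.psi y) :=
      hc.eventually h
    rw [h0.fderiv_eq, fderiv_fun_mul dg dt]
    simp [mul_comm]
  have h2 := fderiv_unit dg (hc.eventually (by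
    filter_upwards [((L.opn j).inter (L.opn k)).mem_nhds hx] with z hz using L.g_norm _ _ _ hz)) u
  have h3 := L.A_tr j k _ hx (p.dpsi 0 u)
  have h4 : dfc (L.g j k) (p.psi 0) (p.dpsi 0 u) = _ := (fderiv_psi p hg u).symm
  have h5 : dfc s (p.psi 0) (p.dpsi 0 u) = _ := (fderiv_psi p hs u).symm
  have h6 : dfc t (p.psi 0) (p.dpsi 0 u) = _ := (fderiv_psi p ht u).symm
  rw [h4] at h3
  rw [← h3] at h2
  unfold nabX
  rw [h5, h6, h1, h2, h.self_of_nhds]
  push_cast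
  ring

/-- the covariant derivative -/
theorem Sub.cva_eq {s : X → ℂ} (hs : hi.lb.Sm s) (θ : HS.Form X 1) {j : Fin L.n} {x : X}
    (hx : x ∈ L.U j) (c : Fin 4) : nabX L θ j (D.sec L i s j) x (D.fr x (e c)) =
      L.g j (i (D.ci x)) x * hi.lb.cva (D.t1 θ) s x c := by
  have h0 : (D.P (M.ch x)).psi (M.cy x) = x := by rw [← D.ψ_eq, M.ψ_cy]
  have ha : x ∈ L.U (i (M.ch x)) := hi.mem ⟨_, h0⟩
  have h1 : fderiv ℝ (hi.lb.lo (M.ch x) s) (M.cy x) (fv M (M.ch x) (M.cy x) c) =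
      dfc (D.sec L i s (i (M.ch x))) x (D.fr x (e c)) := by
    have := D.fderiv_fv (c := c) (hi.sec_at hs (hi (M.ch x) (M.cy x)))
    rw [h0] at this
    rw [funext (hi.lo_eq s (M.ch x))]
    exact this
  have h2 : hi.lb.A (M.ch x) (M.cy x) (fv M (M.ch x) (M.cy x) c) =
      L.A (i (M.ch x)) x ![D.fr x (e c)] := by
    rw [hi.lb_A, fv, D.m'_eq, h0]
  have h3 : hi.lb.γ (M.ch x) (M.cy x) = L.g (i (D.ci x)) (i (M.ch x)) x := by
    show D.gam L i _ _ = _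
    rw [gam, h0]
  have h4 := L.g_co _ _ _ _ ⟨⟨hx, hi.mem_ci x⟩, ha⟩
  have h5 := L.g_co _ _ _ _ ⟨⟨hx, ha⟩, hi.mem_ci x⟩
  refine (nab_tr L θ ⟨hx, ha⟩ (hi.sec_at hs ha) (by
    filter_upwards [((L.opn _).inter (L.opn _)).mem_nhds ⟨hx, ha⟩] with z hz
    exact hi.sec_tr s hz) _).trans ?_
  unfold LBc.cva LBc.cv P247.H647.cov nabX
  rw [h1, h2, h3, hi.lo_eq, h0, D.t1_apply, sec, smul_eq_mul, smul_eq_mul,
    mul_sub (L.g j (i (D.ci x)) x), ← mul_assoc (L.g j (i (D.ci x)) x), h4, ← h5]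
  push_cast
  ring

end Mod

/-- the dictionary for a manifold with a triple -/
structure Dic (μ : HS.Form X 4) (w : Tri X) (Q : QM X) extends Mod Q.toCM where
  hx_pos : ∀ x, 0 < toMod.hx μ x
  ε : ℝ
  ε_ne : ε ≠ 0
  w0 : Q.w 0 = toMod.t2 (w 2)
  w1 : Q.w 1 = toMod.t2 (w 0)
  w2 : Q.w 2 = ε • toMod.t2 (w 1)
  fr_J : ∀ x v, fr x (app J0 v) = Jw w x (fr x v)
  T0 : ∀ x j, Q.T x j 0 = if j = 0 then 1 else 0

end

theorem exists_dic {X : Type} [TopologicalSpace X] [ChartedSpace E4 X] [IsManifold (𝓡 4) ∞ X]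
    [CompactSpace X] [T2Space X] [ConnectedSpace X] {μ : HS.Form X 4} {w : Tri X}
    (hw : HS.Hypersymplectic μ w) {ι : Type} (U : ι → Set X) (hU : ∀ i, IsOpen (U i))
    (hcov : ∀ x, ∃ i, x ∈ U i) : ∃ A : FinAtlas X (Jw w), letI := A.metric
      ∃ (Q : QM X) (D : Dic μ w Q) (i : Q.A → ι), ∀ a y, (D.P a).psi y ∈ U (i a) := by
  have hpos : TriPos μ (w 2) (w 0) (w 1) := (tri_of_posDef hw.posDef).rot
  have hdef := defAt_of_triPos hpos
  have hJ : AlmostComplex (Jw w) :=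
    Jf_almostComplex hdef (hw.smooth 2) (hw.smooth 0) (hw.smooth 1)
  have hT : Tames (w 2) (Jw w) := Jf_tames hdef
  have hS : SmoothForm (w 2) := hw.smooth 2
  have hC : ClosedForm (w 2) := hw.closed 2
  obtain ⟨A, k, hk⟩ := exists_finAtlas_in hJ U hU hcov
  refine ⟨A, ?_⟩
  letI := A.metric
  have hbM := fx_anti A hJ hT (fun x u v => Jf_anti_B hdef x u v)
  have hcM := fx_anti A hJ hT (fun x u v => Jf_anti_C hdef x u v)
  obtain ⟨R, ε, Q, hQ, w0, w1, w2⟩ := exists_QM (CMA A hJ hS hC hT)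
    (fx_mem A hJ hS hC hT (hw.smooth 0)) (fx_mem A hJ hS hC hT (hw.smooth 1))
    (fx_closed A hJ hS hC hT (hw.smooth 0) (hw.closed 0))
    (fx_closed A hJ hS hC hT (hw.smooth 1) (hw.closed 1))
    (fun x => anti_comp0 (hbM x)) (fun x => anti_comp0 (hcM x)) fun x => by
      refine ind_of_dsc (anti_comp0 (hbM x)) (anti_comp0 (hcM x)) ?_
      obtain ⟨s, hs⟩ := hdef x
      rw [fx_eq, fx_eq]
      exact (def3_pull hs (det_frame_ne A hJ hT x)).dsc_pos
  have key : ∃ (D : Mod R.cm) (i : R.cm.A → ι), (∀ a y, (D.P a).psi y ∈ U (i a)) ∧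
      (∀ α, D.t2 α = R.tr (fx A (w 2) α)) ∧ ∀ x v, D.fr x (app J0 v) = Jw w x (D.fr x v) := by
    refine ⟨⟨A.P, fun _ => rfl, fun x => (A.FrI (w 2) x).comp (clm (R.r' x)),
      fun x => (clm (R.r x)).comp (A.Fr (w 2) x), fun x v => ?_, fun x u => ?_, fun a y v => ?_,
      A.ci, A.mem_range_ci, A.Sset_meas⟩, k, hk, fun α => ?_, fun x v => ?_⟩
    · show app (R.r x) (A.Fr (w 2) x (A.FrI (w 2) x (app (R.r' x) v))) = v
      rw [A.Fr_FrI _ hJ hT, R.r_r']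
    · show A.FrI (w 2) x (app (R.r' x) (app (R.r x) (A.Fr (w 2) x u))) = u
      rw [R.r'_r, A.FrI_Fr _ hJ hT]
    · exact (P204.GX.app_mm _ _ _).trans (congrArg (app _) (A.app_mc (w 2) a y v))
    · funext x
      apply ext_ev
      intro v v'
      rw [Mod.ev_t2, Rt.tr, ev_pull, ev_fx]; rfl
    · show A.FrI (w 2) x (app (rot _ _) (app J0 v)) = _
      rw [rot_J0, A.FrI_J _ hJ hT]; rfl
  rw [← hQ] at key
  obtain ⟨D, i, k1, k2, k3⟩ := key
  have hc : ∀ j x, Q.w j x 0 = Q.T x j 0 ∧ Q.w j x 1 = Q.T x j 1 ∧ Q.w j x 2 = Q.T x j 2 := by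
    intro j x
    rw [Q.w_eq, Fin.sum_univ_three, eS0, eS1, eS2]
    simp
  have w2' : Q.w 2 = ε • D.t2 (w 1) := by
    rw [w2, k2]; funext x; exact pull_smul _ _ _
  have T0 : ∀ x j, Q.T x j 0 = if j = 0 then 1 else 0 := by
    intro x j
    rw [← (hc j x).1]
    fin_cases j
    · show Q.w 0 x 0 = 1
      rw [w0, R.tr_eq]; exact (pP_F0_iff.1 (CM.om_pP _ x)).1
    · show Q.w 1 x 0 = 0
      rw [w1, R.tr_eq]; exact (anti_comp0 (hbM x)).1
    · show Q.w 2 x 0 = 0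
      rw [w2, R.tr_eq]
      show ε * fx A (w 2) (w 1) x 0 = 0
      rw [(anti_comp0 (hcM x)).1, mul_zero]
  have w0' : Q.w 0 = D.t2 (w 2) := by rw [w0, k2]; rfl
  refine ⟨Q, ⟨D, fun x => ?_, ε, fun h => ?_, w0', by rw [w1, k2], w2', k3, T0⟩, i, k1⟩
  · have h1 := hpos x 1 0 0 (Or.inl one_ne_zero)
    have h2 : 0 < HS.quot μ (w 2) (w 2) x := by linarith
    rw [D.quot_eq, ← w0'] at h2
    refine (div_pos_iff_of_pos_left ?_).1 h2
    rw [Q.w_eq, Fin.sum_univ_three, T0, eS0, eS1, eS2]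
    simp [P204.T4.Q]
    nlinarith [mul_self_nonneg (Q.T x 0 1), mul_self_nonneg (Q.T x 0 2)]
  · obtain ⟨x⟩ : Nonempty X := inferInstance
    have h1 := hc 2 x
    rw [w2', h, zero_smul] at h1
    have h2 := Q.T_pos x (Pi.single 2 1) 0 le_rfl (by
      funext k
      fin_cases k <;> simp [Matrix.vecMul, dotProduct, Pi.single_apply]
      exacts [h1.1.symm, h1.2.1.symm, h1.2.2.symm])
    simpa using congrFun h2 2

theorem pr_sum {X : Type} [MetricSpace X] [CompactSpace X] [MeasurableSpace X] [BorelSpace X]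
    (M : CM X) {ι : Type} [Fintype ι] {c : ι → X → L2} (hc : ∀ i, c i ∈ M.Om) (v : ι → ℝ)
    {u : X → L2} (hu : u ∈ M.Om) : M.pr (∑ i, v i • c i) u = ∑ i, v i * M.pr (c i) u := by
  unfold CM.pr
  simp only [← integral_const_mul]
  rw [← integral_finsetSum _ fun i _ => (M.integrable_Q (fun a => (hc i a).continuous)
    fun a => (hu a).continuous).const_mul _]
  congr 1
  funext x
  simp only [P204.T4.Q, Finset.sum_apply, Pi.smul_apply, smul_eq_mul, Finset.sum_mul,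
    ← Finset.sum_add_distrib, ← Finset.sum_sub_distrib]
  exact Finset.sum_congr rfl fun i _ => by ring

theorem dict3 : DICT3_statement := by
  intro X i μ hμ w hw hb r c hc
  obtain ⟨A, Q, D, -, -⟩ := exists_dic hw (fun _ : Unit => univ) (fun _ => isOpen_univ)
    fun _ => ⟨(), trivial⟩
  letI := A.metric
  refine ⟨A.metric, rfl, Q, fun k => D.t2 (c k), D.b1_of hb, fun k => (D.sc2.1 (hc.sc k)).1,
    fun k => (D.sc2.1 (hc.sc k)).2, fun u hu hcl => ?_, fun v η hη h => ?_⟩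
  · obtain ⟨v, hv⟩ := hc.span (D.b2 u) (D.sc2.2 (by rw [D.t2_b2]; exact ⟨hu, hcl⟩))
    obtain ⟨η, h1, h2⟩ := D.exact2.1 hv
    rw [D.t2_sub, D.t2_b2, D.t2_lc] at h2
    exact ⟨v, η, h1, by rw [← h2, add_sub_cancel]⟩
  · refine Matrix.eq_zero_of_vecMul_eq_zero hc.nondeg (funext fun j => ?_)
    have h1 := D.sc2.1 (hc.sc j)
    have h2 := pr_dX hη h1.1 h1.2
    rw [← h, pr_sum _ (fun k => (D.sc2.1 (hc.sc k)).1) v h1.1] at h2
    refine Eq.trans ?_ h2
    simp only [Matrix.vecMul, dotProduct, Matrix.of_apply]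
    exact Finset.sum_congr rfl fun k _ =>
      congrArg (v k * ·) (D.pair_eq hμ.smooth D.hx_pos (c k) (c j))

end Vale.Agent.P247A
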