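import Vale.Agent.P247A.Dic2

/-!
# P247, stage 2: the dictionary (arbitrary charts, continuous forms)
-/

set_option linter.all false

open scoped ContDiff Topology Manifold ComplexConjugate ENNReal NNReal
open Set Filter MeasureTheory

noncomputable section

namespace Vale.Agent.P247A

open Vale.Agent.P204.T4 Vale.Agent.P204.Mfd Vale.Agent.P247.SCY Vale.Agent.P204.GX
open Vale.Agent.P247E
open Vale.Agent.P247X (LB B1Zero Cl4 Tri SC Cont DOn Coh lc Jw dfc dm4)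
open Vale.Agent.P247.H74 (e)

variable {X : Type} [MetricSpace X] [ChartedSpace E4 X] [IsManifold (𝓡 4) ∞ X]

namespace Mod

variable {M : CM X} (D : Mod M)

theorem cont2 {α : HS.Form X 2} (h : Cont α) (a : M.A) : Continuous (M.cf a (D.t2 α)) := by
  have h1 : Continuous fun y => cE (HS.loc (D.P a).e α ((D.P a).g y)) := cE.continuous.comp
    ((h _ (D.P a).he).comp_continuous (D.P a).g_smooth.continuous (D.P a).g_mem)
  have h2 : Continuous fun y => matL ((P204.Mfd.toE.symm : E4 →L[ℝ] V4).comp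
      (fderiv ℝ (D.P a).g y)) := matL.continuous.comp
    (continuous_const.clm_comp ((D.P a).g_smooth.continuous_fderiv (by simp)))
  have h3 := contDiff_pull.continuous.comp (h2.prodMk h1)
  rw [cf_t2]
  refine h3.congr fun y => ?_
  rw [Par.form_eq]
  exact (cV_comp_E _ _).symm

variable {κ : OpenPartialHomeomorph X V4} (hκ : ContMDiffOn (𝓡 4) 𝓘(ℝ, V4) ∞ κ κ.source)
  (hκ' : ContMDiffOn 𝓘(ℝ, V4) (𝓡 4) ∞ κ.symm κ.target)

include hκ hκ' in
theorem chart_loc {y₀ : V4} (h₀ : y₀ ∈ κ.target) : ∃ (a : M.A) (τ : V4 → V4) (N : Set V4),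
    IsOpen N ∧ y₀ ∈ N ∧ ContDiffOn ℝ ∞ τ N ∧ InjOn τ N ∧ ∀ y ∈ N, (D.P a).psi (τ y) = κ.symm y ∧
      (fderiv ℝ τ y).det ≠ 0 ∧ ∀ v, D.co (κ.symm y) (dm4 κ.symm y v) =
        app (M.m a (τ y)) (fderiv ℝ τ y v) := by
  obtain ⟨a, ha⟩ := D.cov (κ.symm y₀)
  have hN := κ.isOpen_inter_preimage_symm (D.P a).isOpen_range
  have h1 : ∀ y ∈ κ.target ∩ κ.symm ⁻¹' range (D.P a).psi,
      (D.P a).psi ((D.P a).inv (κ.symm y)) = κ.symm y := fun y hy => (D.P a).psi_inv hy.2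
  have h2 : ContDiffOn ℝ ∞ (fun y => (D.P a).inv (κ.symm y))
      (κ.target ∩ κ.symm ⁻¹' range (D.P a).psi) :=
    contMDiffOn_iff_contDiffOn.1 ((D.P a).contMDiffOn_inv.comp (hκ'.mono inter_subset_left)
      fun y hy => hy.2)
  refine ⟨a, _, _, hN, ⟨h₀, ha⟩, h2, fun y hy z hz h => κ.symm.injOn hy.1 hz.1 ?_,
    fun y hy => ⟨h1 y hy, ?_⟩⟩
  · rw [← h1 y hy, ← h1 z hz]; exact congrArg _ h
  have d1 : DifferentiableAt ℝ (fun y => (D.P a).inv (κ.symm y)) y :=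
    (h2.contDiffAt (hN.mem_nhds hy)).differentiableAt (by simp)
  have h3 : ∀ v, (dm4 κ.symm y v : E4) = (D.P a).dpsi ((D.P a).inv (κ.symm y))
      (fderiv ℝ (fun y => (D.P a).inv (κ.symm y)) y v) := fun v => by
    have h4 : (κ.symm : V4 → X) =ᶠ[𝓝 y] (D.P a).psi ∘ fun y => (D.P a).inv (κ.symm y) := by
      filter_upwards [hN.mem_nhds hy] with z hz using (h1 z hz).symm
    have h5 := mfderiv_comp (I := 𝓘(ℝ, V4)) (I' := 𝓘(ℝ, V4)) (I'' := 𝓡 4) y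
      ((D.P a).mdiff_psi _) d1.mdifferentiableAt
    rw [mfderiv_eq_fderiv] at h5
    exact congrArg (fun T : V4 →L[ℝ] E4 => T v) ((h4.mfderiv_eq (I := 𝓘(ℝ, V4)) (I' := 𝓡 4)).trans h5)
  refine ⟨fun h => ?_, fun v => by rw [D.m_eq, h1 y hy]; exact congrArg _ (h3 v)⟩
  obtain ⟨v, hv, hv0⟩ := (Submodule.ne_bot_iff _).1 (LinearMap.det_eq_zero_iff_ker_ne_bot.1 h)
  have h6 : (dm4 κ.symm y v : E4) = 0 := by
    exact (h3 v).trans ((congrArg _ hv).trans (map_zero _))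
  have h7 : (κ ∘ κ.symm : V4 → V4) =ᶠ[𝓝 y] id := by
    filter_upwards [κ.open_target.mem_nhds hy.1] with z hz using κ.right_inv hz
  have h8 := mfderiv_comp (I := 𝓘(ℝ, V4)) (I' := 𝓡 4) (I'' := 𝓘(ℝ, V4)) y
    ((hκ.contMDiffAt (κ.open_source.mem_nhds (κ.map_target hy.1))).mdifferentiableAt (by simp))
    ((hκ'.contMDiffAt (κ.open_target.mem_nhds hy.1)).mdifferentiableAt (by simp))
  rw [h7.mfderiv_eq, mfderiv_id] at h8
  have h9 := congrArg (fun T : V4 →L[ℝ] V4 => T v) h8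
  exact hv0 (h9.trans ((congrArg (mfderiv (𝓡 4) 𝓘(ℝ, V4) κ (κ.symm y)) h6).trans (map_zero _)))

include hκ hκ' in
theorem chart_bd {K : Set V4} (hK : IsCompact K) (hKt : K ⊆ κ.target) :
    ∃ C : ℝ, 0 ≤ C ∧ ∀ y ∈ K, ∀ j, ‖D.co (κ.symm y) (dm4 κ.symm y (e j))‖ ≤ C := by
  refine hK.induction_on (p := fun K => ∃ C : ℝ, 0 ≤ C ∧ ∀ y ∈ K, ∀ j,
    ‖D.co (κ.symm y) (dm4 κ.symm y (e j))‖ ≤ C) ⟨0, le_rfl, fun _ h => h.elim⟩
    (fun s t h ⟨C, h0, hC⟩ => ⟨C, h0, fun y hy => hC y (h hy)⟩)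
    (fun s t ⟨C, h0, hC⟩ ⟨C', h0', hC'⟩ => ⟨C + C', by positivity, fun y hy j => hy.elim
      (fun h => (hC y h j).trans (by linarith)) fun h => (hC' y h j).trans (by linarith)⟩)
    fun y₀ h₀ => ?_
  obtain ⟨a, τ, N, hN, hy, hτ, -, h⟩ := D.chart_loc hκ hκ' (hKt h₀)
  have c1 := hτ.contDiffAt (hN.mem_nhds hy)
  obtain ⟨C, hC1, hC⟩ := M.exists_frame_bound a (‖τ y₀‖ + 1)
  have e1 := c1.continuousAt.norm.eventually (Iio_mem_nhds (lt_add_one ‖τ y₀‖))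
  have e2 := (c1.fderiv_right (m := 0) (by simp)).continuousAt.norm.eventually
    (Iio_mem_nhds (lt_add_one ‖fderiv ℝ τ y₀‖))
  refine ⟨_, mem_nhdsWithin_of_mem_nhds ((e1.and e2).and (hN.mem_nhds hy)),
    C * (‖fderiv ℝ τ y₀‖ + 1), by positivity, fun y k j => ?_⟩
  rw [(h y k.2).2.2]
  refine (hC _ (le_of_lt k.1.1) _).1.trans (mul_le_mul_of_nonneg_left
    (((fderiv ℝ τ y).le_of_opNorm_le (le_of_lt k.1.2) _).trans ?_) (by linarith))
  rw [e, Pi.norm_single, norm_one, mul_one]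

variable [CompactSpace X] [MeasurableSpace X] [BorelSpace X]

include D hκ hκ' in
theorem chart_lint {K : Set V4} (hK : IsCompact K) (hKt : K ⊆ κ.target) :
    ∃ C : ℝ≥0, ∀ f : X → ℝ≥0∞, Measurable f → ∫⁻ y in K, f (κ.symm y) ≤ C * ∫⁻ x, f x ∂M.mu := by
  refine hK.induction_on (p := fun K => ∃ C : ℝ≥0, ∀ f : X → ℝ≥0∞, Measurable f →
    ∫⁻ y in K, f (κ.symm y) ≤ C * ∫⁻ x, f x ∂M.mu) ⟨0, fun _ _ => by simp⟩
    (fun s t h ⟨C, hC⟩ => ⟨C, fun f hf => (lintegral_mono_set h).trans (hC f hf)⟩)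
    (fun s t ⟨C, hC⟩ ⟨C', hC'⟩ => ⟨C + C', fun f hf => (lintegral_union_le _ _ _).trans (by
      rw [ENNReal.coe_add, add_mul]; exact add_le_add (hC f hf) (hC' f hf))⟩) fun y₀ h₀ => ?_
  obtain ⟨a, τ, N, hN, hy, hτ, hi, h⟩ := D.chart_loc hκ hκ' (hKt h₀)
  have c1 := hτ.contDiffAt (hN.mem_nhds hy)
  have c2 : ContinuousAt (fun y => |(fderiv ℝ τ y).det| * det4 (M.m a (τ y))) y₀ :=
    (ContinuousLinearMap.continuous_det.continuousAt.comp
      (c1.fderiv_right (m := 0) (by simp)).continuousAt).abs.mul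
      ((M.continuous_det_m a).continuousAt.comp c1.continuousAt)
  have p0 : 0 < |(fderiv ℝ τ y₀).det| * det4 (M.m a (τ y₀)) :=
    mul_pos (abs_pos.2 (h y₀ hy).2.1) (M.m_det a _)
  generalize hc : |(fderiv ℝ τ y₀).det| * det4 (M.m a (τ y₀)) = c at p0
  obtain ⟨S, hS, hSo, hyS⟩ := mem_nhds_iff.1 ((c2.eventually (Ioi_mem_nhds
    (lt_of_lt_of_eq (half_lt_self p0) hc.symm))).and (hN.mem_nhds hy))
  refine ⟨S, mem_nhdsWithin_of_mem_nhds (hSo.mem_nhds hyS), (c / 2)⁻¹.toNNReal, fun f hf => ?_⟩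
  have h1 := lintegral_image_eq_lintegral_abs_det_fderiv_mul volume hSo.measurableSet
    (fun y k => ((hτ.contDiffAt (hN.mem_nhds (hS k).2)).differentiableAt
      (by simp)).hasFDerivAt.hasFDerivWithinAt) (hi.mono fun y k => (hS k).2)
    fun z => ENNReal.ofReal (det4 (M.m a z)) * f (M.ψ a z)
  have h2 : ∫⁻ z in τ '' S, ENNReal.ofReal (det4 (M.m a z)) * f (M.ψ a z) ≤ ∫⁻ x, f x ∂M.mu := by
    refine (setLIntegral_le_lintegral _ _).trans (le_trans (le_of_eq ?_)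
      (setLIntegral_le_lintegral (range (M.ψ a)) f))
    rw [M.mu_restrict, lintegral_map hf (M.measurable_ψ a)]
    exact (lintegral_withDensity_eq_lintegral_mul _ (M.measurable_dens' a)
      (hf.comp (M.measurable_ψ a))).symm
  refine le_trans ?_ (mul_le_mul_right (h1.ge.trans h2) _)
  rw [← lintegral_const_mul' _ _ ENNReal.coe_ne_top]
  refine setLIntegral_mono' hSo.measurableSet fun y k => ?_
  rw [D.ψ_eq, (h y (hS k).2).1, ← mul_assoc (ENNReal.ofReal _), ← ENNReal.ofReal_mul (abs_nonneg _),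
    ← mul_assoc]
  refine le_mul_of_one_le_left zero_le ?_
  show 1 ≤ ENNReal.ofReal _ * _
  rw [← ENNReal.ofReal_mul (by positivity), ← ENNReal.ofReal_one]
  refine ENNReal.ofReal_le_ofReal ?_
  rw [← div_eq_inv_mul, le_div_iff₀ (by positivity), one_mul]
  exact le_of_lt (hS k).1

include D hκ hκ' in
theorem chart_int {K : Set V4} (hK : IsCompact K) (hKt : K ⊆ κ.target) :
    ∃ C : ℝ, 0 ≤ C ∧ ∀ (f : X → ℝ) (g : V4 → ℝ), Measurable f → Integrable f M.mu →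
      (∀ x, 0 ≤ f x) → (∀ y ∈ K, 0 ≤ g y ∧ g y ≤ f (κ.symm y)) →
      ∫ y in K, g y ≤ C * ∫ x, f x ∂M.mu := by
  obtain ⟨C, hC⟩ := D.chart_lint hκ hκ' hK hKt
  refine ⟨C, C.2, fun f g hf hi h0 hg => ?_⟩
  have p0 : 0 ≤ C * ∫ x, f x ∂M.mu := mul_nonneg C.2 (integral_nonneg h0)
  by_cases hm : AEStronglyMeasurable g (volume.restrict K)
  · rw [integral_eq_lintegral_of_nonneg_ae ((ae_restrict_mem hK.measurableSet).mono
      fun y k => (hg y k).1) hm]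
    refine ENNReal.toReal_le_of_le_ofReal p0 ((setLIntegral_mono' hK.measurableSet fun y k =>
      ENNReal.ofReal_le_ofReal (hg y k).2).trans ((hC _ hf.ennreal_ofReal).trans (le_of_eq ?_)))
    rw [ENNReal.ofReal_mul C.coe_nonneg, ofReal_integral_eq_lintegral_ofReal hi (.of_forall h0),
      ENNReal.ofReal_coe_nnreal]
  · rwa [integral_non_aestronglyMeasurable hm]

end Mod

end Vale.Agent.P247A
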