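import Vale.Agent.P247A.Dic4
import Vale.Agent.P247W.Sta

/-!
# P247, stage 2: the dictionary for the output of the Seiberg-Witten part
-/

set_option linter.all false

open scoped ContDiff Topology Manifold ComplexConjugate
open Set Filter MeasureTheory

noncomputable section

namespace Vale.Agent.P247A

open Vale.Agent.P204.T4 Vale.Agent.P204.Mfd Vale.Agent.P247.SCY Vale.Agent.P204.GX
open Vale.Agent.P247E Vale.Agent.P247W
open Vale.Agent.P247X (LB B1Zero Cl4 Tri SC Cont DOn Coh lc Jw dfc dm4)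
open Vale.Agent.P247.H74 (e)
open Vale.Agent.P247.H647 (jz nz hat PosA omM nz_sq)

theorem ev_jz (ζ : Fin 4 → ℂ) (p q : V4) : ev (ofEnt (jz ζ)) p q =
    2 * (conj (∑ c, (p c : ℂ) * ζ c) * ∑ c, (q c : ℂ) * ζ c).im := by
  simp [ev_eq, ofEnt, jz, Fin.sum_univ_four]
  ring

theorem norm_sum_sq (ζ : Fin 4 → ℂ) {p : V4} {C : ℝ} (h : ‖p‖ ≤ C) :
    ‖∑ c, (p c : ℂ) * ζ c‖ ^ 2 ≤ 4 * C ^ 2 * nz ζ ^ 2 := by
  have h1 : ‖∑ c, (p c : ℂ) * ζ c‖ ≤ C * ∑ c, ‖ζ c‖ := by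
    rw [Finset.mul_sum]
    refine norm_sum_le_of_le _ fun c _ => ?_
    rw [norm_mul, Complex.norm_real]
    exact mul_le_mul_of_nonneg_right ((norm_le_pi_norm p c).trans h) (norm_nonneg _)
  have h2 := sq_sum_le_card_mul_sum_sq (s := Finset.univ) (f := fun c => ‖ζ c‖)
  refine (pow_le_pow_left₀ (norm_nonneg _) h1 2).trans ?_
  rw [mul_pow, nz_sq, mul_comm 4, mul_assoc]
  exact mul_le_mul_of_nonneg_left (by simpa using h2) (sq_nonneg _)

theorem ev_sq_le (B : L2) {p q : V4} {C : ℝ} (hp : ‖p‖ ≤ C) (hq : ‖q‖ ≤ C) :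
    ev B p q ^ 2 ≤ 144 * C ^ 4 * ∑ i, B i ^ 2 := by
  have h0 : 0 ≤ C := (norm_nonneg _).trans hp
  have h1 : |ev B p q| ≤ 12 * ‖B‖ * C * C := (P204.T4.abs_ev_le B p q).trans (by gcongr)
  have h2 : ‖B‖ ≤ Real.sqrt (∑ i, B i ^ 2) := (pi_norm_le_iff_of_nonneg (Real.sqrt_nonneg _)).2
    fun i => Real.abs_le_sqrt (Finset.single_le_sum (f := fun i => B i ^ 2)
      (fun _ _ => sq_nonneg _) (Finset.mem_univ i))
  have h3 := pow_le_pow_left₀ (norm_nonneg _) h2 2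
  rw [Real.sq_sqrt (Finset.sum_nonneg fun _ _ => sq_nonneg _)] at h3
  rw [← sq_abs]
  refine (pow_le_pow_left₀ (abs_nonneg _) h1 2).trans (le_trans (le_of_eq ?_)
    (mul_le_mul_of_nonneg_left h3 (by positivity)))
  ring

theorem posA_of {t : ℝ} (ht : 0 ≤ t) {B : L2} (h : ∀ v, 0 ≤ ev B v (app J0 v)) :
    PosA (Pi.single 0 t) (ent B) := fun u => by
  refine (mul_nonneg ht (h u)).trans (le_of_eq ?_)
  simp [ev_eq, app_J0, ent, omM, Fin.sum_univ_four, Fin.sum_univ_three]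
  ring

variable {X : Type} [MetricSpace X]

section
variable [CompactSpace X] [MeasurableSpace X] [BorelSpace X]

theorem bm_cf {M : CM X} {u : X → L2} (hu : ∀ a, Continuous (M.cf a u)) : BM u :=
  bm_charts (M := M) fun a => by
    simp only [M.eq_pull_m' u a]
    exact ((lb_m' a).prod (lb_cont (hu a))).cont contDiff_pull.continuous

theorem bm_cva {M : CM X} {L : LBc M} {a : X → V4} {s : X → ℂ} (ha : M.Sm1 a) (hs : L.Sm s) :
    BM (L.cva a s) := by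
  have h : ∀ c, BM fun x => L.cva a s x c := fun c =>
    ((hs.bm_cv c).prod ((bm_Sm1 ha).prod hs.bm)).cont
      (F := fun q : ℂ × V4 × ℂ => q.1 - Complex.I * (q.2.1 c : ℂ) * q.2.2) (by fun_prop)
  have h2 := (((h 0).prod (h 1)).prod ((h 2).prod (h 3))).cont
    (F := fun q : (ℂ × ℂ) × ℂ × ℂ => (![q.1.1, q.1.2, q.2.1, q.2.2] : Fin 4 → ℂ)) (by fun_prop)
  convert h2 using 2 with x
  funext c
  fin_cases c <;> rfl

end

theorem cont_hat (Q : QM X) {u : X → L2} (hu : ∀ a, Continuous (Q.cf a u)) (k : Fin 3) :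
    Continuous fun x => hat (ent (u x)) k :=
  cont_charts (M := Q.toCM) fun a => by
    have h : (fun y => hat (ent (u (Q.ψ a y))) k) =
        fun y => P204.T4.Q (Q.cf a u y) (pull (Q.n a y) (eS k)) / det4 (Q.m a y) := by
      funext y
      have h1 : pull (Q.n a y) (eS k) = pull (Q.m a y) (eS k) := by
        rw [Q.m_eq, pull_mm, pull_Rq_eS, Q.p_unit, one_smul]
      rw [h1, CM.cf, Q_pull, Q_eS_hat, mul_div_cancel_left₀ _ (Q.m_det a y).ne']
    have h2 := contDiff_pull.continuous.comp ((Q.n_smooth a).continuous.prodMk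
      (continuous_const (y := eS k)))
    have h3 : Continuous fun q : L2 × L2 => P204.T4.Q q.1 q.2 := by unfold P204.T4.Q; fun_prop
    rw [h]
    exact (h3.comp ((hu a).prodMk h2)).div (Q.continuous_det_m a) fun y => (Q.m_det a y).ne'

variable [ChartedSpace E4 X] [IsManifold (𝓡 4) ∞ X] [CompactSpace X]

theorem Mod.Sub.nab_eq {M : CM X} {D : Mod M} {L : LB X} {i : M.A → Fin L.n} (hi : D.Sub L i)
    {s : X → ℂ} (hs : hi.lb.Sm s) (θ : HS.Form X 1) {j : Fin L.n} {x : X} (hx : x ∈ L.U j)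
    (u : E4) : nabX L θ j (D.sec L i s j) x u =
      L.g j (i (D.ci x)) x * ∑ c, (D.co x u c : ℂ) * hi.lb.cva (D.t1 θ) s x c := by
  obtain ⟨T, hT⟩ : ∃ T : E4 →L[ℝ] ℂ, ∀ v : E4, nabX L θ j (D.sec L i s j) x v = T v :=
    ⟨(show E4 →L[ℝ] ℂ from mfderiv (𝓡 4) 𝓘(ℝ, ℂ) (D.sec L i s j) x) -
      (un1 (ax1 (L.A j) x) + un1 (ax1 θ x)).smulRight (Complex.I * D.sec L i s j x), fun v => by
        refine congrArg (dfc (D.sec L i s j) x v - ·) ?_
        show _ = (un1 (ax1 (L.A j) x) v + un1 (ax1 θ x) v) • (Complex.I * D.sec L i s j x)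
        rw [un1_apply, un1_apply, Complex.real_smul, mul_left_comm, mul_assoc]
        rfl⟩
  have h1 : u = ∑ c, D.co x u c • D.fr x (e c) := by
    simp only [← map_smul, ← map_sum]
    rw [← D.fr_co x u, D.co_fr]
    congr 1
    funext k
    simp [e, Pi.single_apply]
  rw [hT, Finset.mul_sum]
  conv_lhs => rw [h1, map_sum]
  refine Finset.sum_congr rfl fun c _ => ?_
  rw [map_smul, ← hT, hi.cva_eq hs θ hx, Complex.real_smul, mul_left_comm]

variable [MeasurableSpace X] [BorelSpace X] {μ : HS.Form X 4} {w : Tri X}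
  {Q : QM X} {D : Dic μ w Q} {L : LB X} {i : Q.A → Fin L.n} (hi : D.Sub L i) (hμ : HS.Smooth μ)

include hμ in
theorem Dic.ar_eq (h0 : HS.pair μ L.F (w 0) = 0) (h1 : HS.pair μ L.F (w 1) = 0) :
    ar Q hi.lb = Pi.single 0 (2 * Real.pi * HS.pair μ L.F (w 2)) := by
  funext k
  fin_cases k
  · exact Dic.pr_w0 hi hμ
  · exact (Dic.pr_w1 hi hμ).trans (by simp [h0])
  · exact (Dic.pr_w2 hi hμ).trans (by simp [h1])

include D in
theorem Dic.dv_eq (t : ℝ) (x : X) : dv Q (Pi.single 0 t) x = Pi.single 0 t := by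
  have h : (Q.T x).mulVec (Pi.single 0 t) = Pi.single 0 t := by
    funext j
    rw [Matrix.mulVec_single, Pi.single_apply]
    simp [D.T0]
  rw [dv]
  conv_lhs => rw [← h]
  rw [Matrix.mulVec_mulVec, Matrix.nonsing_inv_mul _ (Ne.isUnit (Q.det_T x)), Matrix.one_mulVec]

include hμ in
theorem Dic.higgs {t : ℝ} (ht : 0 ≤ t) (S : HiggsQ Q hi.lb (Pi.single 0 t)) :
    Nonempty (HiggsX μ w L) := by
  have sa : ∀ n, HS.Smooth (D.b1 (S.a n)) := fun n => D.smooth1.2 (by rw [D.t1_b1]; exact S.a_sm n)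
  have nb := fun n j x hx u => hi.nab_eq (S.s_sm n) (D.b1 (S.a n)) (j := j) (x := x) hx u
  simp only [D.t1_b1] at nb
  refine ⟨⟨S.r, fun n => D.b1 (S.a n), fun n => D.b2 (cur hi.lb (S.a n)),
    fun n => D.sec L i (S.s n), fun n => D.b2 (jacQ hi.lb (S.a n) (S.s n)), S.r_pos, S.r_lim, sa,
    fun n => (D.dOn (sa n)).2 ?_, fun n j x hx => (hi.sec_at (S.s_sm n) hx).contMDiffWithinAt,
    fun n j k x hx => hi.sec_tr _ hx, fun n j x hx (u v : E4) => ?_, fun j κ k1 k2 K hK k3 k4 => ?_,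
    fun φ h1 h2 ε hε => ?_⟩⟩
  · rw [D.t2_sub, D.t2_b2, D.t1_b1, D.t2_smul, ← hi.lb_F]
    funext x
    exact (add_sub_cancel_left _ _).symm
  · have h1 := L.g_norm j _ x ⟨hx, hi.mem_ci x⟩
    rw [nb n j x hx, nb n j x hx, hi.sec_norm _ hx, D.b2_apply, D.b2_apply, jacQ, ev_add, ev_smul,
      ev_jz, map_mul, mul_mul_mul_comm, conj_mul_unit h1, one_mul]
  · obtain ⟨C₁, c1, b1⟩ := D.chart_bd k1 k2 hK k3
    obtain ⟨C₂, c2, b2⟩ := D.chart_int k1 k2 hK k3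
    obtain ⟨C, hC⟩ := S.energy
    refine ⟨C₂ * ((16 * C₁ ^ 2 + 1 + 2304 * C₁ ^ 4) * C), fun n => ?_⟩
    have m1 := ((bm_cva (S.a_sm n) (S.s_sm n)).prod ((S.s_sm n).bm.prod
      ((bm_Om hi.lb.F_mem).add (bm_Om (Q.dX_mem_Om (S.a_sm n)))))).cont
      (F := fun q : (Fin 4 → ℂ) × ℂ × L2 => (16 * C₁ ^ 2 + 1 + 2304 * C₁ ^ 4) * (nz q.1 ^ 2 +
        S.r n * (1 - ‖q.2.1‖ ^ 2) ^ 2 + (1 / S.r n) * ∑ i, q.2.2 i ^ 2)) (by
          unfold nz; fun_prop)
    have r0 := S.r_pos n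
    refine (b2 _ _ m1.1.measurable (memLp_one_iff_integrable.1 (m1.memLp 1))
      (fun x => by positivity) fun y hy => ⟨by positivity, ?_⟩).trans
      (mul_le_mul_of_nonneg_left ?_ c2)
    · have hx := k4 (mem_image_of_mem _ hy)
      have e1 : ∑ c, ‖nabX L (D.b1 (S.a n)) j (D.sec L i (S.s n) j) (κ.symm y)
          (dm4 κ.symm y (e c))‖ ^ 2 ≤ ∑ _c : Fin 4, 4 * C₁ ^ 2 *
            nz (hi.lb.cva (S.a n) (S.s n) (κ.symm y)) ^ 2 := Finset.sum_le_sum fun c _ => by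
        rw [nb n j _ hx (dm4 κ.symm y (e c)), norm_mul, L.g_norm j _ _ ⟨hx, hi.mem_ci _⟩, one_mul]
        exact norm_sum_sq _ (b1 y hy c)
      have e2 : ∑ c, ∑ d, D.b2 (cur hi.lb (S.a n)) (κ.symm y)
          ![dm4 κ.symm y (e c), dm4 κ.symm y (e d)] ^ 2 ≤ ∑ _c : Fin 4, ∑ _d : Fin 4,
            144 * C₁ ^ 4 * ∑ i, cur hi.lb (S.a n) (κ.symm y) i ^ 2 :=
        Finset.sum_le_sum fun c _ => Finset.sum_le_sum fun d _ =>
          (congrArg (· ^ 2) (D.b2_apply _ _ _ _)).trans_le (ev_sq_le _ (b1 y hy c) (b1 y hy d))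
      simp only [Finset.sum_const, Finset.card_univ, Fintype.card_fin, nsmul_eq_mul,
        Nat.cast_ofNat] at e1 e2
      have e3 := mul_le_mul_of_nonneg_left e2 (one_div_pos.2 r0).le
      refine (add_le_add (add_le_add e1 (le_of_eq (by rw [hi.sec_norm _ hx]))) e3).trans ?_
      show _ ≤ _ * (nz (hi.lb.cva (S.a n) (S.s n) (κ.symm y)) ^ 2 + S.r n *
        (1 - ‖S.s n (κ.symm y)‖ ^ 2) ^ 2 + 1 / S.r n * ∑ i, cur hi.lb (S.a n) (κ.symm y) i ^ 2)
      have p1 : 0 ≤ nz (hi.lb.cva (S.a n) (S.s n) (κ.symm y)) ^ 2 := sq_nonneg _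
      have p2 : 0 ≤ S.r n * (1 - ‖S.s n (κ.symm y)‖ ^ 2) ^ 2 := by positivity
      have p3 : 0 ≤ 1 / S.r n * ∑ i, cur hi.lb (S.a n) (κ.symm y) i ^ 2 := by positivity
      rw [mul_left_comm (1 / S.r n), mul_left_comm (1 / S.r n), mul_left_comm (1 / S.r n)]
      generalize nz (hi.lb.cva (S.a n) (S.s n) (κ.symm y)) ^ 2 = A at p1 ⊢
      generalize S.r n * (1 - ‖S.s n (κ.symm y)‖ ^ 2) ^ 2 = B at p2 ⊢
      generalize 1 / S.r n * ∑ i, cur hi.lb (S.a n) (κ.symm y) i ^ 2 = E at p3 ⊢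
      have q1 : 0 ≤ C₁ ^ 2 := by positivity
      have q2 : 0 ≤ C₁ ^ 4 := by positivity
      nlinarith [mul_nonneg q1 p2, mul_nonneg q1 p3, mul_nonneg q2 p1, mul_nonneg q2 p2]
    · rw [integral_const_mul]
      exact mul_le_mul_of_nonneg_left (hC n) (by positivity)
  · have h3 := D.cont2 h1
    filter_upwards [S.pos (D.t2 φ) (bm_cf h3) (cont_hat Q h3) (fun x => by
      rw [D.dv_eq]
      exact posA_of ht fun v => by rw [D.ev_t2, D.fr_J]; exact h2 x _) ε hε] with n hn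
    rwa [D.pair_eq hμ D.hx_pos, D.t2_b2]

end Vale.Agent.P247A
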