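import Vale.Agent.P247A.Cnt1

/-!
# P247, stage 2: slices, invariant extensions, invariant partitions of unity
-/

set_option linter.all false

open scoped ContDiff Topology
open Set Filter Function Metric

noncomputable section

namespace Vale.Agent.P247A

namespace Cn

variable {m b : ℕ}

theorem sh_zero (h : Rv b) : sh h 0 = h := by ext i; simp [sh]

theorem sh_add (h : Rv b) (l l' : Fin b → ℤ) : sh h (l + l') = sh (sh h l') l := by
  ext i; simp [sh]; ring

/-- the action of the lattice -/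
def act (c : Coc m b) (l : Fin b → ℤ) (q : Cv m × Rv b) : Cv m × Rv b := (c.T l q.2 q.1, sh q.2 l)

theorem act_zero (c : Coc m b) (q : Cv m × Rv b) : act c 0 q = q := by
  simp [act, c.zero, sh_zero]

theorem act_add (c : Coc m b) (l l' : Fin b → ℤ) (q : Cv m × Rv b) :
    act c (l + l') q = act c l (act c l' q) := by
  simp [act, c.add, sh_add]

theorem act_neg (c : Coc m b) (l : Fin b → ℤ) (q : Cv m × Rv b) :
    act c (-l) (act c l q) = q := by
  rw [← act_add, neg_add_cancel, act_zero]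

theorem T_inj (c : Coc m b) (l : Fin b → ℤ) (h : Rv b) : Injective (c.T l h) := by
  intro x y hxy
  have h1 := congrArg Prod.fst (act_neg c l (x, h))
  have h2 := congrArg Prod.fst (act_neg c l (y, h))
  simp only [act] at h1 h2
  rw [← h1, ← h2, hxy]

theorem act_ne (c : Coc m b) (l : Fin b → ℤ) {q : Cv m × Rv b} (hq : q.1 ≠ 0) :
    (act c l q).1 ≠ 0 := fun h => hq (T_inj c l q.2 (by simpa [act] using h))

theorem act_smul (c : Coc m b) (l : Fin b → ℤ) (z : ℂ) (x : Cv m) (h : Rv b) :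
    act c l (z • x, h) = (z • (act c l (x, h)).1, (act c l (x, h)).2) := by
  simp [act]

theorem sh_eq (h : Rv b) (l : Fin b → ℤ) : sh h l = h + fun i => (l i : ℝ) := rfl

theorem act_diff (c : Coc m b) (l : Fin b → ℤ) : Differentiable ℝ (act c l) := by
  have h1 : Differentiable ℝ (fun q : Cv m × Rv b => (c.T l q.2).restrictScalars ℝ) :=
    ((ContinuousLinearMap.restrictScalarsL ℂ (Cv m) (Cv m) ℝ ℝ).differentiable.comp
      ((c.smooth l).differentiable (by simp))).comp differentiable_snd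
  have h2 := h1.clm_apply differentiable_fst
  exact h2.prodMk (differentiable_snd.add_const _)

theorem orb_iff (c : Coc m b) (q p : Cv m × Rv b) :
    c.Orb q p ↔ ∃ (l : Fin b → ℤ) (z : ℂ), z ≠ 0 ∧ p = (z • (act c l q).1, (act c l q).2) :=
  Iff.rfl

theorem orb_refl (c : Coc m b) (q : Cv m × Rv b) : c.Orb q q :=
  (orb_iff c q q).mpr ⟨0, 1, one_ne_zero, by simp [act_zero]⟩

theorem orb_symm {c : Coc m b} {q p : Cv m × Rv b} (h : c.Orb q p) : c.Orb p q := by
  obtain ⟨l, z, hz, rfl⟩ := (orb_iff c q p).mp h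
  refine (orb_iff c _ _).mpr ⟨-l, z⁻¹, inv_ne_zero hz, ?_⟩
  rw [act_smul, Prod.mk.eta, act_neg]
  simp [smul_smul, hz]

theorem orb_trans {c : Coc m b} {q p s : Cv m × Rv b} (h : c.Orb q p) (h' : c.Orb p s) :
    c.Orb q s := by
  obtain ⟨l, z, hz, rfl⟩ := (orb_iff c q p).mp h
  obtain ⟨l', z', hz', rfl⟩ := (orb_iff c _ s).mp h'
  refine (orb_iff c _ _).mpr ⟨l' + l, z' * z, mul_ne_zero hz' hz, ?_⟩
  rw [act_smul, Prod.mk.eta, act_add]
  simp [smul_smul]

theorem orb_ne {c : Coc m b} {q p : Cv m × Rv b} (h : c.Orb q p) (hq : q.1 ≠ 0) : p.1 ≠ 0 := by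
  obtain ⟨l, z, hz, rfl⟩ := (orb_iff c q p).mp h
  exact smul_ne_zero hz (act_ne c l hq)

theorem orb_act (c : Coc m b) (l : Fin b → ℤ) (q : Cv m × Rv b) : c.Orb q (act c l q) :=
  (orb_iff c _ _).mpr ⟨l, 1, one_ne_zero, by simp⟩

theorem orb_smul (c : Coc m b) {z : ℂ} (hz : z ≠ 0) (q : Cv m × Rv b) : c.Orb q (z • q.1, q.2) :=
  (orb_iff c _ _).mpr ⟨0, z, hz, by simp [act_zero]⟩

/-- normalisation of the `j`-th coordinate -/
def nrm (j : Fin m) (q : Cv m × Rv b) : Cv m × Rv b := ((q.1 j)⁻¹ • q.1, q.2)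

theorem nrm_one {j : Fin m} {q : Cv m × Rv b} (h : q.1 j ≠ 0) : (nrm j q).1 j = 1 := by
  simp [nrm, h]

theorem nrm_of_one {j : Fin m} {q : Cv m × Rv b} (h : q.1 j = 1) : nrm j q = q := by
  simp [nrm, h]

theorem nrm_smul {j : Fin m} {z : ℂ} (hz : z ≠ 0) (x : Cv m) (h : Rv b) :
    nrm j (z • x, h) = nrm j (x, h) := by
  simp only [nrm, Pi.smul_apply, smul_eq_mul, smul_smul, mul_inv]
  rw [mul_comm z⁻¹, mul_assoc, inv_mul_cancel₀ hz, mul_one]

theorem coord_diff (j : Fin m) : Differentiable ℝ (fun q : Cv m × Rv b => q.1 j) := by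
  fun_prop

theorem nrm_diff {j : Fin m} {q : Cv m × Rv b} (h : q.1 j ≠ 0) :
    DifferentiableAt ℝ (nrm j) q :=
  (((coord_diff j q).inv h).smul differentiableAt_fst).prodMk differentiableAt_snd

theorem orb_nrm (c : Coc m b) {j : Fin m} {q : Cv m × Rv b} (h : q.1 j ≠ 0) :
    c.Orb q (nrm j q) := orb_smul c (inv_ne_zero h) q

/-- the cone over the compact part of the slice -/
def S0 (a : Slc m b) : Set (Cv m × Rv b) := {q | q.1 a.j ≠ 0 ∧ nrm a.j q ∈ a.K}

theorem mem_sat (c : Coc m b) (a : Slc m b) (q : Cv m × Rv b) :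
    q ∈ a.sat c ↔ ∃ l, act c l q ∈ S0 a := by
  constructor
  · rintro ⟨q', hK, h1, ho⟩
    obtain ⟨l, z, hz, h⟩ := (orb_iff c _ _).mp (orb_symm ho)
    refine ⟨l, ?_, ?_⟩
    · intro h0
      rw [h] at h1
      simp [h0] at h1
    · rw [← nrm_smul hz, ← h, nrm_of_one h1]; exact hK
  · rintro ⟨l, h0, hK⟩
    exact ⟨_, hK, nrm_one h0, orb_symm (orb_trans (orb_act c l q) (orb_nrm c h0))⟩

theorem S0_ev (a : Slc m b) {q : Cv m × Rv b} (hq : q.1 ≠ 0) (h : q ∉ S0 a) :
    ∀ᶠ q' in 𝓝 q, q' ∉ S0 a := by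
  by_cases h0 : q.1 a.j = 0
  · obtain ⟨R, hR⟩ := a.cK.isBounded.exists_norm_le
    have hc : ContinuousAt (fun q' : Cv m × Rv b => ‖q'.1‖ - ‖q'.1 a.j‖ * R) q := by fun_prop
    have hp : 0 < ‖q.1‖ - ‖q.1 a.j‖ * R := by simpa [h0] using hq
    filter_upwards [hc.eventually (lt_mem_nhds hp)] with q' h1 h2
    have h3 := (norm_fst_le _).trans (hR _ h2.2)
    have h4 : 0 < ‖q'.1 a.j‖ := norm_pos_iff.mpr h2.1
    simp only [nrm, norm_smul, norm_inv] at h3
    rw [inv_mul_le_iff₀ h4] at h3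
    linarith
  · have h1 : nrm a.j q ∈ a.Kᶜ := fun hK => h ⟨h0, hK⟩
    filter_upwards [(nrm_diff h0).continuousAt.eventually (a.cK.isClosed.isOpen_compl.mem_nhds h1)]
      with q' h2 h3
    exact h2 h3.2

theorem fin_l (a : Slc m b) (q : Cv m × Rv b) : ∃ s : Finset (Fin b → ℤ),
    ∀ᶠ q' in 𝓝 q, ∀ l ∉ s, ∀ x : Cv m, (x, sh q'.2 l) ∉ ball a.p a.r := by
  obtain ⟨R, hR⟩ := exists_nat_ge (‖q‖ + ‖a.p‖ + 2)
  refine ⟨Fintype.piFinset fun _ => Finset.Icc (-(R : ℤ)) R, ?_⟩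
  filter_upwards [ball_mem_nhds q one_pos] with q' hq' l hl x hx
  apply hl
  rw [Fintype.mem_piFinset]
  intro i
  have h1 : ‖q'‖ ≤ ‖q‖ + 1 := by
    have := norm_sub_norm_le q' q
    rw [mem_ball_iff_norm] at hq'; linarith
  have h2 : ‖((x, sh q'.2 l) : Cv m × Rv b)‖ ≤ ‖a.p‖ + 1 := by
    have := norm_sub_norm_le ((x, sh q'.2 l) : Cv m × Rv b) a.p
    rw [mem_ball_iff_norm] at hx; linarith [a.hr']
  have h3 : |q'.2 i| ≤ ‖q'‖ := (norm_le_pi_norm q'.2 i).trans (norm_snd_le q')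
  have h4 : |q'.2 i + l i| ≤ ‖((x, sh q'.2 l) : Cv m × Rv b)‖ :=
    (norm_le_pi_norm (sh q'.2 l) i).trans (norm_snd_le ((x, sh q'.2 l) : Cv m × Rv b))
  rw [abs_le] at h3 h4
  rw [Finset.mem_Icc]
  constructor
  · have : (-(R : ℝ)) ≤ l i := by linarith
    exact_mod_cast this
  · have : (l i : ℝ) ≤ R := by linarith
    exact_mod_cast this

theorem l_zero (a : Slc m b) {q : Cv m × Rv b} (hq : q ∈ ball a.p a.r) {l : Fin b → ℤ}
    {x : Cv m} (hx : (x, sh q.2 l) ∈ ball a.p a.r) : l = 0 := by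
  ext i
  rw [mem_ball_iff_norm] at hq hx
  have h3 : |q.2 i - a.p.2 i| ≤ ‖q - a.p‖ := (norm_le_pi_norm (q - a.p).2 i).trans (norm_snd_le _)
  have h4 : |q.2 i + l i - a.p.2 i| ≤ ‖((x, sh q.2 l) : Cv m × Rv b) - a.p‖ :=
    (norm_le_pi_norm (((x, sh q.2 l) : Cv m × Rv b) - a.p).2 i).trans (norm_snd_le _)
  rw [abs_le] at h3 h4
  have h5 : (l i : ℝ) < 1 := by linarith [a.hr']
  have h6 : (-1 : ℝ) < l i := by linarith [a.hr']
  have h7 : l i < 1 := by exact_mod_cast h5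
  have h8 : -1 < l i := by exact_mod_cast h6
  simp only [Pi.zero_apply]; omega

/-- two points of a slice in the same orbit are equal -/
theorem sl_inj (c : Coc m b) (a : Slc m b) {q q' : Cv m × Rv b} (hq : q ∈ a.sl) (hq' : q' ∈ a.sl)
    (h : c.Orb q q') : q = q' := by
  obtain ⟨l, z, hz, rfl⟩ := (orb_iff c _ _).mp h
  obtain rfl := l_zero a hq.1 hq'.1
  have h1 := hq'.2
  rw [act_zero] at h1 ⊢
  simp only [Pi.smul_apply, hq.2, smul_eq_mul, mul_one] at h1
  simp [h1]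

theorem ball_ne (a : Slc m b) {q : Cv m × Rv b} (hq : q ∈ ball a.p a.r) : q.1 a.j ≠ 0 := by
  intro h
  rw [mem_ball_iff_norm] at hq
  have h3 : ‖q.1 a.j - a.p.1 a.j‖ ≤ ‖q - a.p‖ :=
    (norm_le_pi_norm (q - a.p).1 a.j).trans (norm_fst_le _)
  rw [h, a.hp] at h3
  simp at h3
  linarith [a.hr']

end Cn

open Cn

theorem sat : SAT_statement := by
  intro m b c a q hq h
  obtain ⟨s, hs⟩ := fin_l a q
  have h1 : ∀ l ∈ s, ∀ᶠ q' in 𝓝 q, act c l q' ∉ S0 a := fun l _ =>
    (act_diff c l q).continuousAt.eventually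
      (S0_ev a (act_ne c l hq) fun h' => h ((mem_sat c a q).mpr ⟨l, h'⟩))
  filter_upwards [hs, (eventually_all_finset s).mpr h1] with q' h2 h3 h4
  obtain ⟨l, hl⟩ := (mem_sat c a q').mp h4
  by_cases hls : l ∈ s
  · exact h3 l hls hl
  · exact h2 l hls _ (a.sub hl.2)

theorem ext : EXT_statement := by
  classical
  intro m b M n c a u hu hK
  set loc : Cv m × Rv b → Cv M × Rv n := fun q =>
    if q.1 a.j ≠ 0 ∧ nrm a.j q ∈ ball a.p a.r then rho M n (q.1 a.j) (u (nrm a.j q)) else 0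
    with hloc
  have l0 : ∀ q, q ∉ S0 a → loc q = 0 := by
    intro q hq
    simp only [hloc]
    split_ifs with h
    · rw [hK _ ⟨h.2, nrm_one h.1⟩ fun h' => hq ⟨h.1, h'⟩, map_zero]
    · rfl
  have ld : ∀ q : Cv m × Rv b, q.1 ≠ 0 → DifferentiableAt ℝ loc q := by
    intro q hq
    by_cases h : q ∈ S0 a
    · have hb := a.sub h.2
      have h1 : DifferentiableAt ℝ (fun q' => u (nrm a.j q')) q :=
        (hu _ ⟨hb, nrm_one h.1⟩).comp q (nrm_diff h.1)
      have h2 : DifferentiableAt ℝ (fun q' : Cv m × Rv b =>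
          ((q'.1 a.j • (u (nrm a.j q')).1, ‖q'.1 a.j‖ • (u (nrm a.j q')).2) : Cv M × Rv n)) q :=
        ((coord_diff a.j q).smul h1.fst).prodMk (((coord_diff a.j q).norm ℂ h.1).smul h1.snd)
      refine h2.congr_of_eventuallyEq ?_
      filter_upwards [(coord_diff a.j q).continuousAt.eventually_ne h.1,
        (nrm_diff h.1).continuousAt.eventually (isOpen_ball.mem_nhds hb)] with q' h3 h4
      simp only [hloc]
      rw [if_pos ⟨h3, h4⟩, rho_apply]
    · refine (differentiableAt_const (0 : Cv M × Rv n)).congr_of_eventuallyEq ?_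
      filter_upwards [S0_ev a hq h] with q' h1 using l0 q' h1
  obtain ⟨C, hC⟩ : ∃ C, ∀ q ∈ a.K ∩ {q | q.1 a.j = 1}, ‖u q‖ ≤ C :=
    (a.cK.inter_right (isClosed_eq (coord_diff a.j).continuous continuous_const)).exists_bound_of_continuousOn
      fun q hq => (hu q ⟨a.sub hq.1, hq.2⟩).continuousAt.continuousWithinAt
  have lb : ∀ q, ‖loc q‖ ≤ ‖q.1 a.j‖ * |C| := by
    intro q
    by_cases h : q ∈ S0 a
    · simp only [hloc]
      rw [if_pos ⟨h.1, a.sub h.2⟩, norm_rho]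
      exact mul_le_mul_of_nonneg_left ((hC _ ⟨h.2, nrm_one h.1⟩).trans (le_abs_self C))
        (norm_nonneg _)
    · rw [l0 q h, norm_zero]; positivity
  have lc : Continuous loc := by
    rw [continuous_iff_continuousAt]
    intro q
    by_cases hq : q.1 = 0
    · have h0 : loc q = 0 := l0 q fun h => h.1 (by simp [hq])
      rw [ContinuousAt, h0]
      refine squeeze_zero_norm lb ?_
      have : ContinuousAt (fun q' : Cv m × Rv b => ‖q'.1 a.j‖ * |C|) q := by fun_prop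
      simpa [ContinuousAt, hq] using this
    · exact (ld q hq).continuousAt
  have lh : ∀ (z : ℂ) x h, loc (z • x, h) = rho M n z (loc (x, h)) := by
    intro z x h
    by_cases hz : z = 0
    · rw [l0 _ fun h => h.1 (by simp [hz])]; simp [hz, rho_apply]; rfl
    · simp only [hloc, nrm_smul hz, Pi.smul_apply, smul_eq_mul, ne_eq, mul_eq_zero, hz, false_or]
      split_ifs
      · rw [rho_mul]
      · simp
  have fin : ∀ q : Cv m × Rv b, ∃ s : Finset (Fin b → ℤ), ∀ᶠ q' in 𝓝 q,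
      support (fun l => loc (act c l q')) ⊆ s := by
    intro q
    obtain ⟨s, hs⟩ := fin_l a q
    refine ⟨s, hs.mono fun q' h l hl => ?_⟩
    by_contra hls
    exact hl (l0 _ fun h' => h l hls _ (a.sub h'.2))
  have ev : ∀ q : Cv m × Rv b, ∃ s : Finset (Fin b → ℤ),
      (fun q' => ∑ᶠ l, loc (act c l q')) =ᶠ[𝓝 q] fun q' => ∑ l ∈ s, loc (act c l q') := by
    intro q
    obtain ⟨s, hs⟩ := fin q
    exact ⟨s, hs.mono fun q' h => finsum_eq_sum_of_support_subset _ h⟩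
  refine ⟨fun q => ∑ᶠ l, loc (act c l q), ⟨?_, ?_, ?_⟩, ?_, ?_, ?_⟩
  · rw [continuous_iff_continuousAt]
    intro q
    obtain ⟨s, hs⟩ := ev q
    exact ContinuousAt.congr (continuous_finset_sum s fun l _ =>
      lc.comp (act_diff c l).continuous).continuousAt hs.symm
  · intro z x h
    obtain ⟨s, hs⟩ := fin (x, h)
    rw [← rho_apply, map_finsum _ (s.finite_toSet.subset hs.self_of_nhds)]
    exact finsum_congr fun l => by rw [act_smul, lh]
  · intro l x h
    change ∑ᶠ l', loc (act c l' (act c l (x, h))) = _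
    simp only [← act_add]
    exact finsum_comp_equiv (Equiv.addRight l) (f := fun l' => loc (act c l' (x, h)))
  · intro q hq
    obtain ⟨s, hs⟩ := ev q
    refine DifferentiableAt.congr_of_eventuallyEq ?_ hs
    exact DifferentiableAt.fun_sum fun l _ => (ld _ (act_ne c l hq)).comp q (act_diff c l q)
  · intro q hq
    change ∑ᶠ l, loc (act c l q) = _
    rw [finsum_eq_single (fun l => loc (act c l q)) 0
      fun l hl => l0 _ fun h => hl (l_zero a hq.1 (a.sub h.2)), act_zero]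
    simp only [hloc]
    rw [if_pos ⟨by rw [hq.2]; exact one_ne_zero, by rw [nrm_of_one hq.2]; exact hq.1⟩,
      nrm_of_one hq.2, hq.2, rho_one]
  · intro q hq
    exact finsum_eq_zero_of_forall_eq_zero fun l => l0 _ fun h => hq ((mem_sat c a q).mpr ⟨l, h⟩)

theorem Sec.of_orb {m b M n : ℕ} {c : Coc m b} {G : Cv m × Rv b → Cv M × Rv n} (hG : Sec c G)
    {q p : Cv m × Rv b} (h : c.Orb q p) : ∃ z : ℂ, z ≠ 0 ∧
      ∀ (M' n' : ℕ) (G' : Cv m × Rv b → Cv M' × Rv n'), Sec c G' → G' p = rho M' n' z (G' q) := by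
  obtain ⟨l, z, hz, rfl⟩ := h
  exact ⟨z, hz, fun M' n' G' hG' => hG'.orb l z q⟩

end Vale.Agent.P247A
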