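import Vale.Agent.P247A.CntSta

/-!
# P247, stage 2: homogeneous invariant maps, basic lemmas for the row FDA
-/

set_option linter.all false

open scoped ContDiff Topology
open Set Filter Metric

noncomputable section

namespace Vale.Agent.P247A.Fda

variable {m b M n : ℕ} {c : Coc m b} {G U : Cv m × Rv b → Cv M × Rv n} {p q q' : Cv m × Rv b}

/-- the action of a scalar on the target -/
def act (M n : ℕ) (z : ℂ) : Cv M × Rv n →L[ℝ] Cv M × Rv n :=
  ((z • ContinuousLinearMap.id ℂ (Cv M)).restrictScalars ℝ).prodMap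
    (‖z‖ • ContinuousLinearMap.id ℝ (Rv n))

theorem act_apply (z : ℂ) (y : Cv M × Rv n) : act M n z y = (z • y.1, ‖z‖ • y.2) := rfl

theorem norm_act (z : ℂ) (y : Cv M × Rv n) : ‖act M n z y‖ = ‖z‖ * ‖y‖ := by
  rw [act_apply, Prod.norm_def, Prod.norm_def, norm_smul, norm_smul, norm_norm,
    mul_max_of_nonneg _ _ (norm_nonneg z)]

theorem act_surj {z : ℂ} (hz : z ≠ 0) : Function.Surjective (act M n z) := fun y =>
  ⟨act M n z⁻¹ y, by
    simp [act_apply, smul_smul, hz, mul_inv_cancel₀ (norm_ne_zero_iff.2 hz)]⟩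

theorem act_eq_zero {z : ℂ} (hz : z ≠ 0) {y : Cv M × Rv n} (h : act M n z y = 0) : y = 0 := by
  have := norm_act z y
  rw [h, norm_zero] at this
  exact norm_eq_zero.1 ((mul_eq_zero.1 this.symm).resolve_left (norm_ne_zero_iff.2 hz))

theorem sec_mv (hG : Sec c G) (l : Fin b → ℤ) (z : ℂ) (q : Cv m × Rv b) :
    G (z • c.T l q.2 q.1, sh q.2 l) = act M n z (G q) := by
  rw [hG.hom, hG.inv]; rfl

theorem sec_sum {ι : Type} [Fintype ι] {V : ι → Cv m × Rv b → Cv M × Rv n}
    (h : ∀ k, Sec c (V k)) : Sec c fun q => ∑ k, V k q where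
  cont := continuous_finset_sum _ fun k _ => (h k).cont
  hom z x t := by
    show _ = act M n z _
    rw [map_sum]
    exact Finset.sum_congr rfl fun k _ => (h k).hom z x t
  inv l x t := Finset.sum_congr rfl fun k _ => (h k).inv l x t

theorem sh_sh (h : Rv b) (l l' : Fin b → ℤ) : sh (sh h l) l' = sh h (l + l') := by
  funext i; simp [sh, add_assoc]

theorem sh_zero (h : Rv b) : sh h 0 = h := by funext i; simp [sh]

theorem T_inv (c : Coc m b) (l : Fin b → ℤ) (h : Rv b) (x : Cv m) :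
    c.T (-l) (sh h l) (c.T l h x) = x := by rw [← c.add, neg_add_cancel, c.zero]

theorem contDiff_sh (l : Fin b → ℤ) : ContDiff ℝ ∞ fun h : Rv b => sh h l :=
  contDiff_pi.2 fun i => (contDiff_apply ℝ ℝ i).add contDiff_const

theorem contDiff_T (c : Coc m b) (l : Fin b → ℤ) :
    ContDiff ℝ ∞ fun q : Cv m × Rv b => c.T l q.2 q.1 :=
  (((ContinuousLinearMap.restrictScalarsL ℂ (Cv m) (Cv m) ℝ ℝ).contDiff.comp
    (c.smooth l)).comp contDiff_snd).clm_apply contDiff_fst

/-- orbits meet a slice at most once -/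
theorem sl_uniq (a : Slc m b) (h : q ∈ a.sl) (h' : q' ∈ a.sl) (ho : c.Orb q' q) : q = q' := by
  obtain ⟨l, z, -, rfl⟩ := ho
  obtain rfl : l = 0 := funext fun i => by
    have h1 : dist (sh q'.2 l i) (a.p.2 i) < a.r :=
      ((dist_le_pi_dist _ _ i).trans (le_max_right _ _)).trans_lt h.1
    have h2 : dist (q'.2 i) (a.p.2 i) < a.r :=
      ((dist_le_pi_dist _ _ i).trans (le_max_right _ _)).trans_lt h'.1
    rw [Real.dist_eq, abs_lt] at h1 h2
    simp only [sh] at h1
    have h3 : (-1 : ℝ) < l i ∧ (l i : ℝ) < 1 := by constructor <;> linarith [a.hr']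
    have h4 : (-1 : ℤ) < l i := by exact_mod_cast h3.1
    have h5 : l i < 1 := by exact_mod_cast h3.2
    show l i = 0
    omega
  have h1 := h.2
  simp only [c.zero, Pi.smul_apply, h'.2, smul_eq_mul, mul_one] at h1
  rw [h1, c.zero, one_smul, sh_zero]

theorem not_sat (a : Slc m b) (h : q ∈ a.sl) (hK : q ∉ a.K) : q ∉ a.sat c :=
  fun ⟨q', h1, h2, h3⟩ => hK (sl_uniq a h ⟨a.sub h1, h2⟩ h3 ▸ h1)

theorem sl_ne (a : Slc m b) (h : q ∈ a.sl) : q.1 ≠ 0 := fun k => by
  have := h.2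
  rw [k] at this
  exact zero_ne_one this

/-- the saturation of a neighbourhood in a slice is a neighbourhood -/
theorem orb_nhds {j : Fin m} (hq : q'.1 j = 1) (ho : c.Orb q' q) {W : Set (Cv m × Rv b)}
    (hW : W ∈ 𝓝 q') : ∀ᶠ p in 𝓝 q, ∃ p' ∈ W, p'.1 j = 1 ∧ c.Orb p' p := by
  obtain ⟨l, z, hz, rfl⟩ := ho
  set y : Cv m × Rv b → Cv m := fun p => c.T (-l) p.2 p.1 with hy
  have cy : Continuous y := (contDiff_T c (-l)).continuous
  have y0 : y (z • c.T l q'.2 q'.1, sh q'.2 l) = z • q'.1 := by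
    simp only [hy, map_smul, T_inv]
  have y1 : y (z • c.T l q'.2 q'.1, sh q'.2 l) j ≠ 0 := by simpa [y0, hq] using hz
  have cj : Continuous fun p => y p j := (continuous_apply j).comp cy
  have h1 : ContinuousAt (fun p : Cv m × Rv b => (((y p j)⁻¹ • y p, sh p.2 (-l)) : Cv m × Rv b))
      (z • c.T l q'.2 q'.1, sh q'.2 l) :=
    ((cj.continuousAt.inv₀ y1).smul cy.continuousAt).prodMk
      ((contDiff_sh (-l)).continuous.comp continuous_snd).continuousAt
  filter_upwards [h1.preimage_mem_nhds (t := W) (by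
    simpa [y0, hq, smul_smul, hz, sh_sh, sh_zero] using hW), cj.continuousAt.eventually_ne y1]
    with p h2 h3
  refine ⟨_, h2, inv_mul_cancel₀ h3, l, y p j, h3, Prod.ext ?_ ?_⟩
  · show p.1 = y p j • c.T l (sh p.2 (-l)) ((y p j)⁻¹ • y p)
    rw [map_smul, smul_inv_smul₀ h3, hy, ← c.add, add_neg_cancel, c.zero]
  · show p.2 = sh (sh p.2 (-l)) l
    rw [sh_sh, neg_add_cancel, sh_zero]

/-- directional derivatives along a line on which the map is known -/
theorem der_line {E F : Type} [NormedAddCommGroup E] [NormedSpace ℝ E] [NormedAddCommGroup F]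
    [NormedSpace ℝ F] {f : E → F} {L : E →L[ℝ] F} {p v : E} {y : F} (h : HasFDerivAt f L p)
    (k : ∀ᶠ t in 𝓝 (0 : ℝ), f (p + t • v) = t • y) : L v = y := by
  have h1 : HasDerivAt (fun t : ℝ => p + t • v) v 0 := by
    simpa using ((hasDerivAt_id (0 : ℝ)).smul_const v).const_add p
  have h2 := (show HasFDerivAt f L (p + (0 : ℝ) • v) by simpa using h).comp_hasDerivAt 0 h1
  have h3 : HasDerivAt (fun t : ℝ => t • y) y 0 := by
    simpa using (hasDerivAt_id (0 : ℝ)).smul_const y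
  exact h2.unique (h3.congr_of_eventuallyEq k)

theorem der_zero (hG : Sec c G) (h0 : G p = 0) {L : Cv m × Rv b →L[ℝ] Cv M × Rv n}
    (h : HasFDerivAt G L p) (z : ℂ) : L (z • p.1, 0) = 0 :=
  der_line h (.of_forall fun t => by
    have e : p + t • ((z • p.1, 0) : Cv m × Rv b) = ((1 + t * z) • p.1, p.2) := by
      refine Prod.ext ?_ (by simp)
      funext i
      simp [add_mul, mul_assoc]
    rw [e, hG.hom, h0]
    simp)

/-- surjectivity of the derivative along an orbit -/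
theorem surj_orb (hG : Sec c G) (ho : c.Orb q' q) (h : DifferentiableAt ℝ G q)
    (h' : DifferentiableAt ℝ G q') (hs : Function.Surjective (fderiv ℝ G q')) :
    Function.Surjective (fderiv ℝ G q) := by
  obtain ⟨l, z, hz, rfl⟩ := ho
  have h1 : DifferentiableAt ℝ
      (fun p : Cv m × Rv b => ((z • c.T l p.2 p.1, sh p.2 l) : Cv m × Rv b)) q' :=
    ((((contDiff_T c l).const_smul z).prodMk ((contDiff_sh l).comp contDiff_snd)).differentiable
      (by simp)) q'
  have h2 := h.hasFDerivAt.comp q' h1.hasFDerivAt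
  have h3 := (act M n z).hasFDerivAt.comp q' h'.hasFDerivAt
  have h4 := h2.unique (h3.congr_of_eventuallyEq (.of_forall fun p => sec_mv hG l z p))
  refine Function.Surjective.of_comp (g := fderiv ℝ
    (fun p : Cv m × Rv b => ((z • c.T l p.2 p.1, sh p.2 l) : Cv m × Rv b)) q') ?_
  have h5 := congrArg (fun T : Cv m × Rv b →L[ℝ] Cv M × Rv n => (T : _ → _)) h4
  simp only [ContinuousLinearMap.coe_comp'] at h5
  rw [h5]
  exact (act_surj hz).comp hs

theorem sgn_ne (e : ((Cv M × Rv n) × ℂ) ≃L[ℝ] (Cv m × Rv b)) {L : Cv m × Rv b →L[ℝ] Cv M × Rv n}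
    {x : Cv m} (hx : x ≠ 0) (hs : Function.Surjective L) (h0 : ∀ z : ℂ, L (z • x, 0) = 0) :
    sgn e L (muAt b x) ≠ 0 := by
  have h1 : muAt b x (x, 0) ≠ 0 := by
    rw [muAt_apply]
    simp only [Complex.conj_mul', ← Complex.ofReal_pow, ← Complex.ofReal_sum, Complex.ofReal_ne_zero]
    obtain ⟨i, hi⟩ := Function.ne_iff.1 hx
    exact (Finset.sum_pos' (f := fun i => ‖x i‖ ^ 2) (fun _ _ => sq_nonneg _)
      ⟨i, Finset.mem_univ _, pow_pos (norm_pos_iff.2 hi) 2⟩).ne'
  have h2 : ∀ z : ℂ, muAt b x (z • x, 0) = z * muAt b x (x, 0) := fun z => by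
    simp only [muAt_apply, Finset.mul_sum, Pi.smul_apply, smul_eq_mul]
    exact Finset.sum_congr rfl fun _ _ => by ring
  have h3 : Function.Surjective (L.prod (muAt b x)) := by
    rintro ⟨y, w⟩
    obtain ⟨v, rfl⟩ := hs y
    refine ⟨v + (((w - muAt b x v) / muAt b x (x, 0)) • x, 0), Prod.ext ?_ ?_⟩
    · show L _ = L v
      rw [map_add, h0, add_zero]
    · show muAt b x _ = w
      rw [map_add, h2, div_mul_cancel₀ _ h1, add_sub_cancel]
  have h4 : Function.Surjective
      ((e : ((Cv M × Rv n) × ℂ) →L[ℝ] Cv m × Rv b).comp (L.prod (muAt b x))) :=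
    e.surjective.comp h3
  have h5 : ((e : ((Cv M × Rv n) × ℂ) →L[ℝ] Cv m × Rv b).comp (L.prod (muAt b x))).det ≠ 0 :=
    fun k => (LinearMap.bot_lt_ker_of_det_eq_zero k).ne'
      (LinearMap.ker_eq_bot.2 (LinearMap.injective_iff_surjective.2 h4))
  rw [sgn]
  rcases lt_or_gt_of_ne h5 with k | k
  · rw [sign_neg k]; simp
  · rw [sign_pos k]; simp

theorem finrank_prod (m b : ℕ) : Module.finrank ℝ (Cv m × Rv b) = 2 * m + b := by
  simp [Module.finrank_prod, Module.finrank_pi_fintype, mul_comm]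

theorem surj_of_ker (hd : 2 * m + b = 2 * M + n + 2) {L : Cv m × Rv b →L[ℝ] Cv M × Rv n}
    {x : Cv m} (h : ∀ p, L p = 0 → ∃ z : ℂ, p = (z • x, 0)) : Function.Surjective L := by
  let φ : ℂ →ₗ[ℝ] Cv m × Rv b :=
    (((LinearMap.toSpanSingleton ℂ (Cv m) x).restrictScalars ℝ).prod 0)
  have h1 : LinearMap.ker (L : Cv m × Rv b →ₗ[ℝ] Cv M × Rv n) ≤ LinearMap.range φ := fun p hp => by
    obtain ⟨z, rfl⟩ := h p hp
    exact ⟨z, rfl⟩
  have h2 := (Submodule.finrank_mono h1).trans (LinearMap.finrank_range_le φ)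
  have h3 := LinearMap.finrank_range_add_finrank_ker (L : Cv m × Rv b →ₗ[ℝ] Cv M × Rv n)
  rw [finrank_prod] at h3
  rw [Complex.finrank_real_complex] at h2
  refine LinearMap.range_eq_top.1 (Submodule.eq_top_of_finrank_eq (le_antisymm
    (Submodule.finrank_le _) ?_))
  rw [finrank_prod]
  omega

end Vale.Agent.P247A.Fda
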