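import Vale.Agent.P247A.SpecF

/-!
# P247, row `FDB`: general position, sections of a bundle over the two-torus
-/

set_option linter.all false

open scoped ContDiff Topology ComplexConjugate
open Set Filter Module Function

noncomputable section

namespace Vale.Agent.P247A.Fdb

/-- general position -/
theorem gp {ι : Type} [Fintype ι] [DecidableEq ι] {E : Type} [NormedAddCommGroup E]
    [NormedSpace ℝ E] [FiniteDimensional ℝ E] {P : ι → Type} [∀ i, NormedAddCommGroup (P i)]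
    [∀ i, NormedSpace ℝ (P i)] [∀ i, FiniteDimensional ℝ (P i)]
    (hP : ∀ i, finrank ℝ (P i) < finrank ℝ E) (S : ∀ i, Set (P i)) (hS : ∀ i, IsOpen (S i))
    (f : ∀ i, P i × (ι → E) → E) (hf : ∀ i, ContDiffOn ℝ 1 (f i) (S i ×ˢ univ)) :
    ∃ a : ι → E, ∀ i, ∀ p ∈ S i, a i ≠ f i (p, update a i 0) := by
  rcases isEmpty_or_nonempty ι with hι | hι
  · exact ⟨fun _ => 0, fun i => isEmptyElim i⟩
  let ex : ∀ i, ({j // j ≠ i} → E) → ι → E := fun i b j => if h : j = i then 0 else b ⟨j, h⟩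
  have hex : ∀ i, ContDiff ℝ 1 (ex i) := fun i => contDiff_pi.2 fun j => by
    by_cases h : j = i
    · simp only [ex, dif_pos h]; exact contDiff_const
    · simp only [ex, dif_neg h]; exact contDiff_apply ℝ E _
  let g : ∀ i, P i × ({j // j ≠ i} → E) → ι → E := fun i q =>
    update (ex i q.2) i (f i (q.1, ex i q.2))
  have hg : ∀ i, ∀ q ∈ (S i ×ˢ univ : Set (P i × ({j // j ≠ i} → E))), ContDiffAt ℝ 1 (g i) q := by
    intro i q hq
    have h1 : ContDiffAt ℝ 1 (fun q : P i × ({j // j ≠ i} → E) => ex i q.2) q :=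
      ((hex i).comp contDiff_snd).contDiffAt
    have h2 : ContDiffAt ℝ 1 (fun q : P i × ({j // j ≠ i} → E) => f i (q.1, ex i q.2)) q :=
      ContDiffAt.comp (g := f i) q ((hf i).contDiffAt
        (((hS i).prod isOpen_univ).mem_nhds ⟨hq.1, mem_univ _⟩)) (contDiffAt_fst.prodMk h1)
    refine contDiffAt_pi.2 fun j => ?_
    by_cases h : j = i
    · subst h; simp only [g, update_self]; exact h2
    · simp only [g, update_of_ne h]; exact contDiffAt_pi.1 h1 j
  have hN : ∀ i, finrank ℝ (P i × ({j // j ≠ i} → E)) < finrank ℝ (ι → E) := by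
    intro i
    rw [finrank_prod, finrank_pi_fintype, finrank_pi_fintype, Finset.sum_const, Finset.sum_const,
      Finset.card_univ, Finset.card_univ, Fintype.card_subtype_compl, Fintype.card_subtype_eq,
      smul_eq_mul, smul_eq_mul]
    have h1 : 1 ≤ Fintype.card ι := Fintype.card_pos
    obtain ⟨k, hk⟩ := Nat.exists_eq_add_of_le h1
    have := hP i
    rw [hk, Nat.add_sub_cancel_left, add_mul]
    omega
  have hd : dimH (⋃ i, g i '' (S i ×ˢ univ)) < finrank ℝ (ι → E) := by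
    rw [dimH_iUnion]
    obtain ⟨i, hi⟩ := exists_eq_ciSup_of_finite (f := fun i => dimH (g i '' (S i ×ˢ univ)))
    rw [← hi]
    refine lt_of_le_of_lt ((dimH_image_le_of_locally_lipschitzOn fun q hq => ?_).trans
      ((dimH_mono (subset_univ _)).trans (Real.dimH_univ_eq_finrank _).le)) (Nat.cast_lt.2 (hN i))
    obtain ⟨K, t, ht, h⟩ := (hg i q hq).exists_lipschitzOnWith
    exact ⟨K, t, mem_nhdsWithin_of_mem_nhds ht, h⟩
  obtain ⟨a, ha⟩ := (dense_compl_of_dimH_lt_finrank hd).nonempty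
  refine ⟨a, fun i p hp h => ha (mem_iUnion.2 ⟨i, (p, fun j => a j), ⟨hp, mem_univ _⟩, ?_⟩)⟩
  have e : ex i (fun j => a j) = update a i 0 := by
    funext j
    by_cases hj : j = i
    · subst hj; simp [ex]
    · simp [ex, hj]
  simp only [g, e, ← h, update_idem, update_eq_self]

/-! ### bump functions -/

abbrev Z2 := Fin 2 → ℤ
abbrev Col := Fin 2 → Fin 2

theorem sh_sh {b : ℕ} (h : Rv b) (l l' : Fin b → ℤ) : sh (sh h l) l' = sh h (l' + l) := by
  funext i; simp only [sh, Pi.add_apply, Int.cast_add]; ring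

theorem sh_zero {b : ℕ} (h : Rv b) : sh h 0 = h := by funext i; simp [sh]

theorem cd_sh {b : ℕ} (l : Fin b → ℤ) : ContDiff ℝ ∞ fun h : Rv b => sh h l :=
  contDiff_pi.2 fun i => (contDiff_apply ℝ ℝ i).add contDiff_const

def chi (j : Col) (h : Rv 2) : ℝ := ∏ i, expNegInvGlue (1 / 4 - (h i - (j i : ℕ) / 2) ^ 2)

theorem cd_chi (j : Col) : ContDiff ℝ ∞ (chi j) :=
  contDiff_prod fun i _ => expNegInvGlue.contDiff.comp
    (contDiff_const.sub (((contDiff_apply ℝ ℝ i).sub contDiff_const).pow 2))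

theorem chi_nonneg (j : Col) (h : Rv 2) : 0 ≤ chi j h :=
  Finset.prod_nonneg fun _ _ => expNegInvGlue.nonneg _

theorem chi_ne {j : Col} {h : Rv 2} : chi j h ≠ 0 ↔ ∀ i, |h i - (j i : ℕ) / 2| < 1 / 2 := by
  unfold chi
  rw [Finset.prod_ne_zero_iff]
  refine forall_congr' fun i => ?_
  rw [imp_iff_right (Finset.mem_univ i), Ne, expNegInvGlue.zero_iff_nonpos, not_le, sub_pos,
    show (1 / 4 : ℝ) = (1 / 2) ^ 2 by norm_num, sq_lt_sq, abs_of_pos (by norm_num : (0 : ℝ) < 1 / 2)]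

theorem chi_uniq {j : Col} {h : Rv 2} {l l' : Z2} (h1 : chi j (sh h l) ≠ 0)
    (h2 : chi j (sh h l') ≠ 0) : l = l' := by
  funext i
  have a := abs_lt.1 (chi_ne.1 h1 i)
  have b := abs_lt.1 (chi_ne.1 h2 i)
  simp only [sh] at a b
  have c : ((l i - l' i : ℤ) : ℝ) < 1 := by push_cast; linarith [a.2, b.1]
  have d : (-1 : ℝ) < ((l i - l' i : ℤ) : ℝ) := by push_cast; linarith [a.1, b.2]
  have c' : l i - l' i < 1 := by exact_mod_cast c
  have d' : -1 < l i - l' i := by exact_mod_cast d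
  omega

theorem chi_cov (h : Rv 2) : ∃ j l, chi j (sh h l) ≠ 0 := by
  have : ∀ t : ℝ, ∃ (j : Fin 2) (l : ℤ), |t + l - (j : ℕ) / 2| < 1 / 2 := fun t => by
    have h1 := Int.fract_nonneg t
    have h2 := Int.fract_lt_one t
    have h3 : Int.fract t = t - ⌊t⌋ := rfl
    by_cases h4 : Int.fract t < 1 / 2
    · exact ⟨0, -⌊t⌋, by rw [abs_lt]; push_cast; simp only [Fin.val_zero, Nat.cast_zero]; constructor <;> linarith⟩
    · exact ⟨1, -⌊t⌋, by rw [abs_lt]; push_cast; simp only [Fin.val_one, Nat.cast_one]; constructor <;> linarith⟩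
  choose j l hl using this
  exact ⟨fun i => j (h i), fun i => l (h i), chi_ne.2 fun i => hl (h i)⟩

section avg

variable {F : Type} [NormedAddCommGroup F] [NormedSpace ℝ F]

/-- the sum over the translates -/
def avg (j : Col) (f : Z2 → Rv 2 → F) (h : Rv 2) : F := ∑ᶠ l, chi j (sh h l) • f l h

theorem avg_eq {j : Col} (f : Z2 → Rv 2 → F) {h : Rv 2} {l : Z2} (hl : chi j (sh h l) ≠ 0) :
    avg j f h = chi j (sh h l) • f l h :=
  finsum_eq_single _ l fun l' hl' => by
    rw [not_not.1 fun h' => hl' (chi_uniq h' hl), zero_smul]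

theorem avg_ex (j : Col) (h : Rv 2) : ∃ l, ∀ (F : Type) [NormedAddCommGroup F] [NormedSpace ℝ F]
    (f : Z2 → Rv 2 → F), avg j f h = chi j (sh h l) • f l h := by
  by_cases h1 : ∃ l, chi j (sh h l) ≠ 0
  · obtain ⟨l, hl⟩ := h1
    exact ⟨l, fun F _ _ f => avg_eq f hl⟩
  · push Not at h1
    exact ⟨0, fun F _ _ f => by simp [avg, h1]⟩

theorem lf (j : Col) (f : Z2 → Rv 2 → F) :
    LocallyFinite fun l => support fun h => chi j (sh h l) • f l h := by
  intro h
  refine ⟨Metric.ball h 1, Metric.ball_mem_nhds h one_pos, ?_⟩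
  refine (Set.finite_Icc (fun i => ⌊-h i⌋ - 3 : Z2) fun i => ⌊-h i⌋ + 3).subset ?_
  rintro l ⟨x, hx, hb⟩
  have h1 : chi j (sh x l) ≠ 0 := fun e => hx (by simp only [e, zero_smul])
  have key : ∀ i, ⌊-h i⌋ - 3 ≤ l i ∧ l i ≤ ⌊-h i⌋ + 3 := fun i => by
    have a := abs_lt.1 (chi_ne.1 h1 i)
    have b := abs_lt.1 ((dist_le_pi_dist x h i).trans_lt hb)
    have c : ((j i : ℕ) : ℝ) ≤ 1 := by exact_mod_cast Nat.lt_succ_iff.1 (j i).2
    have d : (0 : ℝ) ≤ ((j i : ℕ) : ℝ) := Nat.cast_nonneg _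
    have e1 := Int.floor_le (-h i)
    have e2 := Int.lt_floor_add_one (-h i)
    simp only [sh] at a
    constructor
    · have : ((⌊-h i⌋ - 3 : ℤ) : ℝ) ≤ l i := by push_cast; linarith [a.1, b.2]
      exact_mod_cast this
    · have : (l i : ℝ) ≤ ((⌊-h i⌋ + 3 : ℤ) : ℝ) := by push_cast; linarith [a.2, b.1]
      exact_mod_cast this
  exact ⟨fun i => (key i).1, fun i => (key i).2⟩

theorem cd_avg (j : Col) {f : Z2 → Rv 2 → F} (hf : ∀ l, ContDiff ℝ ∞ (f l)) :
    ContDiff ℝ ∞ (avg j f) :=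
  (contMDiff_finsum (fun l => (((cd_chi j).comp (cd_sh l)).smul (hf l)).contMDiff)
    (lf j f)).contDiff

end avg

/-! ### sections -/

variable {m : ℕ} (c : Coc m 2)

theorem T_inv (l : Z2) (h : Rv 2) (x : Cv m) : c.T (-l) (sh h l) (c.T l h x) = x := by
  rw [← c.add, neg_add_cancel, c.zero]

theorem T_inj (l : Z2) (h : Rv 2) {x : Cv m} (hx : c.T l h x = 0) : x = 0 := by
  rw [← T_inv c l h x, hx, map_zero]

/-- the generating sections -/
def gs (j : Col) : Rv 2 → Cv m →L[ℂ] Cv m := avg j fun l h => c.T (-l) (sh h l)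

theorem cd_gs (j : Col) : ContDiff ℝ ∞ (gs c j) :=
  cd_avg j fun l => (c.smooth (-l)).comp (cd_sh l)

theorem gs_eq {j : Col} {h : Rv 2} (hj : chi j h ≠ 0) (v : Cv m) : gs c j h v = chi j h • v := by
  have h1 : chi j (sh h 0) ≠ 0 := by rwa [sh_zero]
  rw [gs, avg_eq _ h1, sh_zero, neg_zero, ContinuousLinearMap.smul_apply, c.zero]

theorem gs_sh (j : Col) (h : Rv 2) (k : Z2) (v : Cv m) :
    gs c j (sh h k) v = c.T k h (gs c j h v) := by
  by_cases h1 : ∃ l, chi j (sh h l) ≠ 0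
  · obtain ⟨l, hl⟩ := h1
    have e : sh (sh h k) (l - k) = sh h l := by rw [sh_sh, sub_add_cancel]
    have h2 : chi j (sh (sh h k) (l - k)) ≠ 0 := by rwa [e]
    rw [gs, avg_eq _ hl, avg_eq _ h2, e, ContinuousLinearMap.smul_apply,
      ContinuousLinearMap.smul_apply, ContinuousLinearMap.map_smul_of_tower]
    congr 1
    have h3 := c.add k (-l) (sh h l) v
    rw [sh_sh, neg_add_cancel, sh_zero] at h3
    rw [← h3, neg_sub, sub_eq_add_neg]
  · push Not at h1
    have z : ∀ A : Cv m →L[ℂ] Cv m, (0 : ℝ) • A = 0 := fun A => zero_smul ℝ A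
    simp [gs, avg, sh_sh, h1, z]

theorem exists_sec {n : ℕ} (c : Coc (n + 1) 2) : ∃ u : Fin n → Rv 2 → Cv (n + 1),
    (∀ i, ContDiff ℝ ∞ (u i)) ∧ (∀ i h k, u i (sh h k) = c.T k h (u i h)) ∧
    ∀ h, LinearIndependent ℂ fun i => u i h := by
  classical
  let U : (Col × Fin n → Cv (n + 1)) → Fin n → Rv 2 → Cv (n + 1) := fun a i h =>
    ∑ j, gs c j h (a (j, i))
  let ex : ∀ i : Fin n, ({k // k ≠ i} → ℂ) → Fin n → ℂ := fun i b k =>
    if h : k = i then 1 else b ⟨k, h⟩
  obtain ⟨a, ha⟩ := gp (ι := Col × Fin n) (E := Cv (n + 1))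
    (P := fun q => Rv 2 × ({k // k ≠ q.2} → ℂ)) (fun q => by
      rw [finrank_prod, finrank_pi_fintype, finrank_pi_fintype, finrank_pi_fintype]
      simp only [Complex.finrank_real_complex, Finset.sum_const, Finset.card_univ, finrank_self,
        Fintype.card_subtype_compl, Fintype.card_subtype_eq, Fintype.card_fin, smul_eq_mul]
      have := q.2.pos
      omega)
    (fun q => {p | chi q.1 p.1 ≠ 0})
    (fun q => isOpen_ne_fun ((cd_chi q.1).continuous.comp continuous_fst) continuous_const)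
    (fun q p => -(chi q.1 p.1.1)⁻¹ • ∑ k, ex q.2 p.1.2 k • U p.2 k p.1.1) (fun q => by
      have h1 : ContDiff ℝ 1 fun p : (Rv 2 × ({k // k ≠ q.2} → ℂ)) × (Col × Fin n → Cv (n + 1)) =>
          p.1.1 := contDiff_fst.comp contDiff_fst
      refine ContDiffOn.smul (ContDiffOn.neg (ContDiffOn.inv
        (((cd_chi q.1).of_le (by simp)).comp h1).contDiffOn fun p hp => hp.1))
        (ContDiff.contDiffOn (ContDiff.sum fun k _ => ContDiff.fun_smul ?_
          (ContDiff.sum fun j _ => ?_)))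
      · by_cases h : k = q.2
        · simp only [ex, dif_pos h]; exact contDiff_const
        · simp only [ex, dif_neg h]
          exact (contDiff_apply ℝ ℂ _).comp (contDiff_snd.comp contDiff_fst)
      · exact ((ContinuousLinearMap.restrictScalarsL ℂ (Cv (n + 1)) (Cv (n + 1)) ℝ ℝ).contDiff.comp
          (((cd_gs c j).of_le (by simp)).comp h1)).clm_apply
          ((contDiff_apply ℝ (Cv (n + 1)) (j, k)).comp contDiff_snd))
  have hsh : ∀ i h k, U a i (sh h k) = c.T k h (U a i h) := fun i h k => by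
    simp only [U, gs_sh, map_sum]
  refine ⟨U a, fun i => ContDiff.sum fun j _ => ?_, hsh, fun h => ?_⟩
  · exact ((ContinuousLinearMap.restrictScalarsL ℂ (Cv (n + 1)) (Cv (n + 1)) ℝ ℝ).contDiff.comp
      (cd_gs c j)).clm_apply contDiff_const
  rw [Fintype.linearIndependent_iff]
  intro y hy i
  by_contra hi
  obtain ⟨j, l, hl⟩ := chi_cov h
  have h1 : ∑ k, ((y i)⁻¹ * y k) • U a k (sh h l) = 0 := by
    simp only [hsh, mul_smul, ← map_smul, ← map_sum, ← Finset.smul_sum, hy, smul_zero, map_zero]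
  refine ha (j, i) (sh h l, fun k => (y i)⁻¹ * y k) hl ?_
  have h2 : ∀ k, ex i (fun k => (y i)⁻¹ * y k) k = (y i)⁻¹ * y k := fun k => by
    by_cases hk : k = i
    · subst hk; simp [ex, hi]
    · simp [ex, hk]
  have h3 : ∀ k, U (update a (j, i) 0) k (sh h l) =
      U a k (sh h l) - if k = i then chi j (sh h l) • a (j, i) else 0 := fun k => by
    by_cases hk : k = i
    · subst hk
      simp only [U, if_true]
      rw [← Finset.add_sum_erase _ _ (Finset.mem_univ j),
        ← Finset.add_sum_erase _ _ (Finset.mem_univ j), update_self, map_zero, gs_eq c hl,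
        Finset.sum_congr rfl fun j' hj' => by
          rw [update_of_ne (fun e => (Finset.mem_erase.1 hj').1 (Prod.mk.inj e).1)]]
      abel
    · simp only [U, if_neg hk, sub_zero]
      exact Finset.sum_congr rfl fun j' _ => by rw [update_of_ne fun e => hk (Prod.mk.inj e).2]
  show a (j, i) = -(chi j (sh h l))⁻¹ • ∑ k, ex i _ k • U (update a (j, i) 0) k (sh h l)
  simp only [h2, h3, smul_sub, Finset.sum_sub_distrib, h1, smul_ite, smul_zero,
    Finset.sum_ite_eq', Finset.mem_univ, if_true, inv_mul_cancel₀ hi, one_smul, zero_sub,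
    neg_smul, smul_neg, neg_neg, smul_smul, neg_mul, inv_mul_cancel₀ hl]

end Vale.Agent.P247A.Fdb
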