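import Vale.Agent.P247A.Fdb1

/-!
# P247, row `FDB`: classification of bundles over the two-torus
-/

set_option linter.all false

open scoped ContDiff Topology ComplexConjugate Real
open Set Filter Module Function Complex

noncomputable section

namespace Vale.Agent.P247A.Fdb

theorem cob (i : Fin 2) {a : Rv 2 → ℂ} (ha : Continuous a) : ∃ ψ : Rv 2 → ℂ, Continuous ψ ∧
    (∀ h, ψ (sh h (Pi.single i 1)) = ψ h + a h) ∧
    ∀ k : Z2, k i = 0 → (∀ h, a (sh h k) = a h) → ∀ h, ψ (sh h k) = ψ h := by
  let w : ℤ → ℝ → ℝ := fun n t => max 0 (min 1 (t + n)) - if 0 ≤ n then 1 else 0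
  let f : ℤ → Rv 2 → ℂ := fun n h => w n (h i) • a (sh h (Pi.single i n))
  have hlf : LocallyFinite fun n => support (f n) := by
    intro h
    refine ⟨Metric.ball h 1, Metric.ball_mem_nhds h one_pos, ?_⟩
    refine (Set.finite_Icc (-|⌊h i⌋| - 3) (|⌊h i⌋| + 3)).subset ?_
    rintro n ⟨x, hx, hb⟩
    have h1 : w n (x i) ≠ 0 := fun e => hx (by simp only [f, e, zero_smul])
    have b := abs_lt.1 ((dist_le_pi_dist x h i).trans_lt hb)
    have e1 := Int.floor_le (h i)
    have e2 := Int.lt_floor_add_one (h i)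
    have e3 := le_abs_self ⌊h i⌋
    have e4 := neg_abs_le ⌊h i⌋
    by_contra hn
    apply h1
    rw [mem_Icc, not_and_or, not_le, not_le] at hn
    rcases hn with hn | hn
    · have h2 : ¬ 0 ≤ n := by have := abs_nonneg ⌊h i⌋; omega
      have h3 : ((n + ⌊h i⌋ + 3 : ℤ) : ℝ) ≤ 0 := by exact_mod_cast (by omega : n + ⌊h i⌋ + 3 ≤ 0)
      push_cast at h3
      simp only [w, if_neg h2, sub_zero]
      exact max_eq_left ((min_le_right _ _).trans (by linarith [b.2]))
    · have h2 : 0 ≤ n := by have := abs_nonneg ⌊h i⌋; omega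
      have h3 : (0 : ℝ) ≤ ((n + ⌊h i⌋ - 3 : ℤ) : ℝ) := by
        exact_mod_cast (by omega : 0 ≤ n + ⌊h i⌋ - 3)
      push_cast at h3
      simp only [w, if_pos h2]
      rw [min_eq_left (by linarith [b.1]), max_eq_right zero_le_one, sub_self]
  refine ⟨fun h => ∑ᶠ n, f n h, continuous_finsum (fun n => ?_) hlf, fun h => ?_,
    fun k hk hak h => ?_⟩
  · have h1 : Continuous fun h : Rv 2 => w n (h i) := (continuous_const.max (continuous_const.min
      ((continuous_apply i).add continuous_const))).sub continuous_const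
    exact h1.smul (ha.comp (cd_sh _).continuous)
  · have h1 : ∀ n : ℤ, f n (sh h (Pi.single i 1)) =
        f (n + 1) h + if n + 1 = 0 then a h else 0 := fun n => by
      have e1 : sh (sh h (Pi.single i 1)) (Pi.single i n) = sh h (Pi.single i (n + 1)) := by
        rw [sh_sh, Pi.single_add]
      have e2 : sh h (Pi.single i 1) i + n = h i + ((n + 1 : ℤ) : ℝ) := by
        simp only [sh, Pi.single_eq_same]; push_cast; ring
      simp only [f, w, e1, e2]
      by_cases hn : n + 1 = 0
      · rw [if_pos hn, if_neg (by omega), if_pos (by omega), hn, Pi.single_zero, sh_zero, sub_zero,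
          sub_smul, one_smul, sub_add_cancel]
      · rw [if_neg hn, add_zero]
        by_cases h0 : 0 ≤ n
        · rw [if_pos h0, if_pos (by omega)]
        · rw [if_neg h0, if_neg (by omega)]
    show ∑ᶠ n, f n (sh h (Pi.single i 1)) = ∑ᶠ n, f n h + a h
    rw [finsum_congr h1, finsum_eq_of_bijective (g := fun n => f n h + if n = 0 then a h else 0)
      (fun n : ℤ => n + 1) (Equiv.addRight (1 : ℤ)).bijective fun _ => rfl, finsum_add_distrib (hlf.point_finite h)
      ((Set.finite_singleton 0).subset fun n hn => by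
        by_contra h0
        exact hn (if_neg h0)), finsum_eq_single _ 0 fun n hn => if_neg hn, if_pos rfl]
  · refine finsum_congr fun n => ?_
    have e1 : sh h k i = h i := by simp [sh, hk]
    simp only [f, e1]
    rw [sh_sh, add_comm, ← sh_sh, hak]

/-- the model cocycle -/
def mo (d : ℤ) (l : Z2) (h : Rv 2) : ℂ := exp (d * l 1 * h 0 * (2 * π * I))

theorem mo_add (d : ℤ) (l l' : Z2) (h : Rv 2) : mo d (l + l') h = mo d l (sh h l') * mo d l' h := by
  unfold mo
  rw [← exp_add, exp_eq_exp_iff_exists_int]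
  refine ⟨-(d * l 1 * l' 0), ?_⟩
  simp only [sh, Pi.add_apply]
  push_cast
  ring

theorem mo_zero (d : ℤ) (h : Rv 2) : mo d 0 h = 1 := by simp [mo]

theorem scalar {δ : Z2 → Rv 2 → ℂ} (hc : ∀ l, Continuous (δ l)) (h0 : ∀ h, δ 0 h = 1)
    (ha : ∀ l l' h, δ (l + l') h = δ l (sh h l') * δ l' h) :
    ∃ (d : ℤ) (β : Rv 2 → ℂ), Continuous β ∧ (∀ h, β h ≠ 0) ∧
      ∀ l h, β (sh h l) * δ l h = mo d l h * β h := by
  have hne : ∀ l h, δ l h ≠ 0 := fun l h e => by
    have := ha (-l) l h
    rw [neg_add_cancel, h0, e, mul_zero] at this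
    exact one_ne_zero this
  have hlog : ∀ l, ∃ φ : Rv 2 → ℂ, Continuous φ ∧ ∀ h, exp (φ h) = δ l h := fun l => by
    obtain ⟨φ, h1, h2⟩ := exists_continuousOn_eqOn_exp_comp (U := (univ : Set (Rv 2)))
      (by
        have := (convex_univ (𝕜 := ℝ) (E := Rv 2)).contractibleSpace univ_nonempty
        exact SimplyConnectedSpace.ofContractible _)
      isOpen_univ (hc l).continuousOn (by rintro ⟨h, -, e⟩; exact hne l h e)
    exact ⟨φ, continuousOn_univ.1 h1, fun h => h2 (mem_univ h)⟩
  set e0 : Z2 := Pi.single 0 1 with he0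
  set e1 : Z2 := Pi.single 1 1 with he1
  obtain ⟨φ0, c0, x0⟩ := hlog e0
  obtain ⟨φ1, c1, x1⟩ := hlog e1
  have s0 := (cd_sh e0).continuous
  have s1 := (cd_sh e1).continuous
  obtain ⟨ψ0, p1, p2, -⟩ := cob 0 c0.neg
  let a : Rv 2 → ℂ := fun h => φ1 h + ψ0 (sh h e1) - ψ0 h
  have ca : Continuous a := (c1.add (p1.comp s1)).sub p1
  have h1 : ∀ h, ∃ n : ℤ, a (sh h e0) - a h = n * (2 * π * I) := fun h => by
    rw [← exp_eq_one_iff]
    have e : a (sh h e0) - a h = φ1 (sh h e0) + φ0 h - (φ0 (sh h e1) + φ1 h) := by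
      have q1 := p2 (sh h e1)
      have q2 := p2 h
      have q3 : sh (sh h e0) e1 = sh (sh h e1) e0 := by rw [sh_sh, sh_sh, add_comm]
      simp only [a, q3]
      rw [← he0] at q1 q2
      rw [q1, q2]
      simp only [Pi.neg_apply]
      ring
    rw [e, exp_sub, exp_add, exp_add, x0, x1, x0, x1, ← ha, ← ha, add_comm, div_self (hne _ _)]
  choose n hn using h1
  have h2 : Continuous n := by
    have h3 : Continuous fun h => ((n h : ℤ) : ℂ) := by
      have : (fun h => ((n h : ℤ) : ℂ)) = fun h => (a (sh h e0) - a h) / (2 * π * I) := by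
        funext h; rw [hn, mul_div_cancel_right₀ _ two_pi_I_ne_zero]
      rw [this]
      exact ((ca.comp s0).sub ca).div_const _
    exact Complex.isClosedEmbedding_intCast.isEmbedding.continuous_iff.2 h3
  have h3 : ∀ h, n h = n 0 := fun h => (IsLocallyConstant.iff_continuous n).2 h2 |>.apply_eq_of_preconnectedSpace h 0
  set d := n 0
  let a' : Rv 2 → ℂ := fun h => d * h 0 * (2 * π * I) - a h
  have ca' : Continuous a' := ((continuous_const.mul
    (continuous_ofReal.comp (continuous_apply 0))).mul continuous_const).sub ca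
  obtain ⟨ψ1, r1, r2, r3⟩ := cob 1 ca'
  have r4 := r3 e0 (by simp [he0]) fun h => by
    have := hn h
    rw [h3] at this
    simp only [a']
    rw [show sh h e0 0 = h 0 + 1 by simp [sh, he0], eq_add_of_sub_eq this]
    push_cast
    ring
  let β : Rv 2 → ℂ := fun h => exp (ψ0 h + ψ1 h)
  refine ⟨d, β, continuous_exp.comp (p1.add r1), fun h => exp_ne_zero _, ?_⟩
  let S : AddSubgroup Z2 :=
    { carrier := {l | ∀ h, β (sh h l) * δ l h = mo d l h * β h}
      zero_mem' := fun h => by rw [sh_zero, h0, mo_zero, mul_comm]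
      add_mem' := fun {l l'} hl hl' h => by
        rw [ha, ← mul_assoc, ← sh_sh, hl, mul_assoc, hl', mo_add, mul_assoc]
      neg_mem' := fun {l} hl h => by
        have q1 := hl (sh h (-l))
        have q2 := ha l (-l) h
        have q3 := mo_add d l (-l) h
        rw [sh_sh, add_neg_cancel, sh_zero] at q1
        rw [add_neg_cancel, h0] at q2
        rw [add_neg_cancel, mo_zero] at q3
        linear_combination (-(mo d (-l) h * δ (-l) h)) * q1 + (β (sh h (-l)) * δ (-l) h) * q3
          - (mo d (-l) h * β h) * q2 }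
  have m0 : e0 ∈ S := fun h => by
    simp only [β]
    rw [p2, r4, ← x0, ← exp_add, show mo d e0 h = 1 by simp [mo, he0], one_mul]
    congr 1
    simp only [Pi.neg_apply]
    ring
  have m1 : e1 ∈ S := fun h => by
    simp only [β, mo]
    rw [r2, ← x1, ← exp_add, ← exp_add]
    congr 1
    simp only [a', a, he1, Pi.single_eq_same]
    push_cast
    ring
  intro l
  have e : l = l 0 • e0 + l 1 • e1 := by
    funext i; fin_cases i <;> simp [he0, he1]
  have : l ∈ S := by rw [e]; exact S.add_mem (S.zsmul_mem m0 _) (S.zsmul_mem m1 _)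
  exact this

theorem cont_avg {F : Type} [NormedAddCommGroup F] [NormedSpace ℝ F] (j : Col)
    {f : Z2 → Rv 2 → F} (hf : ∀ l, Continuous (f l)) : Continuous (avg j f) :=
  continuous_finsum (fun l => ((cd_chi j).continuous.comp (cd_sh l).continuous).smul (hf l))
    (lf j f)

theorem avg_two (j : Col) (h : Rv 2) (k : Z2) : ∃ l, ∀ (f : Z2 → Rv 2 → ℂ),
    avg j f h = chi j (sh h l) • f l h ∧
      avg j f (sh h k) = chi j (sh h l) • f (l - k) (sh h k) := by
  by_cases h1 : ∃ l, chi j (sh h l) ≠ 0
  · obtain ⟨l, hl⟩ := h1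
    have e : sh (sh h k) (l - k) = sh h l := by rw [sh_sh, sub_add_cancel]
    have h2 : chi j (sh (sh h k) (l - k)) ≠ 0 := by rwa [e]
    exact ⟨l, fun f => ⟨avg_eq f hl, by rw [avg_eq f h2, e]⟩⟩
  · push Not at h1
    exact ⟨0, fun f => by simp [avg, h1, sh_sh]⟩

/-- the invariant hermitian metric -/
def me {m : ℕ} (c : Coc m 2) (h : Rv 2) (x y : Cv m) : ℂ :=
  ∑ j, ∑ i, (chi j (sh h (avg_ex j h).choose) : ℂ) *
    (conj (c.T (avg_ex j h).choose h x i) * c.T (avg_ex j h).choose h y i)

theorem me_eq {m : ℕ} (c : Coc m 2) (x y : Rv 2 → Cv m) (h : Rv 2) : me c h (x h) (y h) =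
    ∑ j, avg j (fun l h => ∑ i, conj (c.T l h (x h) i) * c.T l h (y h) i) h := by
  refine Finset.sum_congr rfl fun j _ => ?_
  rw [(avg_ex j h).choose_spec, real_smul, Finset.mul_sum]

theorem me_cont {m : ℕ} (c : Coc m 2) {x y : Rv 2 → Cv m} (hx : Continuous x) (hy : Continuous y) :
    Continuous fun h => me c h (x h) (y h) := by
  simp only [me_eq]
  refine continuous_finsetSum _ fun j _ => cont_avg j fun l => continuous_finsetSum _ fun i _ => ?_
  exact (continuous_conj.comp ((continuous_apply i).comp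
    ((c.smooth l).continuous.clm_apply hx))).mul
    ((continuous_apply i).comp ((c.smooth l).continuous.clm_apply hy))

theorem me_sh {m : ℕ} (c : Coc m 2) (h : Rv 2) (k : Z2) (x y : Cv m) :
    me c (sh h k) (c.T k h x) (c.T k h y) = me c h x y := by
  rw [me_eq c (fun _ => c.T k h x) (fun _ => c.T k h y), me_eq c (fun _ => x) (fun _ => y)]
  refine Finset.sum_congr rfl fun j _ => ?_
  obtain ⟨l, hl⟩ := avg_two j h k
  rw [(hl _).1, (hl _).2]
  simp only [← c.add, sub_add_cancel]

theorem me_pos {m : ℕ} (c : Coc m 2) (h : Rv 2) {x : Cv m} (hx : me c h x x = 0) : x = 0 := by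
  obtain ⟨j, l, hl⟩ := chi_cov h
  have h1 : ∑ j, ∑ i, chi j (sh h (avg_ex j h).choose) *
      normSq (c.T (avg_ex j h).choose h x i) = 0 := by
    have := congrArg re hx
    simpa only [me, re_sum, ← normSq_eq_conj_mul_self, ← ofReal_mul, ofReal_re, zero_re] using this
  have h2 := (Finset.sum_eq_zero_iff_of_nonneg fun j _ => Finset.sum_nonneg fun i _ =>
    mul_nonneg (chi_nonneg _ _) (normSq_nonneg _)).1 h1 j (Finset.mem_univ j)
  have h3 := (Finset.sum_eq_zero_iff_of_nonneg fun i _ =>
    mul_nonneg (chi_nonneg _ _) (normSq_nonneg _)).1 h2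
  have h4 : chi j (sh h (avg_ex j h).choose) ≠ 0 := by
    have e1 := (avg_ex j h).choose_spec ℝ fun _ _ => 1
    rw [avg_eq _ hl, smul_eq_mul, smul_eq_mul, mul_one, mul_one] at e1
    rwa [← e1]
  refine T_inj c (avg_ex j h).choose h (funext fun i => ?_)
  exact normSq_eq_zero.1 ((mul_eq_zero.1 (h3 i (Finset.mem_univ i))).resolve_left h4)

theorem classify {n : ℕ} (c : Coc (n + 1) 2) :
    ∃ (d : ℤ) (B : Rv 2 → Cv (n + 1) →L[ℂ] ℂ × Cv n), Continuous B ∧ (∀ h, Injective (B h)) ∧
      ∀ l h x, B (sh h l) (c.T l h x) = (mo d l h * (B h x).1, (B h x).2) := by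
  obtain ⟨u, hu, hus, hui⟩ := exists_sec c
  obtain ⟨d, β, hβ, hβ0, hβs⟩ := scalar (δ := fun l h => (c.T l h).det)
    (fun l => ContinuousLinearMap.continuous_det.comp (c.smooth l).continuous)
    (fun h => by
      have : c.T 0 h = ContinuousLinearMap.id ℂ _ := ContinuousLinearMap.ext (c.zero h)
      rw [this]; exact LinearMap.det_id)
    (fun l l' h => by
      have : c.T (l + l') h = (c.T l (sh h l')).comp (c.T l' h) :=
        ContinuousLinearMap.ext (c.add l l' h)
      rw [this]; exact LinearMap.det_comp _ _)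
  let D := (Pi.basisFun ℂ (Fin (n + 1))).det
  let B0 : Rv 2 → Cv (n + 1) →ₗ[ℂ] ℂ × Cv n := fun h =>
    { toFun := fun x => (β h * D (Matrix.vecCons x fun i => u i h), fun i => me c h (u i h) x)
      map_add' := fun x y => Prod.ext (by simp only [D.map_vecCons_add, mul_add, Prod.fst_add])
        (funext fun i => by
          simp only [me, map_add, Pi.add_apply, mul_add, Finset.sum_add_distrib, Prod.snd_add])
      map_smul' := fun z x => Prod.ext (by
          simp only [D.map_vecCons_smul, smul_eq_mul, RingHom.id_apply, Prod.smul_fst]; ring)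
        (funext fun i => by
          simp only [me, map_smul, Pi.smul_apply, smul_eq_mul, RingHom.id_apply, Prod.smul_snd,
            Finset.mul_sum]
          exact Finset.sum_congr rfl fun j _ => Finset.sum_congr rfl fun k _ => by ring) }
  refine ⟨d, fun h => LinearMap.toContinuousLinearMap (B0 h), continuous_clm_apply.2 fun x => ?_,
    fun h => (injective_iff_map_eq_zero _).2 fun x hx => ?_, fun l h x => ?_⟩
  · refine (hβ.mul ?_).prodMk (continuous_pi fun i => me_cont c (hu i).continuous continuous_const)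
    simp only [D, Pi.basisFun_det_apply]
    refine Continuous.matrix_det (continuous_pi fun k => ?_)
    refine Fin.cases ?_ (fun i => ?_) k
    · exact continuous_const
    · exact (hu i).continuous
  · have h1 : D (Matrix.vecCons x fun i => u i h) = 0 :=
      (mul_eq_zero.1 (congrArg Prod.fst hx)).resolve_left (hβ0 h)
    have h2 : ∀ i, me c h (u i h) x = 0 := fun i => congrFun (congrArg Prod.snd hx) i
    have h3 : x ∈ Submodule.span ℂ (range fun i => u i h) := by
      by_contra h4
      have h5 := linearIndependent_finCons.2 ⟨hui h, h4⟩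
      have h6 := (Pi.basisFun ℂ (Fin (n + 1))).is_basis_iff_det.1
        ⟨h5, h5.span_eq_top_of_card_eq_finrank (by simp)⟩
      exact h6.ne_zero h1
    obtain ⟨y, rfl⟩ := (Submodule.mem_span_range_iff_exists_fun ℂ).1 h3
    apply me_pos c h
    have h4 : ∀ x, me c h (∑ i, y i • u i h) x = ∑ i, conj (y i) * me c h (u i h) x := fun x => by
      simp only [me, map_sum, map_smul, Finset.sum_apply, Pi.smul_apply, smul_eq_mul, map_mul,
        Finset.mul_sum, Finset.sum_mul]
      rw [Finset.sum_comm (s := Finset.univ (α := Fin n))]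
      refine Finset.sum_congr rfl fun j _ => ?_
      rw [Finset.sum_comm]
      exact Finset.sum_congr rfl fun j _ => Finset.sum_congr rfl fun k _ => by ring
    rw [h4]
    simp only [h2, mul_zero, Finset.sum_const_zero]
  · refine Prod.ext ?_ (funext fun i => ?_)
    · show β (sh h l) * D (Matrix.vecCons (c.T l h x) fun i => u i (sh h l)) =
        mo d l h * (β h * D (Matrix.vecCons x fun i => u i h))
      have e : (Matrix.vecCons (c.T l h x) fun i => u i (sh h l)) =
          (c.T l h : Cv (n + 1) →ₗ[ℂ] Cv (n + 1)) ∘ Matrix.vecCons x fun i => u i h := by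
        funext k
        refine Fin.cases rfl (fun i => ?_) k
        exact hus i h l
      rw [e, Basis.det_comp, ← mul_assoc, ← mul_assoc, ← hβs]
    · show me c (sh h l) (u i (sh h l)) (c.T l h x) = me c h (u i h) x
      rw [hus, me_sh]

end Vale.Agent.P247A.Fdb
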