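import Vale.Agent.P247A.MoveL
import Vale.Agent.P247A.Spec2
import Vale.Agent.P247M.MarkN
import Vale.Agent.P247F.Chain

/-!
# P247, stage two: the rows LATT and MOVE
-/

set_option linter.all false

open scoped Manifold ContDiff Topology
open Set Filter MeasureTheory Matrix

noncomputable section

namespace Vale.Agent.P247A.Mov

open Vale.Agent.P247.SCY Vale.Agent.P247.SCY.HS
open Vale.Agent.P247X Vale.Agent.P247M
open Vale.Agent.P290.H726
open Vale.Agent.P290Z.Lat (cs Prim cs_smul cs_inj cs_zero)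
open Vale.Agent.P247F (FamC famC_const qm_eventually)

variable {X : Type} [Cl4 X] {μ : Form X 4} {w : Tri X} {n : ℕ} {G : Matrix (Fin n) (Fin n) ℤ}
  {c : Fin n → Form X 2}

theorem quot_lc {p q : ℕ} (α : Fin p → Form X 2) (β : Fin q → Form X 2) (s : Fin p → ℝ)
    (t : Fin q → ℝ) (x : X) :
    quot μ (lc α s) (lc β t) x = ∑ i, ∑ j, s i * t j * quot μ (α i) (β j) x := by
  simp only [P247M.quot_eq, rf_lc, q4, W22, Finset.sum_apply, Pi.smul_apply, w22_sum_left,
    w22_sum_right, w22_smul_left, w22_smul_right, ContinuousAlternatingMap.sum_apply,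
    ContinuousAlternatingMap.smul_apply, smul_eq_mul, Finset.mul_sum, Finset.sum_div]
  rw [Finset.sum_comm]
  exact Finset.sum_congr rfl fun i _ => Finset.sum_congr rfl fun j _ => by ring

/-- linear changes of hypersymplectic triples -/
theorem hyp_mul (hw : Hypersymplectic μ w) {A : Matrix (Fin 3) (Fin 3) ℝ} (hA : A.det ≠ 0) :
    Hypersymplectic μ fun i => lc w (A i) := by
  refine ⟨fun i => (sc_lc (hyp_sc hw) _).1, fun i => (sc_lc (hyp_sc hw) _).2, fun x => ?_⟩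
  have e : Qm μ (fun i => lc w (A i)) x = A * Qm μ w x * Aᴴ := by
    ext i j
    simp only [Qm, of_apply, quot_lc, mul_apply, conjTranspose_apply, star_trivial,
      Fin.sum_univ_three]
    ring
  rw [e]
  exact (hw.posDef x).mul_mul_conjTranspose_same
    (vecMul_injective_of_isUnit ((isUnit_iff_isUnit_det _).2 hA.isUnit))

theorem coh_add {α β α' β' : Form X 2} (h : Coh α α') (h' : Coh β β') :
    Coh (fun x => α x + β x) fun x => α' x + β' x := by
  simpa only [Coh, add_sub_add_comm] using exact_add h h'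

theorem coh_smul {α α' : Form X 2} (h : Coh α α') (r : ℝ) :
    Coh (fun x => r • α x) fun x => r • α' x := by
  simpa only [Coh, smul_sub] using exact_smul h r

theorem lc_add (c : Fin n → Form X 2) (u v : Fin n → ℝ) :
    lc c (u + v) = fun x => lc c u x + lc c v x := by
  funext x
  simp only [lc, Pi.add_apply, add_smul, Finset.sum_add_distrib]

theorem lc_smul (c : Fin n → Form X 2) (r : ℝ) (u : Fin n → ℝ) :
    lc c (r • u) = fun x => r • lc c u x := by
  funext x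
  simp only [lc, Pi.smul_apply, smul_eq_mul, mul_smul, Finset.smul_sum]

theorem coh_lc {a : Fin 3 → Fin n → ℝ} (ha : ∀ i, Coh (w i) (lc c (a i))) (t : Fin 3 → ℝ) :
    Coh (lc w t) (lc c (P247K.lc t a)) := by
  have e : lc w t = fun x => t 0 • w 0 x + t 1 • w 1 x + t 2 • w 2 x := by
    funext x; simp only [lc, Fin.sum_univ_three]
  rw [e, P247K.lc, Fin.sum_univ_three, lc_add, lc_add, lc_smul, lc_smul, lc_smul]
  exact coh_add (coh_add (coh_smul (ha 0) _) (coh_smul (ha 1) _)) (coh_smul (ha 2) _)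

theorem famC_lc (hc : ∀ i, SC (c i)) {P : Type} [TopologicalSpace P] {f : P → Fin n → ℝ}
    (hf : Continuous f) : FamC fun p => lc c (f p) := by
  have key : ∀ s : Finset (Fin n), FamC fun p (x : X) => ∑ i ∈ s, f p i • c i x := by
    intro s
    induction s using Finset.induction_on with
    | empty => simpa only [Finset.sum_empty] using famC_const (P := P) (sc_zero (X := X)).cont
    | insert i s hi ih =>
      simp only [Finset.sum_insert hi]
      exact ((famC_const (hc i).cont).smul ((continuous_apply i).comp hf)).add ih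
  exact key _

/-- small closed perturbations of the first form -/
theorem hyp_near (hμ : Volume μ) (hw : Hypersymplectic μ w) (hc : ∀ i, SC (c i)) (x₀ : Fin n → ℝ) :
    ∀ᶠ u in 𝓝 x₀, Hypersymplectic μ ![fun x => w 0 x + lc c (u - x₀) x, w 1, w 2] := by
  have h1 := qm_eventually hμ (K := Unit) (P := Fin n → ℝ)
    (W := fun z => ![fun x => w 0 x + lc c (z.1 - x₀) x, w 1, w 2]) (fun i => by
      fin_cases i
      · exact (famC_const (hyp_sc hw 0).cont).add (famC_lc hc (by fun_prop))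
      · exact famC_const (hyp_sc hw 1).cont
      · exact famC_const (hyp_sc hw 2).cont) (p0 := x₀) (fun _ x => by
      have : (![fun x => w 0 x + lc c (x₀ - x₀) x, w 1, w 2] : Tri X) = w := by
        funext i
        fin_cases i
        · funext x
          show w 0 x + lc c (x₀ - x₀) x = w 0 x
          simp [lc]
        · rfl
        · rfl
      simp only [this]
      exact hw.posDef x)
  filter_upwards [h1] with u hu
  have hs : ∀ i, SC ((![fun x => w 0 x + lc c (u - x₀) x, w 1, w 2] : Tri X) i) := fun i => by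
    fin_cases i
    exacts [(hyp_sc hw 0).add (sc_lc hc _), hyp_sc hw 1, hyp_sc hw 2]
  exact ⟨fun i => (hs i).1, fun i => (hs i).2, hu ()⟩

/-- products of Chern forms are integers -/
theorem pair_int (hE : EVEN_statement) (hμ : Volume μ) (hw : Hypersymplectic μ w) (L L' : LB X) :
    ∃ k : ℤ, pair μ L.F L'.F = k := by
  obtain ⟨a, ha⟩ := hE X μ hμ w hw (L.tensor L')
  obtain ⟨b, hb⟩ := hE X μ hμ w hw L
  obtain ⟨d, hd⟩ := hE X μ hμ w hw L'
  have hs := L.F_sc.add L'.F_sc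
  rw [tensor_F, pair_add hμ hw L.F_sc.1 L'.F_sc.1 hs.1, P247M.pair_comm μ L.F,
    P247M.pair_comm μ L'.F, pair_add hμ hw L.F_sc.1 L'.F_sc.1 L.F_sc.1,
    pair_add hμ hw L.F_sc.1 L'.F_sc.1 L'.F_sc.1, hb, hd, P247M.pair_comm μ L'.F] at ha
  exact ⟨a - b - d, by push_cast; linarith⟩

/-- markings of any rank -/
structure Mk (μ : Form X 4) (G : Matrix (Fin n) (Fin n) ℤ) (c : Fin n → Form X 2) : Prop where
  eu : P247G.IsEU G
  sc : ∀ i, SC (c i)
  gram : ∀ i j, pair μ (c i) (c j) = G i j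
  span : ∀ α : Form X 2, SC α → ∃ v, Coh α (lc c v)
  int : ∀ v : Fin n → ℤ, ∃ L : LB X, L.F = lc c (cs ℝ v)
  cls : ∀ L : LB X, ∃ v : Fin n → ℤ, Coh L.F (lc c (cs ℝ v))

theorem exists_mk (hE : EVEN_statement) (hμ : Volume μ) (hp : BPlusLe3 μ)
    (hw : Hypersymplectic μ w) :
    ∃ (n : ℕ) (G : Matrix (Fin n) (Fin n) ℤ) (c : Fin n → Form X 2), Mk μ G c := by
  obtain ⟨n, G, c, h1, h2, h3, h4, h5, -⟩ := markN hE hμ hp hw
  refine ⟨n, G, c, h1, h2, h3, h4, h5, fun L => ?_⟩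
  obtain ⟨v, hv⟩ := h4 _ L.F_sc
  obtain ⟨r, rfl⟩ := int_of_dual h1.unit (v := v) fun u => by
    obtain ⟨L', hL⟩ := h5 u
    rw [← pair_of_coh hμ hw h2 h3 L.F_sc L'.F_sc hv (hL ▸ Coh.refl _)]
    exact pair_int hE hμ hw L L'
  exact ⟨r, hv⟩

theorem Mk.pair (M : Mk μ G c) (hμ : Volume μ) (hw : Hypersymplectic μ w) {α β : Form X 2}
    {a b : Fin n → ℝ} (hα : SC α) (hβ : SC β) (ha : Coh α (lc c a)) (hb : Coh β (lc c b)) :
    pair μ α β = bil G a b := pair_of_coh hμ hw M.sc M.gram hα hβ ha hb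

theorem Mk.pairL (M : Mk μ G c) (hμ : Volume μ) (hw : Hypersymplectic μ w) {L L' : LB X}
    {a b : Fin n → ℤ} (ha : Coh L.F (lc c (cs ℝ a))) (hb : Coh L'.F (lc c (cs ℝ b))) :
    HS.pair μ L.F L'.F = ((bil G a b : ℤ) : ℝ) :=
  (M.pair hμ hw L.F_sc L'.F_sc ha hb).trans (bil_cs' G a b)

theorem Mk.lb (M : Mk μ G c) (v : Fin n → ℤ) : ∃ L : LB X, Coh L.F (lc c (cs ℝ v)) := by
  obtain ⟨L, hL⟩ := M.int v
  exact ⟨L, hL ▸ Coh.refl _⟩

theorem Mk.pos (M : Mk μ G c) (hμ : Volume μ) (hw : Hypersymplectic μ w) {a : Fin 3 → Fin n → ℝ}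
    (ha : ∀ i, Coh (w i) (lc c (a i))) : P247K.Pos G a := fun t ht => by
  have hs := sc_lc (hyp_sc hw) t
  rw [← M.pair hμ hw hs hs (coh_lc ha t) (coh_lc ha t)]
  exact pair_lc_pos hμ hw ht

end Mov

open Mov Vale.Agent.P247X Vale.Agent.P247M Vale.Agent.P290.H726
open Vale.Agent.P247.SCY Vale.Agent.P247.SCY.HS
open Vale.Agent.P290Z.Lat (cs Prim cs_smul cs_inj cs_zero)

/-- **MOVE** -/
theorem move_of (hE : EVEN_statement) : MOVE_statement := by
  intro X _ μ hμ hp w hw L ⟨L₁, h1⟩ h0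
  obtain ⟨n, G, c, M⟩ := exists_mk hE hμ hp hw
  choose a ha using fun i => M.span (w i) (hyp_sc hw i)
  obtain ⟨E, hL⟩ := M.span _ L.F_sc
  obtain ⟨y, hy⟩ := M.cls L₁
  have e1 := M.pair hμ hw L.F_sc L₁.F_sc hL hy
  obtain ⟨A, hA, a0, a1, a2⟩ := exists_frame M.eu.symm M.eu.sig (M.pos hμ hw ha) (E := E)
    (fun k => by rw [k, bil_zero_left, h1] at e1; exact one_ne_zero e1)
    (M.pair hμ hw L.F_sc L.F_sc hL hL ▸ h0)
  have hv := hyp_mul hw hA
  obtain ⟨u, hu, u0, u1⟩ := exists_generic M.eu.unit a0 a2.ne'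
    (hyp_near hμ hv M.sc (P247K.lc (A 0) a))
  have c0 : Coh (fun x => lc w (A 0) x + lc c (u - P247K.lc (A 0) a) x) (lc c u) := by
    have := coh_add (coh_lc ha (A 0)) (Coh.refl (lc c (u - P247K.lc (A 0) a)))
    rwa [← lc_add, add_sub_cancel] at this
  refine ⟨_, hu, (M.pair hμ hw L.F_sc (hyp_sc hu 0) hL c0).trans u0,
    (M.pair hμ hw L.F_sc (hyp_sc hv 1) hL (coh_lc ha _)).trans a1,
    a2.trans_eq (M.pair hμ hw L.F_sc (hyp_sc hv 2) hL (coh_lc ha _)).symm, fun L' k _ => ?_⟩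
  obtain ⟨v, hv'⟩ := M.cls L'
  obtain ⟨t, ht⟩ := u1 v ((M.pair hμ hw L'.F_sc (hyp_sc hu 0) hv' c0).symm.trans k)
  have e2 : ((bil G v y : ℤ) : ℝ) = t := by
    rw [← bil_cs', ht, bil_smul_left, ← e1, h1, mul_one]
  refine ⟨bil G v y, hv'.trans ?_⟩
  rw [ht, lc_smul, e2]
  exact coh_smul hL.symm t

/-- **LATT** -/
theorem latt_of (hE : EVEN_statement) : LATT_statement := by
  intro X _ μ hμ hp w hw m
  obtain ⟨n, G, c, M⟩ := exists_mk hE hμ hp hw
  have key : ∀ P : Fin n → ℤ, bil G P P = 0 → Prim G P → ∃ (L : LB X) (E : Fin n → ℤ),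
      Coh L.F (lc c (cs ℝ E)) ∧ bil G E P = 1 ∧ PrimL μ L ∧ pair μ L.F L.F = 2 * m := by
    intro P h0 hP
    obtain ⟨E, e1, e2⟩ := exists_sq M.eu h0 hP m
    obtain ⟨L, hL⟩ := M.lb E
    obtain ⟨L', hL'⟩ := M.lb P
    refine ⟨L, E, hL, e1, ⟨L', ?_⟩, ?_⟩
    · rw [M.pairL hμ hw hL hL', e1, Int.cast_one]
    · rw [M.pairL hμ hw hL hL, e2]; push_cast; rfl
  refine ⟨?_, fun L₀ L₁ h0 h1 => ?_⟩
  · obtain ⟨P, h0, hP⟩ := exists_iso M.eu
    obtain ⟨L, -, -, -, h⟩ := key P h0 hP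
    exact ⟨L, h⟩
  · obtain ⟨v, hv⟩ := M.cls L₀
    obtain ⟨y, hy⟩ := M.cls L₁
    obtain ⟨P, k, hk, rfl, hP⟩ := exists_prim M.eu.unit (L := v) fun k => h1 (by
      rw [M.pairL hμ hw hy hv, k, bil_zero_right, Int.cast_zero])
    rw [M.pairL hμ hw hv hv, Int.cast_eq_zero, bil_smul_left, bil_smul_right] at h0
    obtain ⟨L, E, hL, e1, h2, h3⟩ := key P (by simpa [hk.ne'] using h0) hP
    refine ⟨L, h2, h3, ?_⟩
    rw [M.pairL hμ hw hL hv, bil_smul_right, e1]
    simpa using hk.ne'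

end Vale.Agent.P247A
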