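import Vale.Agent.P247K.Chain
import Vale.Agent.P247G.Lat

/-!
# P247, stage two: lattice lemmas for the rows LATT and MOVE
-/

set_option linter.all false

open Set Matrix MeasureTheory Filter
open scoped Topology
open Vale.Agent.P290.H726 Vale.Agent.P290Z.Lat

namespace Vale.Agent.P247A.Mov

open Vale.Agent.P247K

variable {ι : Type} [Fintype ι] [DecidableEq ι] {G : Matrix ι ι ℤ} {a : Fin 3 → ι → ℝ}

theorem bil_inv {R : Type} [CommRing R] (hu : IsUnit G.det) (v : ι → R) (j : ι) :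
    bil G v (cs R fun k => G⁻¹ k j) = v j := by
  have h : act G (fun k => G⁻¹ k j) = Pi.single j (1 : ℤ) := by
    funext i
    have := congrFun (congrFun (mul_nonsing_inv G hu) i) j
    rw [mul_apply, one_apply] at this
    rw [Pi.single_apply, ← this]
    simp [act]
  rw [bil_eq, act_cs, h, cs_single, dotProduct_single, Int.cast_one, mul_one]

theorem nondeg (hu : IsUnit G.det) {v : ι → ℝ} (h : ∀ u, bil G v u = 0) : v = 0 :=
  funext fun j => (bil_inv hu v j).symm.trans (h _)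

/-- a vector with integral products is integral -/
theorem int_of_dual (hu : IsUnit G.det) {v : ι → ℝ}
    (h : ∀ u : ι → ℤ, ∃ n : ℤ, bil G v (cs ℝ u) = n) : ∃ r : ι → ℤ, v = cs ℝ r := by
  choose n hn using h
  exact ⟨fun j => n fun k => G⁻¹ k j, funext fun j => (bil_inv hu v j).symm.trans (hn _)⟩

/-- solving `G v = b` -/
theorem exists_dual (hG : ∀ i j, G i j = G j i) (hu : IsUnit G.det) (b : ι → ℝ) :
    ∃ v : ι → ℝ, ∀ u, bil G v u = ∑ i, u i * b i := by
  refine ⟨∑ j, b j • cs ℝ fun k => G⁻¹ k j, fun u => ?_⟩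
  rw [bil_sum_left]
  refine Finset.sum_congr rfl fun j _ => ?_
  rw [bil_smul_left, bil_symm G hG, bil_inv hu, mul_comm]

/-- the complement of countably many proper subspaces is dense -/
theorem dense_avoid {κ : Type} [Countable κ] (W : κ → Submodule ℝ (ι → ℝ)) (h : ∀ k, W k ≠ ⊤) :
    Dense {c | ∀ k, c ∉ W k} :=
  Measure.dense_of_ae (μ := volume) (ae_all_iff.2 fun k => measure_eq_zero_iff_ae_notMem.1
    (Measure.addHaar_submodule volume (W k) (h k)))

/-- the product with a vector -/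
def bL (G : Matrix ι ι ℤ) (v : ι → ℝ) : (ι → ℝ) →ₗ[ℝ] ℝ where
  toFun := bil G v
  map_add' := bil_add_right G v
  map_smul' c u := bil_smul_right G c v u

/-- a frame adapted to a nonnegative vector -/
theorem exists_frame (hG : ∀ i j, G i j = G j i) (hs : Sig G 3) (ha : Pos G a) {E : ι → ℝ}
    (hE : E ≠ 0) (h0 : 0 ≤ bil G E E) : ∃ A : Matrix (Fin 3) (Fin 3) ℝ, A.det ≠ 0 ∧
      bil G E (lc (A 0) a) = 0 ∧ bil G E (lc (A 1) a) = 0 ∧ 0 < bil G E (lc (A 2) a) := by
  set m : Fin 3 → ℝ := fun j => bil G (a j) E with hm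
  have m0 : m ≠ 0 := fun k => (ha.neg hG hs hE fun i => congrFun k i).not_ge h0
  obtain ⟨q, q0, hq⟩ := exists_ne_zero_dotProduct_eq_zero m
  have e : ∀ c, bil G E (lc c a) = c ⬝ᵥ m := fun c => by rw [bil_symm G hG, bil_lc]
  refine ⟨_, det_frame q0 m0 (by rw [dotProduct_comm, hq]), ?_, (e q).trans hq, ?_⟩
  · exact (e (m ⨯₃ q)).trans (by rw [dotProduct_comm, dot_self_cross])
  · refine lt_of_lt_of_eq ?_ (e m).symm
    exact lt_of_le_of_ne (Finset.sum_nonneg fun i _ => mul_self_nonneg _)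
      fun k => m0 (dotProduct_self_eq_zero.1 k.symm)

/-- generic vectors orthogonal to `E` -/
theorem exists_generic (hu : IsUnit G.det) {E x z : ι → ℝ} (hx : bil G E x = 0)
    (hz : bil G E z ≠ 0) {U : Set (ι → ℝ)} (hU : U ∈ 𝓝 x) : ∃ u ∈ U, bil G E u = 0 ∧
      ∀ v : ι → ℤ, bil G (cs ℝ v) u = 0 → ∃ t : ℝ, cs ℝ v = t • E := by
  let P : (ι → ℝ) →ₗ[ℝ] (ι → ℝ) := LinearMap.id - ((bil G E z)⁻¹ • bL G E).smulRight z
  have hP : ∀ u, P u = u - ((bil G E z)⁻¹ * bil G E u) • z := fun _ => rfl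
  have h1 : P ⁻¹' U ∈ 𝓝 x := P.continuous_of_finiteDimensional.continuousAt.preimage_mem_nhds
    (by rwa [hP, hx, mul_zero, zero_smul, sub_zero])
  obtain ⟨u, h2, h3⟩ := (dense_avoid (κ := {v : ι → ℤ // ¬ ∃ t : ℝ, cs ℝ v = t • E})
    (fun v => LinearMap.ker (bL G (cs ℝ v.1) ∘ₗ P)) fun v k => v.2 ⟨(bil G E z)⁻¹ *
      bil G (cs ℝ v.1) z, sub_eq_zero.1 (nondeg hu fun u => by
        have : bil G (cs ℝ v.1) (P u) = 0 := k.ge (Submodule.mem_top (x := u))
        rw [hP, bil_sub_right, bil_smul_right] at this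
        rw [bil_sub_left, bil_smul_left]
        linarith)⟩).inter_nhds_nonempty h1
  refine ⟨P u, h3, ?_, fun v hv => by_contra fun k => h2 ⟨v, k⟩ hv⟩
  rw [hP, bil_sub_right, bil_smul_right, mul_comm (bil G E z)⁻¹, mul_assoc,
    inv_mul_cancel₀ hz, mul_one, sub_self]

/-- every nonzero integral vector is a positive multiple of a primitive vector -/
theorem exists_prim (hu : IsUnit G.det) {L : ι → ℤ} (hL : L ≠ 0) :
    ∃ (E : ι → ℤ) (k : ℕ), 0 < k ∧ L = (k : ℤ) • E ∧ Prim G E := by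
  obtain ⟨i, hi⟩ := Function.ne_iff.1 hL
  obtain ⟨E, h1, h2⟩ := Finset.extract_gcd (s := Finset.univ) L ⟨i, Finset.mem_univ _⟩
  obtain ⟨g, hg⟩ := Finset.gcd_eq_sum_mul Finset.univ E
  have h3 : 0 ≤ Finset.univ.gcd L := by
    rw [← Finset.normalize_gcd, ← Int.abs_eq_normalize]; exact abs_nonneg _
  have h4 : Finset.univ.gcd L ≠ 0 := fun k => hi (by rw [h1 i (Finset.mem_univ _), k]; simp)
  refine ⟨E, (Finset.univ.gcd L).toNat, by omega, funext fun j => ?_,
    ∑ j, g j • fun k => G⁻¹ k j, ?_⟩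
  · rw [Int.toNat_of_nonneg h3]; exact h1 j (Finset.mem_univ _)
  · rw [bil_sum_right, ← h2, hg]
    refine Finset.sum_congr rfl fun j _ => ?_
    rw [bil_smul_right, mul_comm]
    exact congrArg (· * g j) (bil_inv hu E j)

/-- primitive vectors of given square which pair to one with an isotropic primitive vector -/
theorem exists_sq (hG : P247G.IsEU G) {P : ι → ℤ} (h0 : bil G P P = 0) (hP : Prim G P) (m : ℤ) :
    ∃ E : ι → ℤ, bil G E P = 1 ∧ bil G E E = 2 * m := by
  obtain ⟨y, hy⟩ := hP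
  obtain ⟨q, hq⟩ := hG.even y
  refine ⟨y + (m - q) • P, ?_, ?_⟩
  · rw [bil_add_left, bil_smul_left, h0, bil_symm G hG.symm, hy]; ring
  · simp only [bil_add_left, bil_add_right, bil_smul_left, bil_smul_right, h0, hy, hq,
      bil_symm G hG.symm y P]
    ring

theorem exists_iso (hG : P247G.IsEU G) : ∃ P : ι → ℤ, bil G P P = 0 ∧ Prim G P := by
  obtain ⟨n, H, -, -, -, h, -⟩ := hyp comp ι G hG.symm hG.unit hG.indef
  obtain ⟨g, hg⟩ := (h hG.even).2
  refine ⟨act g (Pi.single (.inl 0) 1), ?_, act g (Pi.single (.inl 1) 1), ?_⟩ <;>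
    rw [hg.bil, bil_single] <;> rfl

end Vale.Agent.P247A.Mov
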