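import Vale.Agent.P247A.Ext

/-!
# P247, stage 2: invariant partitions of unity
-/

set_option linter.all false

open scoped ContDiff Topology
open Set Filter Function Metric

noncomputable section

namespace Vale.Agent.P247A

open Cn

theorem Cn.orb_cube {m b : ℕ} (c : Coc m b) {q : Cv m × Rv b} (hq : q.1 ≠ 0) :
    ∃ p ∈ sphere (0 : Cv m) 1 ×ˢ Icc (0 : Rv b) 1, c.Orb p q := by
  set l : Fin b → ℤ := fun i => -⌊q.2 i⌋
  have h1 := act_ne c l hq
  have h2 : ((‖(act c l q).1‖⁻¹ : ℝ) : ℂ) ≠ 0 := by simpa using h1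
  refine ⟨_, ?_, orb_symm (orb_trans (orb_act c l q) (orb_smul c h2 _))⟩
  refine ⟨?_, fun i => ?_, fun i => ?_⟩
  · simp [norm_smul, h1]
  · simp [act, sh, l, Int.floor_le]
  · have := Int.lt_floor_add_one (q.2 i)
    simp only [act, sh, l, Int.cast_neg, Pi.one_apply]; linarith

theorem part : PART_statement := by
  classical
  intro m b c r hr
  have key : ∀ q : Cv m × Rv b, q ∈ sphere (0 : Cv m) 1 ×ˢ Icc (0 : Rv b) 1 →
      ∃ (a : Slc m b) (U : Cv m × Rv b → Cv 0 × Rv 1), a.r ≤ r a.p ∧ Sec c U ∧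
        (∀ q : Cv m × Rv b, q.1 ≠ 0 → DifferentiableAt ℝ U q) ∧ (∀ q, 0 ≤ (U q).2 0) ∧
        (∀ q, q ∉ a.sat c → U q = 0) ∧ 0 < (U q).2 0 := by
    intro q hq
    have h0 : q.1 ≠ 0 := by intro h; simpa [h] using hq.1
    obtain ⟨j, hj⟩ := Function.ne_iff.mp h0
    have hρ : 0 < min (r (nrm j q)) (1 / 2) := lt_min (hr _) (by norm_num)
    set ρ := min (r (nrm j q)) (1 / 2)
    let a : Slc m b := ⟨j, nrm j q, ρ, nrm_one hj, hρ, min_le_right _ _,
      closedBall (nrm j q) (ρ / 2), isCompact_closedBall _ _, closedBall_subset_ball (by linarith)⟩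
    let β : ContDiffBump (nrm j q) := ⟨ρ / 4, ρ / 2, by linarith, by linarith⟩
    obtain ⟨U, h1, h2, h3, h4⟩ := ext m b 0 1 c a (fun q' => (0, fun _ => β q'))
      (fun q' _ => (differentiableAt_const _).prodMk (differentiableAt_pi.mpr fun _ =>
        (β.contDiff (n := 1)).differentiable (by simp) q'))
      (fun q' _ h => by
        have : β q' = 0 := β.zero_of_le_dist (by simpa [a] using (not_le.mp h).le)
        simp [this]; rfl)
    refine ⟨a, U, min_le_left _ _, h1, h2, fun q' => ?_, h4, ?_⟩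
    · by_cases h : q' ∈ a.sat c
      · obtain ⟨p, hp, hp1, ho⟩ := h
        obtain ⟨z, -, hz⟩ := h1.of_orb ho
        rw [hz _ _ U h1, h3 p ⟨a.sub hp, hp1⟩, rho_apply]
        exact mul_nonneg (norm_nonneg z) β.nonneg
      · rw [h4 q' h]; simp
    · obtain ⟨z, hz0, hz⟩ := h1.of_orb (orb_symm (orb_nrm c hj))
      rw [hz _ _ U h1, h3 _ ⟨mem_ball_self hρ, nrm_one hj⟩, rho_apply]
      have : β (nrm j q) = 1 := β.one_of_mem_closedBall (mem_closedBall_self β.rIn_pos.le)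
      change 0 < ‖z‖ * β (nrm j q)
      simpa [this] using hz0
  choose a U ha hU hd hn h0 hp using key
  have hc : IsCompact (sphere (0 : Cv m) 1 ×ˢ Icc (0 : Rv b) 1) :=
    (isCompact_sphere _ _).prod isCompact_Icc
  obtain ⟨t, ht⟩ := hc.elim_nhds_subcover' (fun q hq => {q' | 0 < (U q hq q').2 0}) fun q hq =>
    (isOpen_lt continuous_const ((continuous_apply 0).comp (hU q hq).cont.snd)).mem_nhds (hp q hq)
  set e := t.equivFin.symm
  set V : Fin t.card → Cv m × Rv b → Cv 0 × Rv 1 := fun k => U (e k).1.1 (e k).1.2 with hV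
  have ho : ∀ p q, c.Orb p q → ∃ z : ℂ, z ≠ 0 ∧ ∀ k, (V k q).2 0 = ‖z‖ * (V k p).2 0 := by
    rintro p q ⟨l, z, hz, rfl⟩
    exact ⟨z, hz, fun k => by rw [hV]; simp only; rw [(hU _ _).orb l z p, rho_apply]; rfl⟩
  have hs : ∀ q : Cv m × Rv b, q.1 ≠ 0 → 0 < ∑ k, (V k q).2 0 := by
    intro q hq
    obtain ⟨p, hp', hpq⟩ := orb_cube c hq
    obtain ⟨z, hz, h⟩ := ho p q hpq
    have h1 := ht hp'
    simp only [mem_iUnion] at h1
    obtain ⟨i, hi, h1⟩ := h1
    refine Finset.sum_pos' (fun k _ => hn _ _ q) ⟨e.symm ⟨i, hi⟩, Finset.mem_univ _, ?_⟩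
    rw [h]
    refine mul_pos (norm_pos_iff.mpr hz) ?_
    simpa [hV] using h1
  have hd' : ∀ k (q : Cv m × Rv b), q.1 ≠ 0 → DifferentiableAt ℝ (fun q' => (V k q').2 0) q :=
    fun k q hq => differentiableAt_pi.mp (hd _ _ q hq).snd 0
  refine ⟨t.card, fun k => a (e k).1.1 (e k).1.2, fun k q => (V k q).2 0 / ∑ i, (V i q).2 0,
    fun k => ha _ _, fun k q => div_nonneg (hn _ _ q) (Finset.sum_nonneg fun i _ => hn _ _ q),
    fun k q hq => ?_, fun k q q' h => ?_, fun k q h => ?_, fun q hq => ?_⟩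
  · simp only [div_eq_mul_inv]
    exact (hd' k q hq).mul ((DifferentiableAt.fun_sum (u := Finset.univ)
      fun i _ => hd' i q hq).inv (hs q hq).ne')
  · obtain ⟨z, hz, h1⟩ := ho q q' h
    simp only [h1, ← Finset.mul_sum]
    rw [mul_div_mul_left _ _ (norm_pos_iff.mpr hz).ne']
  · have : V k q = 0 := h0 _ _ q h
    simp [this]
  · rw [← Finset.sum_div, div_self (hs q hq).ne']

end Vale.Agent.P247A
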