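import Vale.Agent.P247A.Trb

/-!
# P247, stage 2, row RED: functional analysis
-/

set_option linter.all false

open scoped ContDiff Topology
open Set Filter Metric Module

noncomputable section

namespace Vale.Agent.P247A.Red

open ContinuousLinearMap (adjoint)

section A

variable {E W : Type} [NormedAddCommGroup E] [InnerProductSpace ℂ E] [CompleteSpace E]
  [NormedAddCommGroup W] [InnerProductSpace ℂ W] [CompleteSpace W]

theorem unit_of_surj {T : E →L[ℂ] W} (h : Function.Surjective T) :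
    IsUnit (T.comp (adjoint T)) := by
  obtain ⟨C, hC, k⟩ := T.exists_preimage_norm_le h
  refine ContinuousLinearMap.isUnit_of_forall_le_norm_inner_map _
    (c := ⟨(C ^ 2)⁻¹, by positivity⟩) (by show (0 : ℝ) < (C ^ 2)⁻¹; positivity) fun w => ?_
  obtain ⟨x, hx, hn⟩ := k w
  have h1 : inner ℂ (T.comp (adjoint T) w) w = inner ℂ (adjoint T w) (adjoint T w) := by
    rw [ContinuousLinearMap.comp_apply, ContinuousLinearMap.adjoint_inner_right]
  have h2 : ‖w‖ ^ 2 ≤ C * ‖w‖ * ‖adjoint T w‖ := by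
    have h3 : inner ℂ w w = inner ℂ (adjoint T w) x := by
      rw [ContinuousLinearMap.adjoint_inner_left, hx]
    have h4 := norm_inner_le_norm (𝕜 := ℂ) (adjoint T w) x
    rw [← h3, inner_self_eq_norm_sq_to_K, norm_pow, RCLike.norm_ofReal, abs_norm] at h4
    nlinarith [norm_nonneg (adjoint T w)]
  rw [h1, inner_self_eq_norm_sq_to_K, norm_pow, RCLike.norm_ofReal, abs_norm]
  show ‖w‖ ^ 2 * (C ^ 2)⁻¹ ≤ _
  rw [mul_inv_le_iff₀ (by positivity)]
  rcases (norm_nonneg w).eq_or_lt with h5 | h5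
  · rw [← h5]; have := sq_nonneg (‖adjoint T w‖ * C); nlinarith
  · have h6 : ‖w‖ ≤ C * ‖adjoint T w‖ := by nlinarith
    nlinarith [norm_nonneg (adjoint T w)]

theorem surj_of_unit {T : E →L[ℂ] W} (h : IsUnit (T.comp (adjoint T))) :
    Function.Surjective T := fun w =>
  ⟨adjoint T (Ring.inverse (T.comp (adjoint T)) w),
    DFunLike.congr_fun (Ring.mul_inverse_cancel _ h) w⟩

theorem adj_smooth : ContDiff ℝ ∞ fun T : E →L[ℂ] W => adjoint T := by
  let a : (E →L[ℂ] W) →ₗ[ℝ] (W →L[ℂ] E) :=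
    { toFun := fun T => adjoint T
      map_add' := fun S T => map_add _ _ _
      map_smul' := fun r T => by
        rw [RingHom.id_apply, ← Complex.coe_smul, map_smulₛₗ, ← Complex.coe_smul]; simp }
  exact (a.mkContinuous 1 fun T => by
    show ‖adjoint T‖ ≤ _
    rw [LinearIsometryEquiv.norm_map, one_mul]).contDiff

theorem comp_smooth {Z A B C : Type} [NormedAddCommGroup Z] [NormedSpace ℝ Z]
    [NormedAddCommGroup A] [NormedSpace ℂ A] [NormedAddCommGroup B] [NormedSpace ℂ B]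
    [NormedAddCommGroup C] [NormedSpace ℂ C] {f : Z → B →L[ℂ] C} {g : Z → A →L[ℂ] B} {z : Z}
    (hf : ContDiffAt ℝ ∞ f z) (hg : ContDiffAt ℝ ∞ g z) :
    ContDiffAt ℝ ∞ (fun z => (f z).comp (g z)) z :=
  (((ContinuousLinearMap.compL ℂ A B C).bilinearRestrictScalars ℝ).isBoundedBilinearMap.contDiff
    ).contDiffAt.comp z (hf.prodMk hg)

theorem app_smooth {Z A B : Type} [NormedAddCommGroup Z] [NormedSpace ℝ Z]
    [NormedAddCommGroup A] [NormedSpace ℂ A] [NormedAddCommGroup B] [NormedSpace ℂ B]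
    {f : Z → A →L[ℂ] B} {g : Z → A} {z : Z} (hf : DifferentiableAt ℝ f z)
    (hg : DifferentiableAt ℝ g z) : DifferentiableAt ℝ (fun z => f z (g z)) z :=
  DifferentiableAt.comp z (g := fun q : (A →L[ℂ] B) × A => q.1 q.2)
    (((ContinuousLinearMap.apply ℂ B).flip.bilinearRestrictScalars ℝ
      ).isBoundedBilinearMap.differentiable _) (hf.prodMk hg)

theorem ev_surj {Z : Type} [TopologicalSpace Z] {T : Z → E →L[ℂ] W} {z : Z}
    (hT : ContinuousAt T z) (h : Function.Surjective (T z)) :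
    ∀ᶠ z in 𝓝 z, Function.Surjective (T z) := by
  have c : ContinuousAt (fun z => (T z).comp (adjoint (T z))) z :=
    hT.clm_comp (adj_smooth.continuous.continuousAt.comp hT)
  filter_upwards [c.eventually (Units.isOpen.mem_nhds (unit_of_surj h))] with z hz
  exact surj_of_unit hz

/-- a smooth frame of the kernels of a smooth family of surjections -/
theorem frame0 {b : ℕ} {T : Rv b → E →L[ℂ] W} (hT : ContDiff ℝ ∞ T)
    (h : ∀ z, Function.Surjective (T z))
    (hf : FiniteDimensional ℂ (LinearMap.ker (T 0 : E →ₗ[ℂ] W))) :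
    ∃ (m : ℕ) (U : Rv b → Cv m →L[ℂ] E) (U' : Rv b → E →L[ℂ] Cv m),
      m = finrank ℂ (LinearMap.ker (T 0 : E →ₗ[ℂ] W)) ∧ ContDiff ℝ ∞ U ∧ ContDiff ℝ ∞ U' ∧
      (∀ z x, U' z (U z x) = x) ∧ (∀ z x, T z (U z x) = 0) ∧
      ∀ z y, T z y = 0 → U z (U' z y) = y := by
  let π : Rv b → E →L[ℂ] E := fun z => 1 - (adjoint (T z)).comp
    ((Ring.inverse ((T z).comp (adjoint (T z)))).comp (T z))
  have p1 : ∀ z y, T z (π z y) = 0 := fun z y => by
    have := DFunLike.congr_fun (Ring.mul_inverse_cancel _ (unit_of_surj (h z))) (T z y)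
    show T z (y - _) = 0
    rw [map_sub, sub_eq_zero]
    exact this.symm
  have p2 : ∀ z y, T z y = 0 → π z y = y := fun z y hy => by
    show y - (adjoint (T z)) (Ring.inverse ((T z).comp (adjoint (T z))) (T z y)) = y
    rw [hy, map_zero, map_zero, sub_zero]
  have p3 : LinearMap.range (π 0 : E →ₗ[ℂ] E) = LinearMap.ker (T 0 : E →ₗ[ℂ] W) := by
    ext y
    exact ⟨by rintro ⟨x, rfl⟩; exact p1 0 x, fun hy => ⟨y, p2 0 y hy⟩⟩
  have sm : ContDiff ℝ ∞ π := by
    refine contDiff_iff_contDiffAt.2 fun z => contDiffAt_const.sub ?_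
    have a : ContDiffAt ℝ ∞ (fun z => adjoint (T z)) z := (adj_smooth.comp hT).contDiffAt
    obtain ⟨u, hu⟩ := unit_of_surj (h z)
    refine comp_smooth a (comp_smooth ?_ hT.contDiffAt)
    exact ContDiffAt.comp z (g := Ring.inverse) (by rw [← hu]; exact contDiffAt_ringInverse ℝ u)
      (comp_smooth hT.contDiffAt a)
  obtain ⟨U, U', h1, h2, h3, h4, h5⟩ := trb b E π sm (fun z y => p2 z _ (p1 z y)) (p3 ▸ hf)
  exact ⟨_, U, U', by rw [p3], h1, h2, h3, fun z x => by rw [← h4]; exact p1 z _,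
    fun z y hy => by rw [h5, p2 z y hy]⟩

end A

section B

variable {V Y W : Type} [NormedAddCommGroup V] [InnerProductSpace ℂ V] [CompleteSpace V]
  [NormedAddCommGroup Y] [InnerProductSpace ℂ Y] [CompleteSpace Y]
  [NormedAddCommGroup W] [InnerProductSpace ℂ W] [CompleteSpace W]

/-- the sum of two operators on the Hilbert product -/
def cop (D : V →L[ℂ] W) (P : Y →L[ℂ] W) : WithLp 2 (V × Y) →L[ℂ] W :=
  D.comp (WithLp.fstL 2 ℂ V Y) + P.comp (WithLp.sndL 2 ℂ V Y)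

theorem cop_surj {D : V →L[ℂ] W} {P : Y →L[ℂ] W} :
    Function.Surjective (cop D P) ↔ ∀ w, ∃ v y, D v + P y = w :=
  ⟨fun h w => by obtain ⟨p, hp⟩ := h w; exact ⟨_, _, hp⟩,
    fun h w => by obtain ⟨v, y, hp⟩ := h w; exact ⟨WithLp.toLp 2 (v, y), hp⟩⟩

theorem ev_cop {Z : Type} [TopologicalSpace Z] {D : Z → V →L[ℂ] W} {P : Z → Y →L[ℂ] W} {z : Z}
    (hD : ContinuousAt D z) (hP : ContinuousAt P z) (h : ∀ w, ∃ v y, D z v + P z y = w) :
    ∀ᶠ z in 𝓝 z, ∀ w, ∃ v y, D z v + P z y = w :=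
  (ev_surj (T := fun z => cop (D z) (P z)) ((hD.clm_comp continuousAt_const).add
    (hP.clm_comp continuousAt_const)) (cop_surj.2 h)).mono fun _ h => cop_surj.1 h

/-- one subspace of finite dimension spans all the cokernels over a compact set -/
theorem exists_cok {Z : Type} [TopologicalSpace Z] {D : Z → V →L[ℂ] W} (hD : Continuous D)
    (h : ∀ z, ∃ F : Submodule ℂ W, FiniteDimensional ℂ F ∧
      LinearMap.range (D z : V →ₗ[ℂ] W) ⊔ F = ⊤) {Q : Set Z} (hQ : IsCompact Q) :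
    ∃ F : Submodule ℂ W, FiniteDimensional ℂ F ∧ ∀ z ∈ Q, ∀ w, ∃ v, ∃ y ∈ F, D z v + y = w := by
  refine hQ.induction_on (p := fun s => ∃ F : Submodule ℂ W, FiniteDimensional ℂ F ∧
    ∀ z ∈ s, ∀ w, ∃ v, ∃ y ∈ F, D z v + y = w) ⟨⊥, inferInstance, by simp⟩
    (fun s t hst ⟨F, hF, k⟩ => ⟨F, hF, fun z hz => k z (hst hz)⟩) ?_ fun z _ => ?_
  · rintro s t ⟨F, hF, k⟩ ⟨F', hF', k'⟩
    refine ⟨F ⊔ F', inferInstance, fun z hz w => ?_⟩
    rcases hz with hz | hz
    · obtain ⟨v, y, hy, e⟩ := k z hz w; exact ⟨v, y, Submodule.mem_sup_left hy, e⟩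
    · obtain ⟨v, y, hy, e⟩ := k' z hz w; exact ⟨v, y, Submodule.mem_sup_right hy, e⟩
  · obtain ⟨F, hF, k⟩ := h z
    have : CompleteSpace F := FiniteDimensional.complete ℂ F
    have := ev_cop (P := fun _ => F.subtypeL) hD.continuousAt continuousAt_const (z := z) fun w => by
      obtain ⟨_, ⟨v, rfl⟩, y, hy, e⟩ := Submodule.mem_sup.1 (k ▸ Submodule.mem_top (x := w))
      exact ⟨v, ⟨y, hy⟩, e⟩
    refine ⟨_, mem_nhdsWithin_of_mem_nhds this, F, hF, fun z hz w => ?_⟩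
    obtain ⟨v, y, e⟩ := hz w
    exact ⟨v, y, y.2, e⟩

theorem cop_index [FiniteDimensional ℂ Y] {D : V →L[ℂ] W} {P : Y →L[ℂ] W}
    (hk : FiniteDimensional ℂ (LinearMap.ker (D : V →ₗ[ℂ] W)))
    (h : ∀ w, ∃ v y, D v + P y = w) :
    FiniteDimensional ℂ (LinearMap.ker (cop D P : WithLp 2 (V × Y) →ₗ[ℂ] W)) ∧
    (finrank ℂ (LinearMap.ker (cop D P : WithLp 2 (V × Y) →ₗ[ℂ] W)) : ℤ) =
      (D : V →ₗ[ℂ] W).index + finrank ℂ Y := by
  let i : V →ₗ[ℂ] WithLp 2 (V × Y) :=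
    (WithLp.linearEquiv 2 ℂ (V × Y)).symm.toLinearMap ∘ₗ LinearMap.inl ℂ V Y
  let s : WithLp 2 (V × Y) →ₗ[ℂ] Y := (WithLp.sndL 2 ℂ V Y : WithLp 2 (V × Y) →ₗ[ℂ] Y)
  have hs : Function.Surjective s := fun y => ⟨WithLp.toLp 2 (0, y), rfl⟩
  have hi : Function.Injective i :=
    (WithLp.linearEquiv 2 ℂ (V × Y)).symm.injective.comp LinearMap.inl_injective
  have r : LinearMap.range i = LinearMap.ker s := by
    ext p
    exact ⟨by rintro ⟨v, rfl⟩; rfl, fun hp => ⟨(WithLp.ofLp p).1, by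
      apply WithLp.ofLp_injective 2
      exact Prod.ext rfl (Eq.symm hp)⟩⟩
  let q : (WithLp 2 (V × Y) ⧸ LinearMap.range i) ≃ₗ[ℂ] Y :=
    (Submodule.quotEquivOfEq _ _ r).trans (s.quotKerEquivOfSurjective hs)
  have e : (D : V →ₗ[ℂ] W) = (cop D P : WithLp 2 (V × Y) →ₗ[ℂ] W) ∘ₗ i := by
    ext v
    show D v = D v + P 0
    rw [map_zero, add_zero]
  have f1 : FiniteDimensional ℂ (LinearMap.ker (cop D P : WithLp 2 (V × Y) →ₗ[ℂ] W)) := by
    let K := LinearMap.ker (cop D P : WithLp 2 (V × Y) →ₗ[ℂ] W)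
    let a : K →ₗ[ℂ] Y := s.domRestrict K
    have : FiniteDimensional ℂ (LinearMap.ker a) := by
      let c : LinearMap.ker a →ₗ[ℂ] LinearMap.ker (D : V →ₗ[ℂ] W) := LinearMap.codRestrict _
        ((WithLp.fstL 2 ℂ V Y : WithLp 2 (V × Y) →ₗ[ℂ] V) ∘ₗ K.subtype ∘ₗ (LinearMap.ker a).subtype)
        fun p => by
          have h1 : D (WithLp.ofLp p.1.1).1 + P (WithLp.ofLp p.1.1).2 = 0 := p.1.2
          have h2 : (WithLp.ofLp p.1.1).2 = 0 := p.2
          rw [h2, map_zero, add_zero] at h1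
          exact h1
      refine FiniteDimensional.of_injective c ((injective_iff_map_eq_zero _).2 fun p hp => ?_)
      refine Subtype.ext (Subtype.ext (WithLp.ofLp_injective 2 (Prod.ext ?_ p.2)))
      exact congrArg Subtype.val hp
    exact Module.Finite.of_exact (f := (LinearMap.ker a).subtype) (g := a.rangeRestrict)
      (by rw [LinearMap.exact_iff, LinearMap.ker_rangeRestrict, Submodule.range_subtype])
      (LinearMap.surjective_rangeRestrict a)
  have := q.symm.finiteDimensional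
  have : FiniteDimensional ℂ (LinearMap.ker i) := by
    rw [LinearMap.ker_eq_bot.2 hi]; infer_instance
  have : FiniteDimensional ℂ (W ⧸ LinearMap.range (cop D P : WithLp 2 (V × Y) →ₗ[ℂ] W)) := by
    rw [LinearMap.range_eq_top.2 (cop_surj.2 h)]; infer_instance
  refine ⟨f1, ?_⟩
  rw [e, LinearMap.index_comp, LinearMap.index_of_injective hi,
    LinearMap.index_of_surjective (cop_surj.2 h), q.finrank_eq]
  ring

/-- a smooth frame of the kernel bundle -/
theorem frame [FiniteDimensional ℂ Y] {b : ℕ} {D : Rv b → V →L[ℂ] W} {P : Rv b → Y →L[ℂ] W}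
    (hD : ContDiff ℝ ∞ D) (hP : ContDiff ℝ ∞ P)
    (hk : FiniteDimensional ℂ (LinearMap.ker (D 0 : V →ₗ[ℂ] W)))
    (h : ∀ z w, ∃ v y, D z v + P z y = w) :
    ∃ (m : ℕ) (U : Rv b → Cv m →L[ℂ] V × Y) (U' : Rv b → V × Y →L[ℂ] Cv m),
      (m : ℤ) = (D 0 : V →ₗ[ℂ] W).index + finrank ℂ Y ∧ ContDiff ℝ ∞ U ∧ ContDiff ℝ ∞ U' ∧
      (∀ z x, U' z (U z x) = x) ∧ (∀ z x, D z (U z x).1 + P z (U z x).2 = 0) ∧
      ∀ z v y, D z v + P z y = 0 → U z (U' z (v, y)) = (v, y) := by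
  obtain ⟨f1, f2⟩ := cop_index hk (h 0)
  obtain ⟨m, U, U', hm, h1, h2, h3, h4, h5⟩ := frame0 (T := fun z => cop (D z) (P z))
    (contDiff_iff_contDiffAt.2 fun z => (comp_smooth hD.contDiffAt contDiffAt_const).add
      (comp_smooth hP.contDiffAt contDiffAt_const)) (fun z => cop_surj.2 (h z)) f1
  let e := WithLp.prodContinuousLinearEquiv 2 ℂ V Y
  refine ⟨m, fun z => (e : WithLp 2 (V × Y) →L[ℂ] V × Y).comp (U z),
    fun z => (U' z).comp (e.symm : V × Y →L[ℂ] WithLp 2 (V × Y)), by rw [hm, f2],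
    contDiff_iff_contDiffAt.2 fun z => comp_smooth contDiffAt_const h1.contDiffAt,
    contDiff_iff_contDiffAt.2 fun z => comp_smooth h2.contDiffAt contDiffAt_const,
    fun z x => h3 z x, fun z x => h4 z x, fun z v y hy => ?_⟩
  exact congrArg e (h5 z (e.symm (v, y)) hy)

end B

end Vale.Agent.P247A.Red
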