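import Vale.Agent.P247A.Red1

/-!
# P247, stage 2, row RED: properness and lower bounds
-/

set_option linter.all false

open scoped ContDiff Topology
open Set Filter Metric Module

noncomputable section

namespace Vale.Agent.P247A.Red

variable {b : ℕ} {V H W : Type} [NormedAddCommGroup V] [InnerProductSpace ℂ V] [CompleteSpace V]
  [NormedAddCommGroup H] [InnerProductSpace ℂ H] [NormedAddCommGroup W] [InnerProductSpace ℂ W]

theorem closedEmb {D : V →L[ℂ] W} {J : V →L[ℂ] H} {C : ℝ}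
    (h : ∀ v, ‖v‖ ≤ C * (‖D v‖ + ‖J v‖)) : Topology.IsClosedEmbedding (D.prod J) := by
  have : AntilipschitzWith (Real.toNNReal (2 * |C|)) (D.prod J) := by
    refine (D.prod J).antilipschitz_of_bound fun v => (h v).trans ?_
    rw [Real.coe_toNNReal _ (by positivity)]
    have h1 : ‖D v‖ ≤ ‖(D.prod J) v‖ := norm_fst_le ((D.prod J) v)
    have h2 : ‖J v‖ ≤ ‖(D.prod J) v‖ := norm_snd_le ((D.prod J) v)
    have h3 := mul_le_mul_of_nonneg_right (le_abs_self C) (add_nonneg (norm_nonneg (D v))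
      (norm_nonneg (J v)))
    nlinarith [abs_nonneg C]
  exact this.isClosedEmbedding (D.prod J).uniformContinuous

theorem prop {D : Rv b → V →L[ℂ] W} (hD : Continuous D) {J : V →L[ℂ] H}
    (hJ : IsCompactOperator J) (est : ∀ h, ∃ C : ℝ, ∀ v, ‖v‖ ≤ C * (‖D h v‖ + ‖J v‖))
    (u : Ultrafilter (V × Rv b)) {R : ℝ} (hR : ∀ᶠ p : V × Rv b in u, ‖p.1‖ ≤ R ∧ ‖p.2‖ ≤ R)
    {w : W} (hw : Tendsto (fun p : V × Rv b => D p.2 p.1) u (𝓝 w)) :
    ∃ p, (u : Filter (V × Rv b)) ≤ 𝓝 p := by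
  obtain ⟨S, hS, hS'⟩ := IsCompactOperator.image_closedBall_subset_compact (f := (J : V →ₗ[ℂ] H))
    hJ R
  obtain ⟨y, -, hy⟩ := hS.ultrafilter_le_nhds (u.map fun p => J p.1) (le_principal_iff.2
    (hR.mono fun p hp => hS' ⟨p.1, mem_closedBall_zero_iff.2 hp.1, rfl⟩))
  obtain ⟨h, -, hh⟩ := (isCompact_closedBall (0 : Rv b) R).ultrafilter_le_nhds (u.map Prod.snd)
    (le_principal_iff.2 (hR.mono fun p hp => mem_closedBall_zero_iff.2 hp.2))
  have hh : Tendsto Prod.snd (u : Filter (V × Rv b)) (𝓝 h) := hh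
  have hy : Tendsto (fun p => J p.1) (u : Filter (V × Rv b)) (𝓝 y) := hy
  obtain ⟨C, hC⟩ := est h
  have t1 : Tendsto (fun p : V × Rv b => D p.2 p.1 - D h p.1) u (𝓝 0) := by
    have t2 : Tendsto (fun p : V × Rv b => ‖D p.2 - D h‖ * R) u (𝓝 0) := by
      have := (((hD.tendsto h).comp hh).sub_const (D h)).norm.mul_const R
      simpa using this
    refine squeeze_zero_norm' (hR.mono fun p hp => ?_) t2
    exact ((D p.2 - D h).le_opNorm p.1).trans (mul_le_mul_of_nonneg_left hp.1 (norm_nonneg _))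
  have t3 : Tendsto (fun p : V × Rv b => ((D h).prod J) p.1) u (𝓝 (w, y)) := by
    refine Tendsto.prodMk_nhds ?_ hy
    simpa using hw.sub t1
  obtain ⟨v, hv⟩ := (closedEmb hC).isClosed_range.mem_of_tendsto t3
    (Eventually.of_forall fun p => ⟨_, rfl⟩)
  rw [← hv] at t3
  exact ⟨(v, h), (((closedEmb hC).isInducing.tendsto_nhds_iff (f := Prod.fst)).2 t3).prodMk_nhds hh⟩

theorem low {D : Rv b → V →L[ℂ] W} (hD : Continuous D) {J : V →L[ℂ] H}
    (hJ : IsCompactOperator J) (est : ∀ h, ∃ C : ℝ, ∀ v, ‖v‖ ≤ C * (‖D h v‖ + ‖J v‖))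
    {Y : Type} [NormedAddCommGroup Y] {A : Set (V × Rv b)} (hA : IsClosed A) {R : ℝ}
    (hR : ∀ p ∈ A, ‖p.1‖ ≤ R ∧ ‖p.2‖ ≤ R) {k : V × Rv b → W × Y} (hk : Continuous k)
    {S : Set (W × Y)} (hS : IsCompact S) (hS' : ∀ p ∈ A, k p ∈ S)
    (h0 : ∀ p ∈ A, (D p.2 p.1 + (k p).1, (k p).2) ≠ 0) :
    ∃ c > 0, ∀ p ∈ A, c ≤ ‖(D p.2 p.1 + (k p).1, (k p).2)‖ := by
  by_contra hc
  push Not at hc
  let f : V × Rv b → W × Y := fun p => (D p.2 p.1 + (k p).1, (k p).2)
  have fc : Continuous f :=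
    (((hD.comp continuous_snd).clm_apply continuous_fst).add hk.fst).prodMk hk.snd
  have ne : (comap f (𝓝 0) ⊓ 𝓟 A).NeBot := by
    rw [inf_principal_neBot_iff]
    rintro U ⟨t, ht, hU⟩
    obtain ⟨ε, hε, h⟩ := Metric.mem_nhds_iff.1 ht
    obtain ⟨p, hp, hp'⟩ := hc ε hε
    exact ⟨p, hU (h (mem_ball_zero_iff.2 hp')), hp⟩
  obtain ⟨u, hu⟩ := Ultrafilter.exists_le (comap f (𝓝 0) ⊓ 𝓟 A)
  have uA : ∀ᶠ p in u, p ∈ A := le_principal_iff.1 (hu.trans inf_le_right)
  have uf : Tendsto f u (𝓝 0) := tendsto_iff_comap.2 (hu.trans inf_le_left)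
  obtain ⟨s, -, hs⟩ := hS.ultrafilter_le_nhds (u.map k) (le_principal_iff.2 (uA.mono hS'))
  have hs : Tendsto k (u : Filter (V × Rv b)) (𝓝 s) := hs
  obtain ⟨p, hp⟩ := prop hD hJ est u (uA.mono hR) (w := 0 - s.1) (by
    simpa [f] using uf.fst_nhds.sub hs.fst_nhds)
  exact h0 p (hA.mem_of_tendsto (f := id) hp uA)
    (tendsto_nhds_unique ((fc.tendsto p).mono_left hp) uf)

theorem ker_fin {D : V →L[ℂ] W} {J : V →L[ℂ] H} (hJ : IsCompactOperator J) {C : ℝ}
    (h : ∀ v, ‖v‖ ≤ C * (‖D v‖ + ‖J v‖)) :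
    FiniteDimensional ℂ (LinearMap.ker (D : V →ₗ[ℂ] W)) := by
  obtain ⟨S, hS, hS'⟩ := IsCompactOperator.image_closedBall_subset_compact (f := (J : V →ₗ[ℂ] H))
    hJ 1
  have c1 := (closedEmb h).isCompact_preimage ((isCompact_singleton (x := (0 : W))).prod hS)
  have c2 := (D.isClosed_ker.isClosedEmbedding_subtypeVal).isCompact_preimage c1
  refine FiniteDimensional.of_isCompact_closedBall₀ ℂ one_pos
    (c2.of_isClosed_subset isClosed_closedBall fun v hv => ⟨v.2, hS' ⟨v.1, ?_, rfl⟩⟩)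
  simpa using hv

/-- the derivative of a compact map is compact -/
theorem cpt_deriv {X Y : Type} [NormedAddCommGroup X] [NormedSpace ℝ X] [NormedAddCommGroup Y]
    [NormedSpace ℝ Y] [CompleteSpace Y] {K : X → Y} {K' : X →L[ℝ] Y} {p : X}
    (h : HasFDerivAt K K' p) {S : Set Y} (hS : IsCompact S) (hK : ∀ q, ‖q‖ ≤ 1 → K (p + q) ∈ S) :
    ∃ S', IsCompact S' ∧ ∀ q, ‖q‖ ≤ 1 → K' q ∈ S' := by
  refine ⟨closure (K' '' closedBall 0 1), TotallyBounded.isCompact_of_isClosed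
    (TotallyBounded.closure ?_) isClosed_closure,
    fun q hq => subset_closure ⟨q, mem_closedBall_zero_iff.2 hq, rfl⟩⟩
  refine Metric.totallyBounded_iff.2 fun ε hε => ?_
  obtain ⟨r, hr, k⟩ := Metric.eventually_nhds_iff.1
    ((hasFDerivAt_iff_isLittleO_nhds_zero.1 h).def (show 0 < ε / 3 by positivity))
  set t := min 1 (r / 2) with ht
  have t0 : 0 < t := by positivity
  obtain ⟨T, hT, hT'⟩ := Metric.totallyBounded_iff.1 (hS.image
    (f := fun s => t⁻¹ • (s - K p)) (by fun_prop)).totallyBounded (ε / 3) (by positivity)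
  refine ⟨T, hT, ?_⟩
  rintro _ ⟨q, hq, rfl⟩
  rw [mem_closedBall_zero_iff] at hq
  have n1 : ‖t • q‖ ≤ t := by
    rw [norm_smul, Real.norm_of_nonneg t0.le]; exact mul_le_of_le_one_right t0.le hq
  obtain ⟨y, hy, hy'⟩ := mem_iUnion₂.1 (hT' ⟨_, hK _ (n1.trans (min_le_left _ _)), rfl⟩)
  refine mem_iUnion₂.2 ⟨y, hy, ?_⟩
  have k1 := k (y := t • q) (by
    rw [dist_zero_right]; exact (n1.trans (min_le_right _ _)).trans_lt (half_lt_self hr))
  have k2 : ‖t⁻¹ • (K (p + t • q) - K p) - K' q‖ ≤ ε / 3 := by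
    have : t⁻¹ • (K (p + t • q) - K p) - K' q = t⁻¹ • (K (p + t • q) - K p - K' (t • q)) := by
      rw [map_smul, smul_sub t⁻¹ _ (t • _), inv_smul_smul₀ t0.ne']
    rw [this, norm_smul, norm_inv, Real.norm_of_nonneg t0.le, inv_mul_le_iff₀ t0]
    nlinarith
  rw [mem_ball, dist_eq_norm] at hy' ⊢
  have := norm_sub_le_norm_sub_add_norm_sub (K' q) (t⁻¹ • (K (p + t • q) - K p)) y
  rw [norm_sub_rev (K' q) (_ • _)] at this
  linarith

/-- a compact set is close to a subspace of finite dimension -/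
theorem near_fin {S : Set W} (hS : IsCompact S) {ε : ℝ} (hε : 0 < ε) : ∃ F : Submodule ℂ W,
    FiniteDimensional ℂ F ∧ ∀ s ∈ S, ∃ v ∈ F, ‖s - v‖ ≤ ε := by
  obtain ⟨t, -, t2, t3⟩ := finite_cover_balls_of_compact hS hε
  refine ⟨Submodule.span ℂ t, FiniteDimensional.span_of_finite ℂ t2, fun s hs => ?_⟩
  obtain ⟨v, hv, h⟩ := mem_iUnion₂.1 (t3 hs)
  exact ⟨v, Submodule.subset_span hv, (mem_ball_iff_norm.1 h).le⟩

/-! ## bump functions on the torus -/

theorem sh_zero (h : Rv b) : sh h 0 = h := by funext i; simp [sh]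

theorem sh_sh (h : Rv b) (l l' : Fin b → ℤ) : sh (sh h l') l = sh h (l + l') := by
  funext i; simp [sh]; ring

/-- the centres -/
def ctr (a : Fin b → Bool) : Rv b := fun i => if a i then 1 / 2 else 0

/-- the nearest lattice vector -/
def lo (a : Fin b → Bool) (h : Rv b) : Fin b → ℤ := fun i => round (h i - ctr a i)

theorem lo_sh (a : Fin b → Bool) (h : Rv b) (l : Fin b → ℤ) : lo a (sh h l) = l + lo a h := by
  funext i
  simp only [lo, sh, Pi.add_apply]
  rw [show h i + l i - ctr a i = h i - ctr a i + l i by ring, round_add_intCast, add_comm]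

theorem lo_near (a : Fin b → Bool) (h : Rv b) : ‖sh h (-lo a h)‖ ≤ 1 := by
  refine (pi_norm_le_iff_of_nonneg zero_le_one).2 fun i => ?_
  have h1 := abs_sub_round (h i - ctr a i)
  have h2 : |ctr a i| ≤ 1 / 2 := by unfold ctr; split_ifs <;> norm_num [abs_of_pos]
  have : sh h (-lo a h) i = (h i - ctr a i - round (h i - ctr a i)) + ctr a i := by
    simp [sh, lo]; ring
  rw [this, Real.norm_eq_abs]
  exact (abs_add_le _ _).trans (by linarith)

theorem lo_fin (R : ℝ) : ∃ Λ : Set (Fin b → ℤ), Λ.Finite ∧ ∀ a h, ‖h‖ ≤ R → lo a h ∈ Λ := by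
  refine ⟨Set.pi univ fun _ => Icc (-(⌈R⌉ + 1)) (⌈R⌉ + 1),
    Set.Finite.pi fun _ => finite_Icc _ _, fun a h hh i _ => ?_⟩
  have h1 := (norm_le_pi_norm _ i).trans (lo_near a h)
  have h2 := (norm_le_pi_norm _ i).trans hh
  have h3 := Int.le_ceil R
  simp only [sh, Pi.neg_apply, Int.cast_neg, Real.norm_eq_abs, abs_le] at h1 h2
  constructor
  · exact_mod_cast (show (-((⌈R⌉ : ℝ) + 1)) ≤ lo a h i by linarith)
  · exact_mod_cast (show (lo a h i : ℝ) ≤ (⌈R⌉ : ℝ) + 1 by linarith)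

/-- the bump -/
def bump (b : ℕ) : ContDiffBump (0 : Rv b) := ⟨1 / 4, 3 / 8, by norm_num, by norm_num⟩

/-- the periodic bump -/
def tb (a : Fin b → Bool) (h : Rv b) : ℝ := bump b (sh h (-lo a h) - ctr a)

theorem tb_sh (a : Fin b → Bool) (h : Rv b) (l : Fin b → ℤ) : tb a (sh h l) = tb a h := by
  rw [tb, tb, lo_sh, sh_sh]
  congr 3
  abel

theorem tb_pos (h : Rv b) : ∃ a, tb a h = 1 := by
  refine ⟨fun i => decide (1 / 4 < |h i - round (h i)|), (bump b).one_of_mem_closedBall ?_⟩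
  rw [mem_closedBall_zero_iff]
  refine (pi_norm_le_iff_of_nonneg (by norm_num [bump])).2 fun i => ?_
  show |_| ≤ (1 / 4 : ℝ)
  simp only [Pi.sub_apply, sh, lo, ctr, Pi.neg_apply, Int.cast_neg, decide_eq_true_eq]
  split_ifs with hi
  · have h1 := abs_sub_round (h i)
    rw [show h i + -(round (h i - 1 / 2) : ℝ) - 1 / 2 = h i - 1 / 2 - round (h i - 1 / 2) by ring]
    rcases le_total 0 (h i - round (h i)) with h2 | h2
    · rw [abs_of_nonneg h2] at hi h1
      refine (round_le _ (round (h i))).trans (abs_le.2 ⟨by linarith, by linarith⟩)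
    · rw [abs_of_nonpos h2] at hi h1
      refine (round_le _ (round (h i) - 1)).trans (abs_le.2 ⟨?_, ?_⟩) <;> push_cast <;> linarith
  · simpa [sub_eq_add_neg] using hi

theorem tb_smooth {Y : Type} [NormedAddCommGroup Y] [NormedSpace ℝ Y] (a : Fin b → Bool)
    (u : (Fin b → ℤ) → Y) : ContDiff ℝ ∞ fun h => tb a h • u (lo a h) := by
  refine contDiff_iff_contDiffAt.2 fun h₀ => ?_
  by_cases hc : ∀ i, |h₀ i - ctr a i - lo a h₀ i| < 1 / 2
  · have e : ∀ᶠ h in 𝓝 h₀, lo a h = lo a h₀ := by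
      have : ∀ᶠ h : Rv b in 𝓝 h₀, ∀ i, |h i - ctr a i - lo a h₀ i| < 1 / 2 :=
        eventually_all.2 fun i => ContinuousAt.eventually_lt
          (((continuous_apply i).sub continuous_const).sub continuous_const).abs.continuousAt
          continuousAt_const (hc i)
      filter_upwards [this] with h hh
      funext i
      have := abs_lt.1 (hh i)
      exact round_eq_iff.2 ⟨by linarith, by linarith⟩
    have s : ContDiff ℝ ∞ fun h : Rv b => bump b (sh h (-lo a h₀) - ctr a) • u (lo a h₀) := by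
      refine ((bump b).contDiff.comp (ContDiff.sub ?_ contDiff_const)).smul contDiff_const
      exact contDiff_pi.2 fun i => (contDiff_apply ℝ ℝ i).add contDiff_const
    refine s.contDiffAt.congr_of_eventuallyEq (e.mono fun h hh => ?_)
    simp only [tb, hh]
  · push Not at hc
    obtain ⟨i, hi⟩ := hc
    have : ∀ᶠ h : Rv b in 𝓝 h₀, |h i - h₀ i| < 1 / 8 :=
      ContinuousAt.eventually_lt ((continuous_apply i).sub continuous_const).abs.continuousAt
        continuousAt_const (by simp)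
    refine (contDiffAt_const (c := (0 : Y))).congr_of_eventuallyEq (this.mono fun h hh => ?_)
    have h1 := hi.trans (round_le (h₀ i - ctr a i) (lo a h i))
    have h2 : tb a h = 0 := by
      refine (bump b).zero_of_le_dist ?_
      rw [dist_zero_right]
      refine le_trans ?_ (norm_le_pi_norm _ i)
      show (3 / 8 : ℝ) ≤ |h i + ((-lo a h i : ℤ) : ℝ) - ctr a i|
      have := abs_add_le (h i + ((-lo a h i : ℤ) : ℝ) - ctr a i) (-(h i - h₀ i))
      rw [abs_neg, show h i + ((-lo a h i : ℤ) : ℝ) - ctr a i + -(h i - h₀ i) =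
        h₀ i - ctr a i - lo a h i by push_cast; ring] at this
      linarith
    simp only [h2, zero_smul]

theorem tb_smooth' (a : Fin b → Bool) : ContDiff ℝ ∞ (tb a) := by
  simpa using tb_smooth a fun _ => (1 : ℝ)

end Vale.Agent.P247A.Red
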