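import Vale.Agent.P247A.Red2

/-!
# P247, stage 2, row RED: equivariant approximations of finite rank
-/

set_option linter.all false

open scoped ContDiff Topology
open Set Filter Metric Module

noncomputable section

namespace Vale.Agent.P247A.Red

abbrev Ev (N : ℕ) : Type := EuclideanSpace ℂ (Fin N)

variable {b : ℕ} {V H W : Type} [NormedAddCommGroup V] [InnerProductSpace ℂ V]
  [NormedAddCommGroup H] [InnerProductSpace ℂ H] [NormedAddCommGroup W] [InnerProductSpace ℂ W]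

/-- equivariant families of finite rank -/
structure Apx (F : Fam b V H W) (N : ℕ) where
  P : Rv b → Ev N →L[ℂ] W
  S : Rv b → W →L[ℂ] Ev N
  P_sm : ContDiff ℝ ∞ P
  S_sm : ContDiff ℝ ∞ S
  P_g : ∀ l h y, P (sh h l) y = F.gW l (P h y)
  S_g : ∀ l h w, S (sh h l) (F.gW l w) = S h w
  surj : ∀ h w, ∃ v y, F.D h v + P h y = w

theorem gW_neg (F : Fam b V H W) (l : Fin b → ℤ) (w : W) : F.gW l (F.gW (-l) w) = w := by
  rw [← F.gW_add, add_neg_cancel, F.gW_zero]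

theorem gW_neg' (F : Fam b V H W) (l : Fin b → ℤ) (w : W) : F.gW (-l) (F.gW l w) = w := by
  rw [← F.gW_add, neg_add_cancel, F.gW_zero]

theorem gV_neg (F : Fam b V H W) (l : Fin b → ℤ) (w : V) : F.gV l (F.gV (-l) w) = w := by
  rw [← F.gV_add, add_neg_cancel, F.gV_zero]

theorem sh_neg (h : Rv b) (l : Fin b → ℤ) : sh (sh h (-l)) l = h := by
  rw [sh_sh, add_neg_cancel, sh_zero]

/-- the normalisation -/
def rho (h : Rv b) : ℝ := ∑ a, tb a h ^ 2

theorem rho_pos (h : Rv b) : 0 < rho h := by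
  obtain ⟨a, ha⟩ := tb_pos h
  exact Finset.sum_pos' (fun _ _ => sq_nonneg _) ⟨a, Finset.mem_univ _, by rw [ha]; norm_num⟩

theorem rho_smooth : ContDiff ℝ ∞ (rho : Rv b → ℝ) :=
  ContDiff.sum fun a _ => (tb_smooth' a).pow 2

theorem rho_sh (h : Rv b) (l : Fin b → ℤ) : rho (sh h l) = rho h := by simp only [rho, tb_sh]

section

variable (F : Fam b V H W) (F₀ : Submodule ℂ W) [FiniteDimensional ℂ F₀]

def P0 (h : Rv b) : ((Fin b → Bool) → F₀) →L[ℂ] W :=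
  ∑ a, (tb a h • F.gW (lo a h)).comp (F₀.subtypeL.comp (ContinuousLinearMap.proj a))

def S0 (h : Rv b) : W →L[ℂ] ((Fin b → Bool) → F₀) :=
  ∑ a, (ContinuousLinearMap.single ℂ (fun _ => F₀) a).comp
    (F₀.orthogonalProjectionOnto.comp ((rho h)⁻¹ • tb a h • F.gW (-lo a h)))

theorem P0_apply (h : Rv b) (y : (Fin b → Bool) → F₀) :
    P0 F F₀ h y = ∑ a, tb a h • F.gW (lo a h) (y a) := by simp [P0]

theorem S0_apply (h : Rv b) (w : W) (a : Fin b → Bool) :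
    (S0 F F₀ h w a : W) = F₀.starProjection ((rho h)⁻¹ • tb a h • F.gW (-lo a h) w) := by
  simp only [S0, ContinuousLinearMap.sum_apply, Finset.sum_apply, ContinuousLinearMap.comp_apply,
    ContinuousLinearMap.single_apply]
  rw [Finset.sum_eq_single a (fun c _ hc => Pi.single_eq_of_ne hc.symm _) (by simp),
    Pi.single_eq_same]
  rfl

theorem P0_sm : ContDiff ℝ ∞ (P0 F F₀) :=
  ContDiff.sum fun a _ => contDiff_iff_contDiffAt.2 fun _ =>
    comp_smooth (tb_smooth a F.gW).contDiffAt contDiffAt_const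

theorem S0_sm : ContDiff ℝ ∞ (S0 F F₀) :=
  ContDiff.sum fun a _ => contDiff_iff_contDiffAt.2 fun _ =>
    comp_smooth contDiffAt_const (comp_smooth contDiffAt_const
      ((rho_smooth.inv fun h => (rho_pos h).ne').smul
        (tb_smooth a fun l => F.gW (-l))).contDiffAt)

theorem err_le (h : Rv b) (s : W) {B : ℝ}
    (hB : ∀ a, ‖F.gW (-lo a h) s - F₀.starProjection (F.gW (-lo a h) s)‖ ≤ B) :
    ‖s - P0 F F₀ h (S0 F F₀ h s)‖ ≤ B := by
  have h1 : ∑ a, (rho h)⁻¹ * tb a h ^ 2 = 1 := by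
    rw [← Finset.mul_sum]; exact inv_mul_cancel₀ (rho_pos h).ne'
  have h2 : s - P0 F F₀ h (S0 F F₀ h s) = ∑ a, ((rho h)⁻¹ * tb a h ^ 2) • F.gW (lo a h)
      (F.gW (-lo a h) s - F₀.starProjection (F.gW (-lo a h) s)) := by
    simp only [P0_apply, S0_apply, map_sub, smul_sub, Finset.sum_sub_distrib, gW_neg]
    rw [← Finset.sum_smul, h1, one_smul]
    congr 1
    refine Finset.sum_congr rfl fun a _ => ?_
    simp only [ContinuousLinearMap.map_smul_of_tower, smul_smul]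
    congr 1
    ring
  rw [h2]
  refine (norm_sum_le _ _).trans ?_
  rw [← one_mul B, ← h1, Finset.sum_mul]
  refine Finset.sum_le_sum fun a _ => ?_
  have h3 : 0 ≤ (rho h)⁻¹ * tb a h ^ 2 := mul_nonneg (inv_pos.2 (rho_pos h)).le (sq_nonneg _)
  rw [norm_smul, F.gW_norm, Real.norm_of_nonneg h3]
  exact mul_le_mul_of_nonneg_left (hB a) h3

theorem proj_le (s : W) {v : W} (hv : v ∈ F₀) : ‖s - F₀.starProjection s‖ ≤ ‖s - v‖ := by
  rw [Submodule.starProjection_minimal]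
  exact ciInf_le (f := fun x : F₀ => ‖s - x‖) ⟨0, by rintro _ ⟨x, rfl⟩; positivity⟩ ⟨v, hv⟩

end

theorem apx [CompleteSpace V] [CompleteSpace W] (F : Fam b V H W) (R : ℝ) {K : Set W}
    (hK : IsCompact K) (s₀ : W) {ε : ℝ} (hε : 0 < ε) :
    ∃ (N : ℕ) (a : Apx F N) (G : Submodule ℂ W), FiniteDimensional ℂ G ∧ ∀ h, ‖h‖ ≤ R →
      (∀ s, ‖s - a.P h (a.S h s)‖ ≤ ‖s‖) ∧ (∀ s ∈ K, ‖s - a.P h (a.S h s)‖ ≤ ε) ∧
      a.P h (a.S h s₀) = s₀ ∧ ∀ y, a.P h y ∈ G := by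
  obtain ⟨Λ, hΛ, kΛ⟩ := lo_fin (b := b) R
  obtain ⟨F₁, _, k₁⟩ := exists_cok F.smooth.continuous F.cok (isCompact_closedBall 0 1)
  obtain ⟨F₂, _, k₂⟩ := near_fin (hΛ.isCompact_biUnion fun l _ =>
    hK.image (F.gW (-l)).continuous) hε
  let F₃ := Submodule.span ℂ ((fun l => F.gW (-l) s₀) '' Λ)
  have : FiniteDimensional ℂ F₃ := FiniteDimensional.span_of_finite ℂ (hΛ.image _)
  let F₀ := F₁ ⊔ (F₂ ⊔ F₃)
  let e : ((Fin b → Bool) → F₀) ≃L[ℂ] Ev (finrank ℂ ((Fin b → Bool) → F₀)) :=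
    ContinuousLinearEquiv.ofFinrankEq (by simp)
  have := hΛ.to_subtype
  refine ⟨_, ⟨fun h => (P0 F F₀ h).comp e.symm.toContinuousLinearMap,
    fun h => e.toContinuousLinearMap.comp (S0 F F₀ h),
    contDiff_iff_contDiffAt.2 fun _ => comp_smooth (P0_sm F F₀).contDiffAt contDiffAt_const,
    contDiff_iff_contDiffAt.2 fun _ => comp_smooth contDiffAt_const (S0_sm F F₀).contDiffAt,
    fun l h y => ?_, fun l h w => congrArg e (funext fun a => Subtype.ext ?_), fun h w => ?_⟩,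
    ⨆ l : Λ, F₀.map (F.gW l : W →ₗ[ℂ] W), inferInstance, fun h hh => ?_⟩
  · show P0 F F₀ _ _ = F.gW l (P0 F F₀ _ _)
    simp only [P0_apply, map_sum, ContinuousLinearMap.map_smul_of_tower, tb_sh, lo_sh, F.gW_add]
  · show (S0 F F₀ (sh h l) (F.gW l w) a : W) = S0 F F₀ h w a
    rw [S0_apply, S0_apply, rho_sh, tb_sh, lo_sh, ← F.gW_add]
    congr 5
    abel
  · obtain ⟨a, ha⟩ := tb_pos h
    obtain ⟨v, y, hy, k⟩ := k₁ _ (mem_closedBall_zero_iff.2 (lo_near a h)) (F.gW (-lo a h) w)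
    refine ⟨F.gV (lo a h) v, e (Pi.single a ⟨y, Submodule.mem_sup_left hy⟩), ?_⟩
    have h1 := F.D_g (lo a h) (sh h (-lo a h)) v
    rw [sh_neg] at h1
    show _ + P0 F F₀ h (e.symm (e _)) = w
    rw [e.symm_apply_apply, P0_apply, Finset.sum_eq_single a (fun c _ hc => by
      rw [Pi.single_eq_of_ne hc]; simp) (by simp), Pi.single_eq_same, ha, one_smul, h1,
      ← map_add, k, gW_neg]
  · have h1 : ∀ s, (P0 F F₀ h).comp e.symm.toContinuousLinearMap
        (e.toContinuousLinearMap.comp (S0 F F₀ h) s) = P0 F F₀ h (S0 F F₀ h s) := fun s =>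
      congrArg (P0 F F₀ h) (e.symm_apply_apply _)
    simp only [h1]
    refine ⟨fun s => err_le F F₀ h s fun a => ?_, fun s hs => err_le F F₀ h s fun a => ?_,
      (sub_eq_zero.1 (norm_le_zero_iff.1 (err_le F F₀ h s₀ fun a => ?_))).symm, fun y => ?_⟩
    · simpa [F.gW_norm] using proj_le F₀ (F.gW (-lo a h) s) F₀.zero_mem
    · obtain ⟨v, hv, k⟩ := k₂ _ (mem_biUnion (kΛ a h hh) ⟨s, hs, rfl⟩)
      exact (proj_le F₀ _ (Submodule.mem_sup_right (Submodule.mem_sup_left hv))).trans k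
    · simpa using proj_le F₀ (F.gW (-lo a h) s₀) (v := F.gW (-lo a h) s₀) (Submodule.mem_sup_right
        (Submodule.mem_sup_right (Submodule.subset_span ⟨_, kΛ a h hh, rfl⟩)))
    · show P0 F F₀ h _ ∈ _
      rw [P0_apply]
      refine Submodule.sum_mem _ fun a _ => Submodule.smul_of_tower_mem _ _ ?_
      exact Submodule.mem_iSup_of_mem ⟨_, kΛ a h hh⟩ ⟨_, Subtype.prop _, rfl⟩

/-- the kernel bundle -/
structure Ker {F : Fam b V H W} {N : ℕ} (a : Apx F N) (m : ℕ) where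
  c : Coc m b
  U : Rv b → Cv m →L[ℂ] V × Ev N
  U' : Rv b → V × Ev N →L[ℂ] Cv m
  U_sm : ContDiff ℝ ∞ U
  U'_sm : ContDiff ℝ ∞ U'
  dim : (m : ℤ) = (F.D 0 : V →ₗ[ℂ] W).index + N
  inv : ∀ h x, U' h (U h x) = x
  mem : ∀ h x, F.D h (U h x).1 + a.P h (U h x).2 = 0
  onto : ∀ h v y, F.D h v + a.P h y = 0 → U h (U' h (v, y)) = (v, y)
  U_g : ∀ l h x, U (sh h l) (c.T l h x) = (F.gV l (U h x).1, (U h x).2)

theorem sh_smooth (l : Fin b → ℤ) : ContDiff ℝ ∞ fun h : Rv b => sh h l :=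
  contDiff_pi.2 fun i => (contDiff_apply ℝ ℝ i).add contDiff_const

theorem exists_ker [CompleteSpace V] [CompleteSpace W] {F : Fam b V H W} {N : ℕ} (a : Apx F N) :
    ∃ m, Nonempty (Ker a m) := by
  obtain ⟨C, hC⟩ := F.est 0
  obtain ⟨m, U, U', h0, h1, h2, h3, h4, h5⟩ := frame F.smooth a.P_sm (ker_fin F.J_cpt hC) a.surj
  have k : ∀ l h x, U (sh h l) (U' (sh h l) (F.gV l (U h x).1, (U h x).2)) =
      (F.gV l (U h x).1, (U h x).2) := fun l h x => h5 _ _ _ (by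
    rw [F.D_g, a.P_g, ← map_add, h4, map_zero])
  refine ⟨m, ⟨⟨fun l h => (U' (sh h l)).comp (((F.gV l).prodMap
    (ContinuousLinearMap.id ℂ (Ev N))).comp (U h)), fun l => contDiff_iff_contDiffAt.2 fun _ =>
      comp_smooth (h2.comp (sh_smooth l)).contDiffAt (comp_smooth contDiffAt_const h1.contDiffAt),
      fun h x => ?_, fun l l' h x => ?_⟩, U, U', h1, h2, by simpa using h0, h3, h4, h5, k⟩⟩
  · show U' (sh h 0) (F.gV 0 (U h x).1, (U h x).2) = x
    rw [sh_zero, F.gV_zero]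
    exact h3 h x
  · show U' (sh h (l + l')) (F.gV (l + l') (U h x).1, (U h x).2) = U' (sh (sh h l') l)
      (F.gV l (U (sh h l') (U' (sh h l') (F.gV l' (U h x).1, (U h x).2))).1,
        (U (sh h l') (U' (sh h l') (F.gV l' (U h x).1, (U h x).2))).2)
    rw [k, sh_sh, F.gV_add]

/-- the section of finite dimension -/
def Ker.G {F : Fam b V H W} {N m : ℕ} {a : Apx F N} (k : Ker a m) {p n M : ℕ}
    (K : V × Rv b → W × Cv p × Rv n) (e : (Ev N × Cv p) ≃L[ℂ] Cv M) (q : Cv m × Rv b) :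
    Cv M × Rv n :=
  (e ((k.U q.2 q.1).2 - a.S q.2 (K ((k.U q.2 q.1).1, q.2)).1, (K ((k.U q.2 q.1).1, q.2)).2.1),
    (K ((k.U q.2 q.1).1, q.2)).2.2)

theorem Ker.sec {F : Fam b V H W} {N m : ℕ} {a : Apx F N} (k : Ker a m) {p n M : ℕ}
    {K : V × Rv b → W × Cv p × Rv n} (hK : KMap F K) (e : (Ev N × Cv p) ≃L[ℂ] Cv M) :
    Sec k.c (k.G K e) := by
  refine ⟨?_, fun z x h => ?_, fun l x h => ?_⟩
  · have c1 : Continuous fun q : Cv m × Rv b => k.U q.2 q.1 :=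
      (k.U_sm.continuous.comp continuous_snd).clm_apply continuous_fst
    have c2 := hK.cont.comp (c1.fst.prodMk continuous_snd)
    exact (e.continuous.comp ((c1.snd.sub ((a.S_sm.continuous.comp continuous_snd).clm_apply
      c2.fst)).prodMk c2.snd.fst)).prodMk c2.snd.snd
  · simp only [Ker.G, map_smul, Prod.smul_fst, Prod.smul_snd, hK.hom]
    rw [← smul_sub, ← map_smul, Prod.smul_mk]
  · simp only [Ker.G, k.U_g, hK.inv, a.S_g]

theorem Ker.G_zero {F : Fam b V H W} {N m : ℕ} {a : Apx F N} (k : Ker a m) {p n M : ℕ}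
    {K : V × Rv b → W × Cv p × Rv n} (e : (Ev N × Cv p) ≃L[ℂ] Cv M) {x : Cv m} {h : Rv b} :
    k.G K e (x, h) = 0 ↔ (k.U h x).2 = a.S h (K ((k.U h x).1, h)).1 ∧
      (K ((k.U h x).1, h)).2 = 0 := by
  simp only [Ker.G, Prod.ext_iff, Prod.fst_zero, Prod.snd_zero, map_eq_zero_iff _ e.injective,
    sub_eq_zero, and_assoc]

theorem K_zero {F : Fam b V H W} {p n : ℕ} {K : V × Rv b → W × Cv p × Rv n} (hK : KMap F K)
    (h : Rv b) : K (0, h) = 0 := by
  have := hK.hom 0 0 h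
  simp only [zero_smul, norm_zero] at this
  exact this

theorem Ker.ne {F : Fam b V H W} {N m : ℕ} {a : Apx F N} (k : Ker a m) {p n M : ℕ}
    {K : V × Rv b → W × Cv p × Rv n} (hK : KMap F K) (e : (Ev N × Cv p) ≃L[ℂ] Cv M) {x : Cv m}
    {h : Rv b} (hx : x ≠ 0) (h0 : k.G K e (x, h) = 0) : (k.U h x).1 ≠ 0 := fun h1 => by
  have h2 := ((k.G_zero e).1 h0).1
  rw [h1, K_zero hK, Prod.fst_zero, map_zero] at h2
  exact hx (by rw [← k.inv h x, show k.U h x = 0 from Prod.ext h1 h2, map_zero])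

theorem exists_lat (h h₀ : Rv b) : ∃ l, ‖sh h (-l) - h₀‖ ≤ 1 / 2 := by
  refine ⟨fun i => round (h i - h₀ i), (pi_norm_le_iff_of_nonneg (by norm_num)).2 fun i => ?_⟩
  have := abs_sub_round (h i - h₀ i)
  rw [Real.norm_eq_abs]
  refine le_trans (le_of_eq (congrArg _ ?_)) this
  simp [sh]
  ring

end Vale.Agent.P247A.Red
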