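import Vale.Agent.P247A.Red3

/-!
# P247, stage 2, row RED: `FBA` from `FDA`
-/

set_option linter.all false

open scoped ContDiff Topology
open Set Filter Metric Module Asymptotics

noncomputable section

namespace Vale.Agent.P247A.Red

theorem nd {X Z Z' : Type} [NormedAddCommGroup X] [NormedSpace ℝ X] [NormedAddCommGroup Z]
    [NormedSpace ℝ Z] [NormedAddCommGroup Z'] [NormedSpace ℝ Z'] {G : X → Z} {L : X →L[ℝ] Z}
    {p q : X} (hG : HasFDerivAt G L p) (h0 : G p = 0) (hq : L q = 0) {N : X → Z'}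
    (hN : N =O[𝓝 p] G) {w : Z'} (hw : ∀ t : ℝ, N (p + t • q) = t • w) : w = 0 := by
  have l1 : HasDerivAt (fun t : ℝ => p + t • q) q 0 := by
    simpa using ((hasDerivAt_id (0 : ℝ)).smul_const q).const_add p
  have l2 : HasDerivAt (fun t : ℝ => G (p + t • q)) 0 0 := by
    have := HasFDerivAt.comp_hasDerivAt_of_eq (hl := hG) (hf := l1)
      (hy := by rw [zero_smul, add_zero])
    rwa [hq] at this
  have l3 : Tendsto (fun t : ℝ => p + t • q) (𝓝 0) (𝓝 p) := by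
    simpa using l1.continuousAt.tendsto
  have l4 : (fun t : ℝ => t • w) =o[𝓝 0] fun t => t := by
    have h1 := hasDerivAt_iff_isLittleO_nhds_zero.1 l2
    simp only [zero_add, zero_smul, add_zero, h0, smul_zero, sub_zero] at h1
    simpa only [Function.comp_def, hw] using (hN.comp_tendsto l3).trans_isLittleO h1
  have l5 : HasDerivAt (fun t : ℝ => t • w) 0 0 :=
    hasDerivAt_iff_isLittleO_nhds_zero.2 (by simpa using l4)
  have l6 : HasDerivAt (fun t : ℝ => t • w) w 0 := by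
    simpa using (hasDerivAt_id (0 : ℝ)).smul_const w
  exact l6.unique l5

variable {b : ℕ} {V H W : Type} [NormedAddCommGroup V] [InnerProductSpace ℂ V]
  [NormedAddCommGroup H] [InnerProductSpace ℂ H] [NormedAddCommGroup W] [InnerProductSpace ℂ W]
  {F : Fam b V H W} {p n : ℕ} {K : V × Rv b → W × Cv p × Rv n}

/-- the approximate map -/
def Apx.tot {N : ℕ} (a : Apx F N) (K : V × Rv b → W × Cv p × Rv n) (q : V × Rv b) :
    W × Cv p × Rv n := (F.D q.2 q.1 + a.P q.2 (a.S q.2 (K q).1), (K q).2)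

theorem Apx.tot_hom {N : ℕ} (a : Apx F N) (hK : KMap F K) (z : ℂ) (v : V) (h : Rv b) :
    ‖a.tot K (z • v, h)‖ = ‖z‖ * ‖a.tot K (v, h)‖ := by
  simp only [Apx.tot, hK.hom, map_smul, ← smul_add, Prod.norm_def, norm_smul, norm_norm]
  rw [mul_max_of_nonneg _ _ (norm_nonneg z), mul_max_of_nonneg _ _ (norm_nonneg z)]

theorem Apx.tot_inv {N : ℕ} (a : Apx F N) (hK : KMap F K) (l : Fin b → ℤ) (v : V) (h : Rv b) :
    ‖a.tot K (F.gV l v, sh h l)‖ = ‖a.tot K (v, h)‖ := by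
  simp only [Apx.tot, hK.inv, F.D_g, a.S_g, a.P_g, ← map_add, Prod.norm_def, F.gW_norm]

theorem Apx.tot_sub {N : ℕ} (a : Apx F N) (q : V × Rv b) :
    ‖F.tot K q - a.tot K q‖ = ‖(K q).1 - a.P q.2 (a.S q.2 (K q).1)‖ := by
  simp [Fam.tot, Apx.tot, Prod.norm_def]

theorem Ker.tot_eq {N m : ℕ} {a : Apx F N} (k : Ker a m) {M : ℕ}
    (e : (Ev N × Cv p) ≃L[ℂ] Cv M) (x : Cv m) (h : Rv b) : a.tot K ((k.U h x).1, h) =
      (-a.P h (e.symm (k.G K e (x, h)).1).1, (e.symm (k.G K e (x, h)).1).2,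
        (k.G K e (x, h)).2) := by
  simp only [Ker.G, Apx.tot, e.symm_apply_apply, map_sub, neg_sub]
  rw [eq_neg_of_add_eq_zero_left (k.mem h x), neg_add_eq_sub]

theorem sh_eq {h₀ : Rv b} {l : Fin b → ℤ} (h : ‖sh h₀ l - h₀‖ ≤ 1 / 2) : l = 0 := by
  funext i
  have h1 := (norm_le_pi_norm _ i).trans h
  simp only [sh, Pi.sub_apply, add_sub_cancel_left, Real.norm_eq_abs] at h1
  have h2 : |(l i : ℝ)| < 1 := by linarith
  exact Int.abs_lt_one_iff.1 (by exact_mod_cast h2)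

/-- the derivative of the compact part, and the lower bound on the slice -/
theorem lin_low [CompleteSpace V] [CompleteSpace W] (hK : KMap F K) {v₀ : V} {h₀ : Rv b}
    {L : V × Rv b →L[ℝ] W × Cv p × Rv n} (hL : HasFDerivAt (F.tot K) L (v₀, h₀))
    (hn : ∀ q, L q = 0 → ∃ z : ℂ, q = (z • v₀, 0)) {ζ : V →L[ℂ] ℂ} (hζ : ζ v₀ = 1) :
    ∃ (K' : V × Rv b →L[ℝ] W × Cv p × Rv n) (S' : Set (W × Cv p × Rv n)) (c : ℝ),
      HasFDerivAt K K' (v₀, h₀) ∧ IsCompact S' ∧ (∀ q, ‖q‖ ≤ 1 → K' q ∈ S') ∧ 0 < c ∧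
      ∀ q, ζ q.1 = 0 → c * ‖q‖ ≤ ‖L q‖ := by
  have hD := (F.smooth.differentiable (by simp) h₀).hasFDerivAt
  have h1 := ((ContinuousLinearMap.apply ℂ W).flip.bilinearRestrictScalars ℝ
    ).hasFDerivAt_of_bilinear (hD.comp (v₀, h₀) hasFDerivAt_snd) (hasFDerivAt_fst (p := (v₀, h₀)))
  obtain ⟨B, hB, eB⟩ : ∃ B : V × Rv b →L[ℝ] W, HasFDerivAt (fun q : V × Rv b => F.D q.2 q.1) B
    (v₀, h₀) ∧ ∀ q, B q = F.D h₀ q.1 + fderiv ℝ F.D h₀ q.2 v₀ := ⟨_, h1, fun q => rfl⟩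
  have h2 : HasFDerivAt K (L - B.prod 0) (v₀, h₀) := by
    refine (hL.sub (hB.prodMk (hasFDerivAt_const (0 : Cv p × Rv n) _))).congr_of_eventuallyEq
      (Eventually.of_forall fun q => ?_)
    simp [Fam.tot]
  obtain ⟨S, hS, kS⟩ := hK.cpt (‖(v₀, h₀)‖ + 1)
  obtain ⟨S', hS', kS'⟩ := cpt_deriv h2 hS fun q hq => by
    have := (norm_add_le (v₀, h₀) q).trans (add_le_add_right hq _)
    exact kS _ _ ((norm_fst_le _).trans this) ((norm_snd_le _).trans this)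
  have c1 : Continuous fun h : Rv b => ((fderiv ℝ F.D h₀ h v₀, 0) : W × Cv p × Rv n) :=
    ((fderiv ℝ F.D h₀).continuous.clm_apply continuous_const).prodMk continuous_const
  have e1 : ∀ q : V × Rv b, (F.D h₀ q.1 + (L q - (F.D h₀ q.1, 0)).1, (L q - (F.D h₀ q.1, 0)).2)
    = L q := fun q => by simp
  obtain ⟨c, hc, kc⟩ := low (D := fun _ => F.D h₀) continuous_const F.J_cpt (fun _ => F.est h₀)
    (A := {q | ‖q‖ = 1 ∧ ζ q.1 = 0}) ((isClosed_eq continuous_norm continuous_const).inter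
      (isClosed_eq (ζ.continuous.comp continuous_fst) continuous_const)) (R := 1)
    (fun q hq => ⟨(norm_fst_le q).trans hq.1.le, (norm_snd_le q).trans hq.1.le⟩)
    (k := fun q => L q - (F.D h₀ q.1, 0))
    (L.continuous.sub (((F.D h₀).continuous.comp continuous_fst).prodMk continuous_const))
    (hS'.add ((isCompact_closedBall 0 1).image c1)) (fun q hq => ⟨_, kS' q hq.1.le, _, ⟨q.2,
      mem_closedBall_zero_iff.2 ((norm_snd_le q).trans hq.1.le), rfl⟩, by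
        ext <;> simp [eB] <;> abel⟩) fun q hq h => by
      rw [e1] at h
      obtain ⟨z, rfl⟩ := hn q h
      have h3 : z = 0 := by simpa [hζ] using hq.2
      simpa [h3] using hq.1
  refine ⟨_, S', c, h2, hS', kS', hc, fun q hq => ?_⟩
  rcases eq_or_ne q 0 with rfl | q0
  · simp
  have n0 := norm_pos_iff.2 q0
  have := kc (‖q‖⁻¹ • q) ⟨by simp [norm_smul, n0.ne'], by
    rw [Prod.smul_fst, ContinuousLinearMap.map_smul_of_tower, hq, smul_zero]⟩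
  rwa [e1, map_smul, norm_smul, norm_inv, norm_norm, le_inv_mul_iff₀ n0, mul_comm] at this

/-- an approximation with the same zeros -/
theorem good_apx [CompleteSpace V] [CompleteSpace W] (hK : KMap F K) {v₀ : V} {h₀ : Rv b}
    (h0 : F.tot K (v₀, h₀) = 0) (hu : ∀ v h, v ≠ 0 → F.tot K (v, h) = 0 →
      ∃ (l : Fin b → ℤ) (z : ℂ), h = sh h₀ l ∧ v = z • F.gV l v₀)
    {L : V × Rv b →L[ℝ] W × Cv p × Rv n} (hL : HasFDerivAt (F.tot K) L (v₀, h₀))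
    (hn : ∀ q, L q = 0 → ∃ z : ℂ, q = (z • v₀, 0)) {ζ : V →L[ℂ] ℂ} (hζ : ζ v₀ = 1) :
    ∃ (N : ℕ) (a : Apx F N) (r c : ℝ), 0 < r ∧ 0 < c ∧ DifferentiableAt ℝ K (v₀, h₀) ∧
      a.P h₀ (a.S h₀ (K (v₀, h₀)).1) = (K (v₀, h₀)).1 ∧
      (∀ v h, ‖v - ζ v • v₀‖ < r * ‖ζ v‖ → ‖h - h₀‖ < r →
        c * ‖v - ζ v • v₀‖ ≤ ‖a.tot K (v, h)‖ ∧ c * (‖ζ v‖ * ‖h - h₀‖) ≤ ‖a.tot K (v, h)‖) ∧
      ∀ v h, v ≠ 0 → a.tot K (v, h) = 0 →
        ∃ (l : Fin b → ℤ) (z : ℂ), h = sh h₀ l ∧ v = z • F.gV l v₀ := by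
  obtain ⟨K', S', c, hK', hS', kS', hc, kc⟩ := lin_low hK hL hn hζ
  obtain ⟨r₀, hr₀, kr⟩ := Metric.eventually_nhds_iff.1
    (((hasFDerivAt_iff_isLittleO_nhds_zero.1 hL).def (show 0 < c / 4 by positivity)).and
      ((hasFDerivAt_iff_isLittleO_nhds_zero.1 hK').def (show 0 < c / 4 by positivity)))
  obtain ⟨r, hr, r1, r2⟩ : ∃ r, 0 < r ∧ r ≤ r₀ ∧ r ≤ 1 :=
    ⟨min r₀ 1, by positivity, min_le_left _ _, min_le_right _ _⟩
  obtain ⟨S, hS, kS⟩ := hK.cpt (‖h₀‖ + 1)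
  have nh : ∀ h : Rv b, ‖h - h₀‖ ≤ 1 → ‖h‖ ≤ ‖h₀‖ + 1 := fun h hh => by
    linarith [norm_le_insert' h h₀]
  have n1 : (1 : ℝ) ≤ ‖h₀‖ + 1 := by linarith [norm_nonneg h₀]
  obtain ⟨c', hc', kc'⟩ := low F.smooth.continuous F.J_cpt F.est
    (A := {q | ‖q.1‖ = 1 ∧ ‖q.2 - h₀‖ ≤ 1 / 2 ∧
      (r * ‖ζ q.1‖ ≤ ‖q.1 - ζ q.1 • v₀‖ ∨ r ≤ ‖q.2 - h₀‖)})
    (by
      simp only [setOf_and, setOf_or]
      refine (isClosed_eq ?_ ?_).inter ((isClosed_le ?_ ?_).inter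
        ((isClosed_le ?_ ?_).union (isClosed_le ?_ ?_))) <;> fun_prop)
    (R := ‖h₀‖ + 1) (fun q hq => ⟨hq.1.le.trans n1, nh _ (by linarith [hq.2.1])⟩) hK.cont hS
    (fun q hq => kS _ _ (hq.1.le.trans n1) (nh _ (by linarith [hq.2.1]))) fun q hq h => by
      have q0 : q.1 ≠ 0 := fun h1 => by simpa [h1] using hq.1
      obtain ⟨l, z, h1, h2⟩ := hu q.1 q.2 q0 h
      have h3 : l = 0 := sh_eq (h1 ▸ hq.2.1)
      rw [h3, sh_zero] at h1
      rw [h3, F.gV_zero] at h2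
      have h4 : 0 < ‖z‖ := norm_pos_iff.2 fun h4 => q0 (by rw [h2, h4, zero_smul])
      have := hq.2.2
      simp only [h1, h2, map_smul, hζ, smul_eq_mul, mul_one, sub_self, norm_zero] at this
      rcases this with h5 | h5 <;> nlinarith
  obtain ⟨N, a, _, -, ka⟩ := apx F (‖h₀‖ + 1) ((hS.union hS').image continuous_fst) (K (v₀, h₀)).1
    (show 0 < min (c / 4) (c' / 2) by positivity)
  have loc : ∀ q : V × Rv b, ζ q.1 = 0 → ‖q‖ < r → c / 4 * ‖q‖ ≤ ‖a.tot K ((v₀, h₀) + q)‖ := by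
    intro q hq hr'
    obtain ⟨k1, k2⟩ := kr (y := q) (by rw [dist_zero_right]; linarith)
    obtain ⟨a1, a2, a3, -⟩ := ka ((v₀, h₀) + q).2 (nh _ (by
      simpa using (norm_snd_le q).trans (by linarith)))
    let A : W →L[ℂ] W := 1 - (a.P ((v₀, h₀) + q).2).comp (a.S ((v₀, h₀) + q).2)
    have A1 : ‖A (K' q).1‖ ≤ c / 4 * ‖q‖ := by
      rcases eq_or_ne q 0 with rfl | q0
      · simp
      have n0 := norm_pos_iff.2 q0
      have : ‖A (K' (‖q‖⁻¹ • q)).1‖ ≤ _ := (a2 _ ⟨_, Or.inr (kS' (‖q‖⁻¹ • q)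
        (by simp [norm_smul, n0.ne'])), rfl⟩).trans (min_le_left _ _)
      rwa [map_smul, Prod.smul_fst, ContinuousLinearMap.map_smul_of_tower, norm_smul, norm_inv,
        norm_norm, inv_mul_le_iff₀ n0, mul_comm] at this
    have A2 : ‖A (K ((v₀, h₀) + q) - K (v₀, h₀) - K' q).1‖ ≤ c / 4 * ‖q‖ :=
      (a1 _).trans ((norm_fst_le _).trans k2)
    have A3 : A (K (v₀, h₀)).1 = 0 := sub_eq_zero.2 a3.symm
    have A4 : ‖F.tot K ((v₀, h₀) + q) - a.tot K ((v₀, h₀) + q)‖ =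
        ‖A (K ((v₀, h₀) + q) - K (v₀, h₀) - K' q).1 + A (K' q).1‖ := by
      rw [a.tot_sub, Prod.fst_sub, Prod.fst_sub, map_sub A, map_sub A, A3, sub_zero, sub_add_cancel]
      rfl
    have A5 := norm_add_le (A (K ((v₀, h₀) + q) - K (v₀, h₀) - K' q).1) (A (K' q).1)
    rw [h0, sub_zero] at k1
    have A6 := norm_le_insert' (L q) (F.tot K ((v₀, h₀) + q))
    have A7 := norm_le_insert' (F.tot K ((v₀, h₀) + q)) (a.tot K ((v₀, h₀) + q))
    rw [norm_sub_rev] at A6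
    linarith [kc q hq]
  have near : ∀ v h, ‖v - ζ v • v₀‖ < r * ‖ζ v‖ → ‖h - h₀‖ < r →
      c / 4 * ‖v - ζ v • v₀‖ ≤ ‖a.tot K (v, h)‖ ∧
        c / 4 * (‖ζ v‖ * ‖h - h₀‖) ≤ ‖a.tot K (v, h)‖ := by
    intro v h h1 h2
    have z0 : 0 < ‖ζ v‖ := (mul_pos_iff_of_pos_left hr).1 ((norm_nonneg _).trans_lt h1)
    have z1 := norm_pos_iff.1 z0
    have e1 : ‖v - ζ v • v₀‖ = ‖ζ v‖ * ‖(ζ v)⁻¹ • v - v₀‖ := by
      rw [← norm_smul, smul_sub, smul_inv_smul₀ z1]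
    have := loc ((ζ v)⁻¹ • v - v₀, h - h₀) (by simp [hζ, z1]) (by
      rw [Prod.norm_def, max_lt_iff]
      exact ⟨by rw [e1, mul_comm] at h1; exact lt_of_mul_lt_mul_right h1 z0.le, h2⟩)
    rw [Prod.mk_add_mk, add_sub_cancel, add_sub_cancel, a.tot_hom hK, norm_inv,
      le_inv_mul_iff₀ z0] at this
    have e2 := mul_le_mul_of_nonneg_left (norm_fst_le ((ζ v)⁻¹ • v - v₀, h - h₀)) z0.le
    have e3 := mul_le_mul_of_nonneg_left (norm_snd_le ((ζ v)⁻¹ • v - v₀, h - h₀)) z0.le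
    rw [e1]
    constructor <;> nlinarith
  refine ⟨N, a, r, c / 4, hr, by positivity, hK'.differentiableAt,
    (ka h₀ (by linarith)).2.2.1, near, fun v h v0 hz => ?_⟩
  obtain ⟨l, hl⟩ := exists_lat h h₀
  obtain ⟨w, rfl⟩ : ∃ w, v = F.gV l w := ⟨_, (gV_neg F l v).symm⟩
  obtain ⟨h', e, rfl⟩ : ∃ h', sh h (-l) = h' ∧ h = sh h' l := ⟨_, rfl, (sh_neg h l).symm⟩
  rw [e] at hl
  have w0 : 0 < ‖w‖ := norm_pos_iff.2 fun h1 => v0 (by rw [h1, map_zero])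
  have w1 : ((‖w‖ : ℂ))⁻¹ ≠ 0 := by simpa using w0.ne'
  have z1 : ‖a.tot K (w, h')‖ = 0 := by rw [← a.tot_inv hK l, hz, norm_zero]
  by_cases hN : ‖w - ζ w • v₀‖ < r * ‖ζ w‖ ∧ ‖h' - h₀‖ < r
  · obtain ⟨k1, k2⟩ := near w h' hN.1 hN.2
    have z0 : 0 < ‖ζ w‖ := (mul_pos_iff_of_pos_left hr).1 ((norm_nonneg _).trans_lt hN.1)
    rw [z1] at k1 k2
    have k3 : w = ζ w • v₀ := sub_eq_zero.1 (norm_le_zero_iff.1 (by
      exact nonpos_of_mul_nonpos_right k1 (by positivity) |> fun h => h))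
    have k4 : h' = h₀ := sub_eq_zero.1 (norm_le_zero_iff.1 (by
      by_contra h1
      have : 0 < c / 4 * (‖ζ w‖ * ‖h' - h₀‖) := by have := not_le.1 h1; positivity
      linarith))
    exact ⟨l, ζ w, by rw [k4], by rw [← map_smul, ← k3]⟩
  · exfalso
    have u1 : ‖((‖w‖ : ℂ))⁻¹ • w‖ = 1 := by simp [norm_smul, w0.ne']
    have k1 := kc' (((‖w‖ : ℂ))⁻¹ • w, h') ⟨u1, hl, by
      rw [not_and_or, not_lt, not_lt] at hN
      refine hN.imp_left fun h1 => ?_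
      simp only [map_smul, smul_assoc, ← smul_sub, norm_smul]
      nlinarith [norm_nonneg ((‖w‖ : ℂ))⁻¹]⟩
    have k2 := a.tot_sub (K := K) (((‖w‖ : ℂ))⁻¹ • w, h')
    have k3 : a.tot K (((‖w‖ : ℂ))⁻¹ • w, h') = 0 := by
      rw [← norm_eq_zero, a.tot_hom hK, z1, mul_zero]
    have h5 := nh h' (by linarith)
    have k4 := ((ka h' h5).2.1 _ ⟨_, Or.inl (kS _ _ (u1.le.trans n1) h5), rfl⟩).trans
      (min_le_right _ _)
    rw [k3, sub_zero] at k2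
    have k5 : c' ≤ ‖F.tot K (((‖w‖ : ℂ))⁻¹ • w, h')‖ := k1
    linarith

end Vale.Agent.P247A.Red

namespace Vale.Agent.P247A

open Red

theorem fba_of (hA : FDA_statement) : FBA_statement := by
  intro b V H W _ _ _ _ _ _ _ _ _ F p n K hK hn hd v₀ h₀ v0 h0 hu L hL hnd
  obtain ⟨ζ, hζ⟩ := SeparatingDual.exists_eq_one (R := ℂ) v0
  obtain ⟨N, a, r, c, hr, hc, dK, a0, near, uq⟩ := good_apx hK h0 hu hL hnd hζ
  obtain ⟨m, ⟨k⟩⟩ := exists_ker a
  let e : (Ev N × Cv p) ≃L[ℂ] Cv (N + p) := ContinuousLinearEquiv.ofFinrankEq (by simp)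
  obtain ⟨y₀, hy⟩ : ∃ y, y = a.S h₀ (K (v₀, h₀)).1 := ⟨_, rfl⟩
  obtain ⟨x₀, hx⟩ : ∃ x, x = k.U' h₀ (v₀, y₀) := ⟨_, rfl⟩
  have K2 : (K (v₀, h₀)).2 = 0 := congrArg Prod.snd h0
  have U0 : k.U h₀ x₀ = (v₀, y₀) := hx ▸ k.onto _ _ _ (by
    rw [hy, a0]; exact congrArg Prod.fst h0)
  have G0 : k.G K e (x₀, h₀) = 0 := (k.G_zero e).2 (by rw [U0]; exact ⟨hy, K2⟩)
  have d1 : DifferentiableAt ℝ (fun q : Cv m × Rv b => k.U q.2 q.1) (x₀, h₀) :=
    app_smooth (((k.U_sm.differentiable (by simp)).comp differentiable_snd) _) differentiableAt_fst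
  have d2 : DifferentiableAt ℝ (fun q : Cv m × Rv b => K ((k.U q.2 q.1).1, q.2)) (x₀, h₀) :=
    DifferentiableAt.comp (x₀, h₀) (g := K) (by simpa only [U0] using dK)
      (d1.fst.prodMk differentiableAt_snd)
  have d3 : DifferentiableAt ℝ (k.G K e) (x₀, h₀) :=
    (app_smooth (f := fun _ => e.toContinuousLinearMap) (differentiableAt_const _)
      ((d1.snd.sub (app_smooth (((a.S_sm.differentiable (by simp)).comp differentiable_snd) _)
        d2.fst)).prodMk d2.snd.fst)).prodMk d2.snd.snd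
  have t1 : Tendsto (fun q : Cv m × Rv b => (k.U q.2 q.1).1) (𝓝 (x₀, h₀)) (𝓝 v₀) := by
    simpa only [U0] using d1.fst.continuousAt.tendsto
  have t2 : Tendsto (fun q : Cv m × Rv b => q.2) (𝓝 (x₀, h₀)) (𝓝 h₀) := continuous_snd.tendsto _
  have t3 : Tendsto (fun q : Cv m × Rv b => ζ (k.U q.2 q.1).1) (𝓝 (x₀, h₀)) (𝓝 1) :=
    hζ ▸ (ζ.continuous.tendsto _).comp t1
  have O1 : (fun q : Cv m × Rv b => a.tot K ((k.U q.2 q.1).1, q.2)) =O[𝓝 (x₀, h₀)] k.G K e := by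
    have o1 : (fun q => e.symm (k.G K e q).1) =O[𝓝 (x₀, h₀)] k.G K e :=
      (e.symm.isBigO_comp _ _).trans isBigO_fst_prod'
    have o2 : (fun q : Cv m × Rv b => a.P q.2 (e.symm (k.G K e q).1).1) =O[𝓝 (x₀, h₀)]
        fun q => (e.symm (k.G K e q).1).1 := by
      refine IsBigO.of_bound (‖a.P h₀‖ + 1) ?_
      filter_upwards [(((a.P_sm.continuous.tendsto _).comp t2).norm).eventually
        (gt_mem_nhds (lt_add_one _))] with q hq
      exact (a.P q.2).le_of_opNorm_le hq.le _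
    simp only [k.tot_eq e]
    exact (o2.trans (isBigO_fst_prod'.trans o1)).neg_left.prod_left
      ((isBigO_snd_prod'.trans o1).prod_left isBigO_snd_prod')
  have ev : ∀ᶠ q : Cv m × Rv b in 𝓝 (x₀, h₀),
      c * ‖(k.U q.2 q.1).1 - ζ (k.U q.2 q.1).1 • v₀‖ ≤ ‖a.tot K ((k.U q.2 q.1).1, q.2)‖ ∧
        c * (2⁻¹ * ‖q.2 - h₀‖) ≤ ‖a.tot K ((k.U q.2 q.1).1, q.2)‖ := by
    filter_upwards [((t1.sub (t3.smul_const v₀)).norm).eventually_lt (t3.norm.const_mul r)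
      (by simpa using hr), ((t2.sub_const h₀).norm).eventually (gt_mem_nhds (by simpa using hr)),
      t3.norm.eventually (lt_mem_nhds (show (2⁻¹ : ℝ) < ‖(1 : ℂ)‖ by norm_num))] with q h1 h2 h3
    obtain ⟨k1, k2⟩ := near _ _ h1 h2
    exact ⟨k1, le_trans (by gcongr) k2⟩
  refine hA m b (N + p) n k.c (k.G K e) (k.sec hK e) hn (by have := k.dim; omega) x₀ h₀
    (fun h => v0 (by rw [h, map_zero] at U0; exact (congrArg Prod.fst U0).symm)) G0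
    (fun x h x0 hz => ?_) _ d3.hasFDerivAt fun q hq => ?_
  · obtain ⟨l, z, rfl, h2⟩ := uq _ h (k.ne hK e x0 hz) (by rw [k.tot_eq e, hz]; simp)
    refine ⟨l, z, rfl, ?_⟩
    have h3 := ((k.G_zero e).1 hz).1
    rw [h2, hK.hom, hK.inv, map_smul, a.S_g, ← hy] at h3
    rw [← k.inv (sh h₀ l) x, ← k.inv (sh h₀ l) (z • _), map_smul (k.U _), k.U_g, U0]
    exact congrArg _ (Prod.ext h2 h3)
  · have q2 : q.2 = 0 := nd d3.hasFDerivAt G0 hq (N := fun q => q.2 - h₀)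
      ((IsBigO.of_bound (c * 2⁻¹)⁻¹ (ev.mono fun q h => by
        rw [le_inv_mul_iff₀ (by positivity), mul_assoc]; exact h.2)).trans O1) fun t => by simp
    obtain ⟨x, h⟩ := q
    obtain rfl : h = 0 := q2
    have U1 : ∀ t : ℝ, k.U h₀ (x₀ + t • x) = (v₀ + t • (k.U h₀ x).1, y₀ + t • (k.U h₀ x).2) :=
      fun t => by rw [map_add, U0, ContinuousLinearMap.map_smul_of_tower]; rfl
    have q3 : (k.U h₀ x).1 - ζ (k.U h₀ x).1 • v₀ = 0 := nd d3.hasFDerivAt G0 hq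
      (N := fun q => (k.U q.2 q.1).1 - ζ (k.U q.2 q.1).1 • v₀)
      ((IsBigO.of_bound c⁻¹ (ev.mono fun q h => by
        rw [le_inv_mul_iff₀ hc]; exact h.1)).trans O1) fun t => by
        simp only [Prod.smul_mk, Prod.mk_add_mk, smul_zero, add_zero, U1, map_add, hζ,
          ContinuousLinearMap.map_smul_of_tower, add_smul, one_smul, smul_assoc, smul_sub]
        abel
    obtain ⟨z, hz⟩ : ∃ z : ℂ, (k.U h₀ x).1 = z • v₀ := ⟨_, sub_eq_zero.1 q3⟩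
    have q4 : e ((k.U h₀ x).2 - z • y₀, 0) = 0 := nd d3.hasFDerivAt G0 hq
      (N := fun q => (k.G K e q).1) isBigO_fst_prod' fun t => by
        have h1 : v₀ + t • z • v₀ = (1 + t * z : ℂ) • v₀ := by
          rw [add_smul, one_smul, mul_smul, Complex.coe_smul]
        simp only [Prod.smul_mk, Prod.mk_add_mk, smul_zero, add_zero, Ker.G, U1, hz, h1, hK.hom,
          map_smul, ← hy, K2, Prod.fst_zero]
        rw [← Complex.coe_smul t (e _), ← map_smul, Prod.smul_mk, smul_zero]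
        congr 2
        rw [← Complex.coe_smul]
        module
    have q5 := sub_eq_zero.1 (congrArg Prod.fst ((map_eq_zero_iff _ e.injective).1 q4))
    refine ⟨z, Prod.ext ?_ rfl⟩
    show x = z • x₀
    rw [← k.inv h₀ x, ← k.inv h₀ (z • _), map_smul (k.U _), U0]
    exact congrArg _ (Prod.ext hz q5)

end Vale.Agent.P247A
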