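import Vale.Agent.P247A.SpecF

/-!
# P247, stage 2: sub-statement of the reduction row (finite dimensional target)
-/

set_option linter.all false

open scoped ContDiff Topology
open Set Filter

noncomputable section

namespace Vale.Agent.P247A

/-- `FBBF`: the conclusion of `FBB` when the target has finite dimension (both flat bundles over
the torus have unitary holonomy, hence are trivial) -/
def FBBF_statement : Prop := ∀ (V H W : Type) [NormedAddCommGroup V]
  [InnerProductSpace ℂ V] [CompleteSpace V] [NormedAddCommGroup H] [InnerProductSpace ℂ H]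
  [CompleteSpace H] [NormedAddCommGroup W] [InnerProductSpace ℂ W] [CompleteSpace W]
  (F : Fam 2 V H W), FiniteDimensional ℂ W → (F.D 0 : V →ₗ[ℂ] W).index = 0 →
  ∃ (A : Rv 2 → H →L[ℂ] W) (c : ℝ), Continuous A ∧ 0 < c ∧
    (∀ l h y, A (sh h l) (F.gH l y) = F.gW l (A h y)) ∧
    ∀ h v, c * ‖F.J v‖ ≤ ‖F.D h v + A h (F.J v)‖

end Vale.Agent.P247A
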