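import Mathlib

/-!
# P247, stage 2: the abstract counting theorems

`FDA`, `FDB` are finite dimensional, `FBA`, `FBB` are their Fredholm versions.  The group `ℤ^b`
acts on the parameter space `ℝ^b` by translations, and all maps are homogeneous for `ℂ`.
-/

set_option linter.all false

open scoped ContDiff Topology
open Set Filter

noncomputable section

namespace Vale.Agent.P247A

abbrev Cv (m : ℕ) : Type := Fin m → ℂ
abbrev Rv (b : ℕ) : Type := Fin b → ℝ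

/-- translation by a lattice vector -/
def sh {b : ℕ} (h : Rv b) (l : Fin b → ℤ) : Rv b := fun i => h i + l i

/-- a complex vector bundle over the torus, trivialised on the universal cover -/
structure Coc (m b : ℕ) where
  T : (Fin b → ℤ) → Rv b → Cv m →L[ℂ] Cv m
  smooth : ∀ l, ContDiff ℝ ∞ (T l)
  zero : ∀ h x, T 0 h x = x
  add : ∀ l l' h x, T (l + l') h x = T l (sh h l') (T l' h x)

/-- homogeneous invariant maps -/
structure Sec {m b : ℕ} (c : Coc m b) {M n : ℕ} (G : Cv m × Rv b → Cv M × Rv n) : Prop where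
  cont : Continuous G
  hom : ∀ (z : ℂ) x h, G (z • x, h) = (z • (G (x, h)).1, ‖z‖ • (G (x, h)).2)
  inv : ∀ l x h, G (c.T l h x, sh h l) = G (x, h)

/-- `FDA`: with a trivial real summand there cannot be exactly one nondegenerate orbit of zeros -/
def FDA_statement : Prop := ∀ (m b M n : ℕ) (c : Coc m b) (G : Cv m × Rv b → Cv M × Rv n),
  Sec c G → 1 ≤ n → 2 * m + b = 2 * M + n + 2 → ∀ (x₀ : Cv m) (h₀ : Rv b), x₀ ≠ 0 →
  G (x₀, h₀) = 0 →
  (∀ x h, x ≠ 0 → G (x, h) = 0 → ∃ (l : Fin b → ℤ) (z : ℂ), h = sh h₀ l ∧ x = z • c.T l h₀ x₀) →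
  ∀ L : Cv m × Rv b →L[ℝ] Cv M × Rv n, HasFDerivAt G L (x₀, h₀) →
  (∀ p, L p = 0 → ∃ z : ℂ, p = (z • x₀, 0)) → False

/-- `FDB`: over the two-torus a homogeneous map without zeros can be replaced by a linear one -/
def FDB_statement : Prop := ∀ (m : ℕ) (c : Coc m 2) (G : Cv m × Rv 2 → Cv m × Rv 0),
  Sec c G → (∀ x h, x ≠ 0 → G (x, h) ≠ 0) →
  ∃ A : Rv 2 → Cv m →L[ℂ] Cv m, Continuous A ∧ (∀ h, Function.Injective (A h)) ∧
    ∀ l h x, A (sh h l) (c.T l h x) = A h x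

/-- an equivariant family of Fredholm operators `D h : V → W`, with a compact embedding
`J : V → H` -/
structure Fam (b : ℕ) (V H W : Type) [NormedAddCommGroup V] [InnerProductSpace ℂ V]
    [NormedAddCommGroup H] [InnerProductSpace ℂ H] [NormedAddCommGroup W]
    [InnerProductSpace ℂ W] where
  D : Rv b → V →L[ℂ] W
  smooth : ContDiff ℝ ∞ D
  J : V →L[ℂ] H
  J_inj : Function.Injective J
  J_cpt : IsCompactOperator J
  gV : (Fin b → ℤ) → V →L[ℂ] V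
  gH : (Fin b → ℤ) → H →L[ℂ] H
  gW : (Fin b → ℤ) → W →L[ℂ] W
  gV_zero : ∀ v, gV 0 v = v
  gH_zero : ∀ v, gH 0 v = v
  gW_zero : ∀ v, gW 0 v = v
  gV_add : ∀ l l' v, gV (l + l') v = gV l (gV l' v)
  gH_add : ∀ l l' v, gH (l + l') v = gH l (gH l' v)
  gW_add : ∀ l l' v, gW (l + l') v = gW l (gW l' v)
  gH_norm : ∀ l v, ‖gH l v‖ = ‖v‖
  gW_norm : ∀ l v, ‖gW l v‖ = ‖v‖
  J_g : ∀ l v, J (gV l v) = gH l (J v)
  D_g : ∀ l h v, D (sh h l) (gV l v) = gW l (D h v)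
  est : ∀ h, ∃ C : ℝ, ∀ v, ‖v‖ ≤ C * (‖D h v‖ + ‖J v‖)
  cok : ∀ h, ∃ F : Submodule ℂ W, FiniteDimensional ℂ F ∧
    LinearMap.range (D h : V →ₗ[ℂ] W) ⊔ F = ⊤

section
variable {b : ℕ} {V H W : Type} [NormedAddCommGroup V] [InnerProductSpace ℂ V]
  [NormedAddCommGroup H] [InnerProductSpace ℂ H] [NormedAddCommGroup W] [InnerProductSpace ℂ W]

/-- compact homogeneous equivariant perturbations, with `p` complex and `n` real constraints -/
structure KMap (F : Fam b V H W) {p n : ℕ} (K : V × Rv b → W × Cv p × Rv n) : Prop where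
  cont : Continuous K
  hom : ∀ (z : ℂ) v h,
    K (z • v, h) = (z • (K (v, h)).1, z • (K (v, h)).2.1, ‖z‖ • (K (v, h)).2.2)
  inv : ∀ l v h, K (F.gV l v, sh h l) = (F.gW l (K (v, h)).1, (K (v, h)).2)
  cpt : ∀ R : ℝ, ∃ S, IsCompact S ∧ ∀ v h, ‖v‖ ≤ R → ‖h‖ ≤ R → K (v, h) ∈ S

/-- the total map -/
def Fam.tot (F : Fam b V H W) {p n : ℕ} (K : V × Rv b → W × Cv p × Rv n) (q : V × Rv b) :
    W × Cv p × Rv n := (F.D q.2 q.1 + (K q).1, (K q).2)

end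

/-- `FBA` -/
def FBA_statement : Prop := ∀ (b : ℕ) (V H W : Type) [NormedAddCommGroup V]
  [InnerProductSpace ℂ V] [CompleteSpace V] [NormedAddCommGroup H] [InnerProductSpace ℂ H]
  [CompleteSpace H] [NormedAddCommGroup W] [InnerProductSpace ℂ W] [CompleteSpace W]
  (F : Fam b V H W) (p n : ℕ) (K : V × Rv b → W × Cv p × Rv n), KMap F K → 1 ≤ n →
  2 * (F.D 0 : V →ₗ[ℂ] W).index + b = 2 * p + n + 2 → ∀ (v₀ : V) (h₀ : Rv b), v₀ ≠ 0 →
  F.tot K (v₀, h₀) = 0 →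
  (∀ v h, v ≠ 0 → F.tot K (v, h) = 0 →
    ∃ (l : Fin b → ℤ) (z : ℂ), h = sh h₀ l ∧ v = z • F.gV l v₀) →
  ∀ L : V × Rv b →L[ℝ] W × Cv p × Rv n, HasFDerivAt (F.tot K) L (v₀, h₀) →
  (∀ q, L q = 0 → ∃ z : ℂ, q = (z • v₀, 0)) → False

/-- `FBB` -/
def FBB_statement : Prop := ∀ (V H W : Type) [NormedAddCommGroup V]
  [InnerProductSpace ℂ V] [CompleteSpace V] [NormedAddCommGroup H] [InnerProductSpace ℂ H]
  [CompleteSpace H] [NormedAddCommGroup W] [InnerProductSpace ℂ W] [CompleteSpace W]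
  (F : Fam 2 V H W) (K : V × Rv 2 → W × Cv 0 × Rv 0), KMap F K →
  (F.D 0 : V →ₗ[ℂ] W).index = 0 → (∀ v h, v ≠ 0 → F.tot K (v, h) ≠ 0) →
  ∃ (A : Rv 2 → H →L[ℂ] W) (c : ℝ), Continuous A ∧ 0 < c ∧
    (∀ l h y, A (sh h l) (F.gH l y) = F.gW l (A h y)) ∧
    ∀ h v, c * ‖F.J v‖ ≤ ‖F.D h v + A h (F.J v)‖

/-- `TRB`: a smooth family of projections of finite rank over `ℝ^b` has a global smooth frame -/
def TRB_statement : Prop := ∀ (b : ℕ) (E : Type) [NormedAddCommGroup E] [InnerProductSpace ℂ E]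
  [CompleteSpace E] (π : Rv b → E →L[ℂ] E), ContDiff ℝ ∞ π → (∀ h y, π h (π h y) = π h y) →
  FiniteDimensional ℂ (LinearMap.range (π 0 : E →ₗ[ℂ] E)) →
  ∃ (U : Rv b → Cv (Module.finrank ℂ (LinearMap.range (π 0 : E →ₗ[ℂ] E))) →L[ℂ] E)
    (U' : Rv b → E →L[ℂ] Cv (Module.finrank ℂ (LinearMap.range (π 0 : E →ₗ[ℂ] E)))),
    ContDiff ℝ ∞ U ∧ ContDiff ℝ ∞ U' ∧ (∀ h x, U' h (U h x) = x) ∧ (∀ h x, π h (U h x) = U h x) ∧
    ∀ h y, U h (U' h y) = π h y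

end Vale.Agent.P247A
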