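import Vale.Agent.P247A.SpecF

/-!
# `TRB`: a smooth family of finite rank projections over `ℝ^b` has a global smooth frame
-/

set_option linter.all false

open scoped ContDiff Topology
open Set Filter

noncomputable section

namespace Vale.Agent.P247A

namespace Trb

section alg
variable {A : Type*} [NormedRing A] [NormedAlgebra ℝ A] [CompleteSpace A] {b : ℕ}

/-- squared euclidean norm -/
def q (h : Rv b) : ℝ := ∑ i, h i ^ 2

theorem q_smooth : ContDiff ℝ ∞ (q : Rv b → ℝ) := by
  unfold q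
  exact ContDiff.sum fun i _ => (contDiff_apply ℝ ℝ i).pow 2

theorem q_nonneg (h : Rv b) : 0 ≤ q h := Finset.sum_nonneg fun i _ => sq_nonneg _

theorem q_cpt (T : ℝ) : IsCompact {h : Rv b | q h ≤ T} := by
  refine Metric.isCompact_of_isClosed_isBounded (isClosed_le q_smooth.continuous continuous_const) ?_
  refine (Metric.isBounded_closedBall (x := (0 : Rv b)) (r := |T| + 1)).subset fun h hh => ?_
  rw [mem_closedBall_zero_iff]
  refine (pi_norm_le_iff_of_nonneg (by positivity)).2 fun i => ?_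
  have h1 : h i ^ 2 ≤ q h :=
    Finset.single_le_sum (f := fun i => h i ^ 2) (fun i _ => sq_nonneg _) (Finset.mem_univ i)
  have h2 : h i ^ 2 ≤ |T| := h1.trans (le_trans hh (le_abs_self T))
  rw [Real.norm_eq_abs]
  nlinarith [sq_abs (h i), abs_nonneg (h i), sq_nonneg (|h i| - 1)]

/-- the homotopy from the constant map to the identity -/
def rho (t : ℝ) (h : Rv b) : Rv b := Real.smoothTransition (t - q h) • h

theorem rho_smooth2 : ContDiff ℝ ∞ (fun p : ℝ × Rv b => rho p.1 p.2) := by
  unfold rho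
  exact (Real.smoothTransition.contDiff.comp
    (contDiff_fst.sub (q_smooth.comp contDiff_snd))).smul contDiff_snd

theorem rho_smooth (t : ℝ) : ContDiff ℝ ∞ (rho t : Rv b → Rv b) :=
  rho_smooth2.comp (contDiff_const.prodMk contDiff_id)

theorem rho_big {t : ℝ} {h : Rv b} (ht : q h + 1 ≤ t) : rho t h = h := by
  unfold rho
  rw [Real.smoothTransition.one_of_one_le (by linarith), one_smul]

theorem rho_small {t : ℝ} {h : Rv b} (ht : t ≤ q h) : rho t h = 0 := by
  unfold rho
  rw [Real.smoothTransition.zero_of_nonpos (by linarith), zero_smul]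

/-- Kato's intertwiner -/
def kw (p r : A) : A := 1 - (1 - 2 * p) * (r - p)

theorem kw_mul {p r : A} (hp : p * p = p) (hr : r * r = r) : kw p r * r = p * kw p r := by
  unfold kw
  have h1 : (1 - (1 - 2 * p) * (r - p)) * r
      = r - r * r + p * r + 2 * p * (r * r) - 2 * (p * p) * r := by noncomm_ring
  have h2 : p * (1 - (1 - 2 * p) * (r - p))
      = p - p * r + p * p + 2 * (p * p) * r - 2 * (p * p) * p := by noncomm_ring
  rw [h1, h2, hp, hr]
  have h3 : (2 : A) * p * p = 2 * p := by rw [mul_assoc, hp]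
  rw [h3]
  noncomm_ring

theorem kw_self (p : A) : kw p p = 1 := by simp [kw]

/-- the relation -/
def R (π : Rv b → A) (n s t : ℝ) : Prop := ∃ g : Rv b → A, ContDiff ℝ ∞ g ∧ (∀ h, IsUnit (g h)) ∧
  (∀ h, g h * π (rho s h) = π (rho t h) * g h) ∧ ∀ h, q h + 1 ≤ n → g h = 1

theorem R_of_small {π : Rv b → A} (hπ : ContDiff ℝ ∞ π) (hp : ∀ h, π h * π h = π h) {n s t : ℝ}
    (hs : n ≤ s) (ht : n ≤ t)
    (H : ∀ h, ‖(1 - 2 * π (rho t h)) * (π (rho s h) - π (rho t h))‖ < 1) : R π n s t := by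
  refine ⟨fun h => kw (π (rho t h)) (π (rho s h)), ?_, fun h => isUnit_one_sub_of_norm_lt_one (H h),
    fun h => kw_mul (hp _) (hp _), fun h hh => ?_⟩
  · have h1 := hπ.comp (rho_smooth t)
    have h2 := hπ.comp (rho_smooth s)
    unfold kw
    exact contDiff_const.sub ((contDiff_const.sub (contDiff_const.mul h1)).mul (h2.sub h1))
  · show kw (π (rho t h)) (π (rho s h)) = 1
    rw [rho_big (hh.trans hs), rho_big (hh.trans ht), kw_self]

theorem R_step {π : Rv b → A} (hπ : ContDiff ℝ ∞ π) (hp : ∀ h, π h * π h = π h) (n : ℝ) :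
    R π n n (n + 1) := by
  refine (isPreconnected_Icc (a := n) (b := n + 1)).induction₂' (R π n) ?_ ?_
    ⟨le_rfl, by linarith⟩ ⟨by linarith, le_rfl⟩
  · intro x hx
    have hc : Continuous fun p : ℝ × Rv b => π (rho p.1 p.2) :=
      hπ.continuous.comp rho_smooth2.continuous
    have hx' : Continuous fun p : ℝ × Rv b => π (rho x p.2) :=
      hπ.continuous.comp ((rho_smooth x).continuous.comp continuous_snd)
    have c1 : Continuous fun p : ℝ × Rv b =>
        ‖(1 - 2 * π (rho p.1 p.2)) * (π (rho x p.2) - π (rho p.1 p.2))‖ :=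
      ((continuous_const.sub (continuous_const.mul hc)).mul (hx'.sub hc)).norm
    have c2 : Continuous fun p : ℝ × Rv b =>
        ‖(1 - 2 * π (rho x p.2)) * (π (rho p.1 p.2) - π (rho x p.2))‖ :=
      ((continuous_const.sub (continuous_const.mul hx')).mul (hc.sub hx')).norm
    have e1 : ∀ᶠ y in 𝓝 x, ∀ h ∈ {h : Rv b | q h ≤ n + 1},
        ‖(1 - 2 * π (rho y h)) * (π (rho x h) - π (rho y h))‖ < 1 ∧
        ‖(1 - 2 * π (rho x h)) * (π (rho y h) - π (rho x h))‖ < 1 := by
      refine (q_cpt (n + 1)).eventually_forall_of_forall_eventually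
        (P := fun y h => ‖(1 - 2 * π (rho y h)) * (π (rho x h) - π (rho y h))‖ < 1 ∧
        ‖(1 - 2 * π (rho x h)) * (π (rho y h) - π (rho x h))‖ < 1) fun h _ => ?_
      refine Eventually.and ?_ ?_
      · exact c1.continuousAt.eventually_lt continuous_const.continuousAt (by simp)
      · exact c2.continuousAt.eventually_lt continuous_const.continuousAt (by simp)
    filter_upwards [mem_nhdsWithin_of_mem_nhds e1, self_mem_nhdsWithin] with y hy hy'
    have key : ∀ h, ‖(1 - 2 * π (rho y h)) * (π (rho x h) - π (rho y h))‖ < 1 ∧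
        ‖(1 - 2 * π (rho x h)) * (π (rho y h) - π (rho x h))‖ < 1 := by
      intro h
      by_cases hh : q h ≤ n + 1
      · exact hy h hh
      · push Not at hh
        rw [rho_small (hx.2.trans hh.le), rho_small (hy'.2.trans hh.le)]
        simp
    exact ⟨R_of_small hπ hp hx.1 hy'.1 fun h => (key h).1,
      R_of_small hπ hp hy'.1 hx.1 fun h => (key h).2⟩
  · rintro x y z - - - ⟨g, g1, g2, g3, g4⟩ ⟨k, k1, k2, k3, k4⟩
    refine ⟨fun h => k h * g h, k1.mul g1, fun h => (k2 h).mul (g2 h), fun h => ?_, fun h hh => ?_⟩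
    · show k h * g h * _ = _ * (k h * g h)
      rw [mul_assoc, g3, ← mul_assoc, k3, mul_assoc]
    · show k h * g h = 1
      rw [k4 h hh, g4 h hh, one_mul]

/-- partial products -/
def pp (g : ℕ → Rv b → A) : ℕ → Rv b → A
  | 0 => fun _ => 1
  | n + 1 => fun h => g n h * pp g n h

theorem conj {π : Rv b → A} (hπ : ContDiff ℝ ∞ π) (hp : ∀ h, π h * π h = π h) :
    ∃ G G' : Rv b → A, ContDiff ℝ ∞ G ∧ ContDiff ℝ ∞ G' ∧ (∀ h, G h * G' h = 1) ∧
      (∀ h, G' h * G h = 1) ∧ ∀ h, G h * π 0 = π h * G h := by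
  choose g g1 g2 g3 g4 using fun n : ℕ => R_step hπ hp (n : ℝ)
  have p1 : ∀ n, ContDiff ℝ ∞ (pp g n) := by
    intro n
    induction n with
    | zero => exact contDiff_const
    | succ n ih => exact (g1 n).mul ih
  have p2 : ∀ n h, IsUnit (pp g n h) := by
    intro n h
    induction n with
    | zero => exact isUnit_one
    | succ n ih => exact (g2 n h).mul ih
  have p3 : ∀ (n : ℕ) h, pp g n h * π 0 = π (rho n h) * pp g n h := by
    intro n h
    induction n with
    | zero =>
      show (1 : A) * π 0 = π (rho ((0 : ℕ) : ℝ) h) * 1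
      rw [rho_small (by simpa using q_nonneg h), one_mul, mul_one]
    | succ n ih =>
      show g n h * pp g n h * π 0 = π (rho ((n + 1 : ℕ) : ℝ) h) * (g n h * pp g n h)
      rw [mul_assoc, ih, ← mul_assoc, g3, mul_assoc]
      push_cast
      rfl
  have p4 : ∀ (m n : ℕ) h, q h + 1 ≤ m → m ≤ n → pp g n h = pp g m h := by
    intro m n h hm hmn
    induction n, hmn using Nat.le_induction with
    | base => rfl
    | succ n hn ih =>
      show g n h * pp g n h = _
      rw [g4 n h (hm.trans (by exact_mod_cast hn)), one_mul, ih]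
  let G : Rv b → A := fun h => pp g ⌈q h + 1⌉₊ h
  have hG : ∀ (N : ℕ) h, q h + 1 ≤ N → G h = pp g N h := fun N h hN =>
    (p4 _ N h (Nat.le_ceil _) (Nat.ceil_le.2 hN)).symm
  have G1 : ContDiff ℝ ∞ G := by
    refine contDiff_iff_contDiffAt.2 fun h₀ => ?_
    refine ((p1 ⌈q h₀ + 2⌉₊).contDiffAt (x := h₀)).congr_of_eventuallyEq ?_
    have : ∀ᶠ h in 𝓝 h₀, q h < q h₀ + 1 :=
      q_smooth.continuous.continuousAt.eventually_lt continuous_const.continuousAt (by linarith)
    filter_upwards [this] with h hh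
    exact hG _ h (by linarith [Nat.le_ceil (q h₀ + 2)])
  have G2 : ∀ h, IsUnit (G h) := fun h => p2 _ h
  refine ⟨G, fun h => Ring.inverse (G h), G1, ?_, fun h => Ring.mul_inverse_cancel _ (G2 h),
    fun h => Ring.inverse_mul_cancel _ (G2 h), fun h => ?_⟩
  · refine contDiff_iff_contDiffAt.2 fun h₀ => ?_
    have := contDiffAt_ringInverse ℝ (n := ∞) (G2 h₀).unit
    rw [IsUnit.unit_spec] at this
    exact this.comp h₀ G1.contDiffAt
  · have := p3 ⌈q h + 1⌉₊ h
    rw [rho_big (Nat.le_ceil _)] at this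
    exact this

end alg

end Trb

open Trb in
theorem trb : TRB_statement := by
  intro b E _ _ _ π hπ hp hfin
  obtain ⟨G, G', G1, G2, G3, G4, G5⟩ := conj (A := E →L[ℂ] E) hπ
    (fun h => by ext y; exact hp h y)
  set S := LinearMap.range (π 0 : E →ₗ[ℂ] E) with hS
  let e : S ≃L[ℂ] Cv (Module.finrank ℂ S) :=
    ContinuousLinearEquiv.ofFinrankEq (by simp)
  let ι : Cv (Module.finrank ℂ S) →L[ℂ] E := S.subtypeL.comp (e.symm : _ →L[ℂ] S)
  let P : E →L[ℂ] S := (π 0).codRestrict S fun y => ⟨y, rfl⟩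
  let p : E →L[ℂ] Cv (Module.finrank ℂ S) := (e : S →L[ℂ] _).comp P
  have h1 : ∀ x, π 0 (ι x) = ι x := by
    intro x
    obtain ⟨y, hy⟩ := (e.symm x).2
    show π 0 (e.symm x : E) = (e.symm x : E)
    rw [← hy]
    exact hp 0 y
  have h2 : ∀ x, p (ι x) = x := by
    intro x
    have : P (ι x) = e.symm x := Subtype.ext (h1 x)
    show e (P (ι x)) = x
    rw [this, e.apply_symm_apply]
  have h3 : ∀ y, ι (p y) = π 0 y := by
    intro y
    show ((e.symm (e (P y)) : S) : E) = π 0 y
    rw [e.symm_apply_apply]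
    rfl
  have a3 : ∀ h y, G h (G' h y) = y := fun h y => congrArg (fun T : E →L[ℂ] E => T y) (G3 h)
  have a4 : ∀ h y, G' h (G h y) = y := fun h y => congrArg (fun T : E →L[ℂ] E => T y) (G4 h)
  have a5 : ∀ h y, G h (π 0 y) = π h (G h y) := fun h y =>
    congrArg (fun T : E →L[ℂ] E => T y) (G5 h)
  refine ⟨fun h => (G h).comp ι, fun h => p.comp (G' h), ?_, ?_, fun h x => ?_, fun h x => ?_,
    fun h y => ?_⟩
  · exact (((ContinuousLinearMap.compL ℂ _ E E).flip ι).restrictScalars ℝ).contDiff.comp G1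
  · exact ((ContinuousLinearMap.compL ℂ E E _ p).restrictScalars ℝ).contDiff.comp G2
  · show p (G' h (G h (ι x))) = x
    rw [a4, h2]
  · show π h (G h (ι x)) = G h (ι x)
    rw [← a5, h1]
  · show G h (ι (p (G' h y))) = π h y
    rw [h3, a5, a3]

end Vale.Agent.P247A
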