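import Vale.Agent.P247A.Cof
import Vale.Agent.P247M.PInt

/-!
# P247, row `TRF`: transfer of the theorem for the four-torus
-/

set_option linter.all false

open scoped Manifold ContDiff Topology
open Set Filter Function MeasureTheory

noncomputable section

namespace Vale.Agent.P247A

open Vale.Agent.P247.SCY hiding dm
open Vale.Agent.P247.SCY.HS
open Vale.Agent.P247X
open Vale.Agent.P247M
open Vale.Agent.P247
open Vale.Agent.P267
open Vale.Agent.P267.H175 (SmAt dF)
open Vale.Agent.P247.H74 (R4)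
open Vale.Agent.P247.H574 (tr Q1T4_statement)

namespace Trf

variable {X : Type} [Cl4 X] {P : R4 → X} {k : ℕ} {μ : Form X 4}

theorem sm (hP : IsT4 P) : ContMDiffOn 𝓘(ℝ, R4) (𝓡 4) ∞ P univ := hP.smooth.contMDiffOn

theorem df (hP : IsT4 P) (y : R4) : MDifferentiableAt 𝓘(ℝ, R4) (𝓡 4) P y :=
  (hP.smooth y).mdifferentiableAt (by simp)

theorem per (hP : IsT4 P) (n : Fin 4 → ℤ) (x : R4) : P (tr n x) = P x :=
  ((hP.fib x _).2 ⟨n, rfl⟩).symm

theorem dP_per (hP : IsT4 P) (n : Fin 4 → ℤ) (x : R4) : dP P (tr n x) = dP P x := by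
  rw [dP_eq (df hP _), dP_eq (df hP _), per hP]
  have h := fderiv_comp_add_right (𝕜 := ℝ) (f := fun z => chartAt E4 (P x) (P z)) (x := x)
    (fun i => (n i : ℝ))
  refine Eq.trans h.symm ?_
  congr 1
  funext z
  exact congrArg _ (per hP n z)

theorem pb_per (hP : IsT4 P) (α : Form X k) (n : Fin 4 → ℤ) (x : R4) :
    pb P α (tr n x) = pb P α x := by
  rw [pb, pb, dP_per hP, per hP]

theorem inv_app (L : R4 →L[ℝ] E4) (h : Bijective L) (v : R4) : L.inverse (L v) = v := by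
  obtain ⟨A, rfl⟩ : L.IsInvertible := ⟨ContinuousLinearEquiv.ofBijective L
    (LinearMap.ker_eq_bot.2 h.1) (LinearMap.range_eq_top.2 h.2), rfl⟩
  simp

/-- the push-forward of a periodic form -/
def push (hP : IsT4 P) (a : Stmt.Form k) : Form X k := hs fun x =>
  (a (surjInv hP.surj x)).compContinuousLinearMap (dP P (surjInv hP.surj x)).inverse

theorem pb_push (hP : IsT4 P) {a : Stmt.Form k} (ha : Stmt.OnTorus a) :
    pb P (push hP a) = a := by
  funext y
  obtain ⟨n, hn⟩ := (hP.fib y (surjInv hP.surj (P y))).1 (surjInv_eq hP.surj _).symm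
  ext v
  show a (surjInv hP.surj (P y))
    (fun i => (dP P (surjInv hP.surj (P y))).inverse (dP P y (v i))) = a y v
  rw [hn, dP_per hP]
  have h1 : a (tr n y) = a y := ha.2 n y
  rw [h1]
  congr 1
  funext i
  exact inv_app _ (hP.imm y) _

theorem pb_inj (hP : IsT4 P) {α β : Form X k} (h : ∀ y, pb P α y = pb P β y) : α = β := by
  refine rf_inj (funext fun x => ?_)
  obtain ⟨y, rfl⟩ := hP.surj x
  ext v
  choose u hu using fun i => (hP.imm y).2 (v i)
  have h1 : rf α (P y) (fun i => dP P y (u i)) = rf β (P y) (fun i => dP P y (u i)) :=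
    congrArg (fun g : R4 [⋀^Fin k]→L[ℝ] ℝ => g u) (h y)
  have h2 : (fun i => dP P y (u i)) = v := funext hu
  rwa [h2] at h1

theorem loc_inv (hP : IsT4 P) {e : Ch X} (he : e ∈ atlas E4 X) {z₀ : E4} (hz : z₀ ∈ e.target) :
    ∃ ψ : E4 → R4, ContDiffAt ℝ ∞ ψ z₀ ∧ ∀ᶠ z in 𝓝 z₀, ∀ (k : ℕ) (α : Form X k),
      HS.loc e α z = (pb P α (ψ z)).compContinuousLinearMap (fderiv ℝ ψ z) := by
  obtain ⟨y₀, hy₀⟩ := hP.surj (e.symm z₀)
  have hO : IsOpen (P ⁻¹' e.source) := e.open_source.preimage hP.smooth.continuous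
  have h0 : y₀ ∈ P ⁻¹' e.source := by
    show P y₀ ∈ e.source
    rw [hy₀]; exact e.map_target hz
  have hG : ∀ y ∈ P ⁻¹' e.source, ContDiffAt ℝ ∞ (fun z => e (P z)) y := fun y hy =>
    contDiffAt_chart le_rfl he (hP.smooth y) hy
  have hb : Bijective (fderiv ℝ (fun z => e (P z)) y₀) := by
    have h1 := mfderiv_comp y₀ (mdifferentiableAt_atlas (I := 𝓡 4) he h0) (df hP y₀)
    rw [mfderiv_eq_fderiv] at h1
    have h2 : Bijective (mfderiv (𝓡 4) (𝓡 4) e (P y₀)) :=
      (mdifferentiable_of_mem_atlas he).mfderiv_bijective h0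
    have h3 : Bijective (fderiv ℝ (e ∘ P) y₀) := by
      rw [h1]
      exact h2.comp (hP.imm y₀)
    exact h3
  obtain ⟨φ, p1, p2, p3, p4⟩ := Cof.ift hO hG h0 hb
  have hz' : z₀ ∈ φ.target := by
    have := φ.map_source p1
    rwa [p3, hy₀, e.right_inv hz] at this
  refine ⟨φ.symm, p4 _ hz', ?_⟩
  filter_upwards [φ.open_target.mem_nhds hz'] with z hz1 k α
  have h1 := p2 (φ.map_target hz1)
  have h2 : ∀ z ∈ φ.target, e (P (φ.symm z)) = z := fun z hz1 => by
    rw [← p3, φ.right_inv hz1]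
  rw [pb_chart' he (df hP _) h1, h2 z hz1, H175.comp_comp_alt,
    ← fderiv_comp z ((hG _ h1).differentiableAt (by simp)) ((p4 z hz1).differentiableAt (by simp))]
  have h3 : fderiv ℝ ((fun z => e (P z)) ∘ φ.symm) z = ContinuousLinearMap.id ℝ E4 := by
    rw [← fderiv_id (𝕜 := ℝ) (x := z)]
    refine Filter.EventuallyEq.fderiv_eq ?_
    filter_upwards [φ.open_target.mem_nhds hz1] with z' hz2
    exact h2 z' hz2
  rw [h3]
  rfl

theorem smooth_fam (hP : IsT4 P) {W : ℝ → Form X k}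
    (h : ContDiff ℝ ∞ fun p : ℝ × R4 => pb P (W p.1) p.2) {e : Ch X} (he : e ∈ atlas E4 X) :
    ContDiffOn ℝ ∞ (fun p : ℝ × E4 => HS.loc e (W p.1) p.2) (univ ×ˢ e.target) := by
  rintro ⟨t, z⟩ hz
  obtain ⟨ψ, h1, h2⟩ := loc_inv hP he hz.2
  have h3 : ContDiffAt ℝ ∞ (fun p : ℝ × E4 => ψ p.2) (t, z) := h1.comp (t, z) contDiffAt_snd
  have h4 : ContDiffAt ℝ ∞ (fun p : ℝ × E4 => fderiv ℝ ψ p.2) (t, z) :=
    (h1.fderiv_right (m := ∞) (by simp)).comp (t, z) contDiffAt_snd
  have h5 : ContDiffAt ℝ ∞ (fun p : ℝ × E4 => pb P (W p.1) (ψ p.2)) (t, z) :=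
    h.contDiffAt.comp (t, z) (contDiffAt_fst.prodMk h3)
  refine ((H175.contDiffAt_comp_alt h5 h4).congr_of_eventuallyEq ?_).contDiffWithinAt
  have h6 : Tendsto (fun p : ℝ × E4 => p.2) (𝓝 (t, z)) (𝓝 z) := continuous_snd.continuousAt
  filter_upwards [h6.eventually h2] with p hp
  exact hp k _

theorem smooth_of (hP : IsT4 P) {α : Form X k} (h : ContDiff ℝ ∞ (pb P α)) : HS.Smooth α := by
  intro e he z hz
  obtain ⟨ψ, h1, h2⟩ := loc_inv hP he hz
  refine ((H175.contDiffAt_pullback h1 h.contDiffAt).congr_of_eventuallyEq ?_).contDiffWithinAt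
  filter_upwards [h2] with p hp
  exact hp k _

theorem smooth_push (hP : IsT4 P) {a : Stmt.Form k} (ha : Stmt.OnTorus a) :
    HS.Smooth (push hP a) := smooth_of hP (by rw [pb_push hP ha]; exact ha.1)

theorem d_pb (hP : IsT4 P) {α : Form X k} (hα : HS.Smooth α) (y : R4) :
    extDeriv (pb P α) y = pb P (hs (dF (rf α))) y :=
  extDeriv_pb isOpen_univ (sm hP) (mem_univ y) (smooth_iff.1 hα _)

theorem closed_push (hP : IsT4 P) {a : Stmt.Form 2} (ha : Stmt.ClosedForm a) :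
    HS.Closed (push hP a) := by
  refine (closed_iff (smooth_push hP ha.1)).2 fun x => ?_
  have h := pb_inj hP (α := hs (dF (rf (push hP a)))) (β := fun _ => 0) fun y => by
    rw [← d_pb hP (smooth_push hP ha.1), pb_push hP ha.1, pb_of_zero rfl]
    exact ha.2 y
  exact congrFun h x

theorem closed_pb (hP : IsT4 P) {α : Form X 2} (hα : SC α) : Stmt.ClosedForm (pb P α) :=
  ⟨⟨contDiffOn_univ.1 (contDiffOn_pb isOpen_univ (sm hP) hα.1), pb_per hP α⟩,
    fun y => extDeriv_pb_sc isOpen_univ (sm hP) hα (mem_univ y)⟩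

theorem exact_of (hP : IsT4 P) {α β : Form X 2} (h : Stmt.Cohomologous (pb P α) (pb P β)) :
    HS.Exact fun x => α x - β x := by
  obtain ⟨a, h1, h2⟩ := h
  refine exact_iff.2 ⟨rf (push hP a), smooth_iff.1 (smooth_push hP h1), ?_⟩
  refine congrArg rf (pb_inj hP (α := hs (dF (rf (push hP a)))) fun y => ?_)
  rw [← d_pb hP (smooth_push hP h1), pb_push hP h1, pb_sub]
  ext v
  have h3 : v = ![v 0, v 1] := by
    funext i
    fin_cases i <;> rfl
  rw [h3]
  exact (h2 y _ _).symm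

theorem wedge_eq' (hμ : Volume μ) (α β : Form X 2) {y : R4} (hy : 0 < pb P μ y (fr TR)) :
    Stmt.wedge (pb P α) (pb P β) y = pb P μ y (fr TR) * quot μ α β (P y) := by
  have h := abs_mul_q4 hμ TR P (W22 (rf α) (rf β)) (y := y) (σ := 1)
    (by rw [one_mul, abs_of_pos hy])
  rw [abs_of_pos hy, one_mul, ← wedge_pb, ← P247M.quot_eq] at h
  rw [h]
  rfl

theorem posDef_iff (w : Tri X) (x : X) : (Qm μ w x).PosDef ↔
    ∀ c : Fin 3 → ℝ, c ≠ 0 → 0 < ∑ i, ∑ j, c i * c j * quot μ (w i) (w j) x := by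
  have h1 : (Qm μ w x).IsHermitian := by
    ext i j
    simp [Qm, quot_comm μ (w i) (w j)]
  have h2 : ∀ c : Fin 3 → ℝ, star c ⬝ᵥ (Qm μ w x).mulVec c =
      (∑ i, ∑ j, c i * c j * quot μ (w i) (w j) x) / 2 := by
    intro c
    simp only [dotProduct, Matrix.mulVec, Qm, Matrix.of_apply, Fin.sum_univ_three, star_trivial]
    ring
  rw [Matrix.posDef_iff_dotProduct_mulVec]
  simp only [h1, true_and, h2]
  exact ⟨fun h c hc => by linarith [h hc], fun h c hc => half_pos (h c hc)⟩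

theorem pos_iff (hμ : Volume μ) (w : Tri X) {y : R4} (hy : 0 < pb P μ y (fr TR)) :
    (Qm μ w (P y)).PosDef ↔ ∀ c : Fin 3 → ℝ, c ≠ 0 →
      0 < ∑ i, ∑ j, c i * c j * Stmt.wedge (pb P (w i)) (pb P (w j)) y := by
  rw [posDef_iff]
  refine forall_congr' fun c => imp_congr_right fun _ => ?_
  have : ∑ i, ∑ j, c i * c j * Stmt.wedge (pb P (w i)) (pb P (w j)) y =
      pb P μ y (fr TR) * ∑ i, ∑ j, c i * c j * quot μ (w i) (w j) (P y) := by
    simp only [wedge_eq' hμ _ _ hy, Fin.sum_univ_three]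
    ring
  rw [this, mul_pos_iff_of_pos_left hy]

theorem pair_eq' (hP : IsT4 P) (hμ : Volume μ) (hy : ∀ y, 0 < pb P μ y (fr TR)) {α β : Form X 2}
    (hα : Cont α) (hβ : Cont β) :
    pair μ α β = ∫ y in Icc (0 : R4) 1, Stmt.wedge (pb P α) (pb P β) y := by
  have hinj : InjOn P (pi univ fun _ => Ico (0 : ℝ) 1) := by
    intro x hx y hy h
    obtain ⟨n, rfl⟩ := (hP.fib x y).1 h
    funext i
    have h1 := hx i trivial
    have h2 : x i + n i ∈ Ico (0 : ℝ) 1 := hy i trivial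
    have h3 : (n i : ℝ) < 1 := by linarith [h1.1, h2.2]
    have h4 : (-1 : ℝ) < n i := by linarith [h1.2, h2.1]
    have h5 : n i < 1 := by exact_mod_cast h3
    have h6 : -1 < n i := by exact_mod_cast h4
    have h7 : n i = 0 := by omega
    simp [tr, h7]
  have hsurj : ∀ x, x ∈ P '' (pi univ fun _ => Ico (0 : ℝ) 1) := by
    intro x
    obtain ⟨y, rfl⟩ := hP.surj x
    refine ⟨tr (fun i => -⌊y i⌋) y, fun i _ => ?_, per hP _ _⟩
    have h1 : tr (fun i => -⌊y i⌋) y i = Int.fract (y i) := by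
      simp [tr, Int.fract, sub_eq_add_neg]
    rw [h1]
    exact ⟨Int.fract_nonneg _, Int.fract_lt_one _⟩
  rw [pair_param preserving_TR isOpen_univ (sm hP) hμ
    (MeasurableSet.univ_pi fun _ => measurableSet_Ico) (subset_univ _) hinj (σ := 1)
    (fun y _ => by rw [one_mul, abs_of_pos (hy y)]) hα hβ
    (Eventually.of_forall fun x hx => (hx (hsurj x)).elim), one_mul]
  exact setIntegral_congr_set (Measure.univ_pi_Ico_ae_eq_Icc (f := (0 : R4)) (g := 1))

theorem hyp_push (hP : IsT4 P) (hμ : Volume μ) (hy : ∀ y, 0 < pb P μ y (fr TR))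
    {a : Fin 3 → Stmt.Form 2} (ha : Stmt.Hypersymplectic a) :
    Hypersymplectic μ fun i => push hP (a i) := by
  refine ⟨fun i => smooth_push hP (ha.closed i).1, fun i => closed_push hP (ha.closed i),
    fun x => ?_⟩
  obtain ⟨y, rfl⟩ := hP.surj x
  rw [pos_iff hμ _ (hy y)]
  simp only [fun i => pb_push hP (ha.closed i).1]
  exact ha.posDef y

theorem hk_of (hP : IsT4 P) (hμ : Volume μ) (hy : ∀ y, 0 < pb P μ y (fr TR)) {v : Tri X}
    (hv : Hypersymplectic μ v) (hk : Stmt.Hyperkahler fun i => pb P (v i)) : Hyperkahler μ v := by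
  obtain ⟨m, hm, h⟩ := hk.orthogonal
  have h1 : ∀ y i j, quot μ (v i) (v j) (P y) =
      (if i = j then 2 * m y else 0) / pb P μ y (fr TR) := fun y i j => by
    rw [← h y i j, wedge_eq' hμ _ _ (hy y), mul_div_cancel_left₀ _ (hy y).ne']
  have hp : ∀ x, 0 < quot μ (v 0) (v 0) x := fun x => by
    obtain ⟨y, rfl⟩ := hP.surj x
    rw [h1, if_pos rfl]
    exact div_pos (mul_pos two_pos (hm y)) (hy y)
  refine ⟨hv, smulV (fun x => quot μ (v 0) (v 0) x / 2) μ, volume_of hμ (hv.smooth 0) hp,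
    fun x => ?_, fun x => ?_⟩
  · show 0 < (quot μ (v 0) (v 0) x / 2 * rf μ x bas) / rf μ x bas
    rw [mul_div_assoc, div_self (mu_ne hμ x), mul_one]
    exact half_pos (hp x)
  · ext i j
    show quot (smulV (fun x => quot μ (v 0) (v 0) x / 2) μ) (v i) (v j) x / 2 = _
    obtain ⟨y, rfl⟩ := hP.surj x
    rw [quot_smulV, Matrix.one_apply, h1, h1, if_pos rfl]
    have h2 := (hm y).ne'
    have h3 := (hy y).ne'
    split_ifs
    · field_simp
    · simp

theorem main (h : Q1T4_statement) (hP : IsT4 P) (hμ : Volume μ)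
    (hy : ∀ y, 0 < pb P μ y (fr TR)) : Q1For X μ := by
  intro w hw hn
  obtain ⟨γ, hγ, hk⟩ := h (fun i => pb P (w i))
    ⟨fun i => closed_pb hP (hyp_sc hw i), fun y => (pos_iff hμ w (hy y)).1 (hw.posDef _)⟩
    fun i j => by rw [← pair_eq' hP hμ hy (hyp_sc hw i).cont (hyp_sc hw j).cont, hn]
  have hs : ∀ t, Real.smoothTransition t ∈ Icc (0 : ℝ) 1 := fun t =>
    ⟨Real.smoothTransition.nonneg t, Real.smoothTransition.le_one t⟩
  have hT : ∀ t i, Stmt.OnTorus (γ (Real.smoothTransition t) i) := fun t i =>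
    ((hγ.hypersymplectic _ (hs t)).closed i).1
  refine ⟨fun t i => push hP (γ (Real.smoothTransition t) i), ⟨fun i e he => ?_,
    fun t _ => hyp_push hP hμ hy (hγ.hypersymplectic _ (hs t)), ?_, fun t i => ?_⟩, ?_⟩
  · refine smooth_fam hP (W := fun t => push hP (γ (Real.smoothTransition t) i)) ?_ he
    simp only [fun t => pb_push hP (hT t i)]
    refine contDiff_iff_contDiffAt.2 fun p => H175.contDiffAt_alt_iff.2 fun v => ?_
    have h3 : v = ![v 0, v 1] := by
      funext i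
      fin_cases i <;> rfl
    rw [h3]
    exact ((hγ.smooth i (v 0) (v 1)).comp
      ((Real.smoothTransition.contDiff.comp contDiff_fst).prodMk contDiff_snd)).contDiffAt
  · funext i
    refine pb_inj hP fun y => ?_
    rw [pb_push hP (hT 0 i), Real.smoothTransition.zero, hγ.start]
  · refine exact_of hP ?_
    rw [pb_push hP (hT t i)]
    exact hγ.cohomologous _ (hs t) i
  · refine hk_of hP hμ hy (hyp_push hP hμ hy (hγ.hypersymplectic _ (hs 1))) ?_
    simp only [fun i => pb_push hP (hT 1 i)]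
    rw [Real.smoothTransition.one]
    exact hk

/-- the exchange of two coordinates -/
def sw : R4 →L[ℝ] R4 :=
  ContinuousLinearMap.pi fun i => ContinuousLinearMap.proj (Equiv.swap (0 : Fin 4) 1 i)

theorem sw_sw (x : R4) : sw (sw x) = x := by
  funext i
  show x (Equiv.swap 0 1 (Equiv.swap 0 1 i)) = x i
  rw [Equiv.swap_apply_self]

theorem dP_sw (hP : IsT4 P) (y : R4) : dP (fun x => P (sw x)) y = (dP P (sw y)).comp sw := by
  have h := mfderiv_comp y (df hP (sw y)) (sw.mdifferentiableAt (x := y))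
  rw [sw.mfderiv_eq] at h
  exact h

theorem isT4_sw (hP : IsT4 P) : IsT4 fun x => P (sw x) := by
  have hb : Bijective sw := Function.Involutive.bijective sw_sw
  refine ⟨hP.smooth.comp sw.contDiff.contMDiff, fun y => ?_, hP.surj.comp hb.2, fun x y => ?_⟩
  · have h : Bijective (dP (fun x => P (sw x)) y) := by
      rw [dP_sw hP]
      exact Bijective.comp (g := dP P (sw y)) (hP.imm (sw y)) hb
    exact h
  · rw [hP.fib]
    constructor
    · rintro ⟨n, hn⟩
      refine ⟨fun i => n (Equiv.swap 0 1 i), ?_⟩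
      rw [← sw_sw y, hn]
      funext i
      show x (Equiv.swap 0 1 (Equiv.swap 0 1 i)) + _ = x i + _
      rw [Equiv.swap_apply_self]
    · rintro ⟨n, rfl⟩
      exact ⟨fun i => n (Equiv.swap 0 1 i), rfl⟩

theorem pb_sw (hP : IsT4 P) (y : R4) :
    pb (fun x => P (sw x)) μ y (fr TR) = -pb P μ (sw y) (fr TR) := by
  refine Eq.trans ?_ ((pb P μ (sw y)).map_swap (v := fr TR) (i := 0) (j := 1) (by decide))
  rw [pb, dP_sw hP]
  show pb P μ (sw y) (fun i => sw (fr TR i)) = pb P μ (sw y) (fr TR ∘ Equiv.swap 0 1)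
  congr 1
  funext i j
  rw [fr_TR]
  show (Pi.single i 1 : R4) (Equiv.swap 0 1 j) = (Pi.single (Equiv.swap (0 : Fin 4) 1 i) 1 : R4) j
  simp only [Pi.single_apply, Equiv.swap_apply_eq_iff]

theorem pb_ne (hP : IsT4 P) (hμ : Volume μ) (y : R4) : pb P μ y (fr TR) ≠ 0 := by
  rw [pb_fr]
  refine mul_ne_zero ?_ (top_ne (hμ.ne_zero _))
  have h4 : Injective ((dP P y).comp (TR : E4 →L[ℝ] R4)) := (hP.imm y).1.comp TR.injective
  intro h5
  have h6 := LinearMap.bot_lt_ker_of_det_eq_zero h5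
  rw [LinearMap.ker_eq_bot.2 h4] at h6
  exact lt_irrefl _ h6

end Trf

open Trf in
theorem trf_of (h : Q1T4_statement) : TRF_statement := by
  intro X _ μ hμ P hP
  obtain ⟨σ, hσ, h1⟩ := exists_sign (T := TR) isOpen_univ (sm hP) hμ isPreconnected_univ
    (subset_univ _) fun y _ => (hP.imm y).1
  rcases hσ with rfl | rfl
  · refine main h hP hμ fun y => ?_
    have h2 := h1 y trivial
    have h3 := abs_pos.2 (pb_ne hP hμ y)
    linarith
  · refine main h (isT4_sw hP) hμ fun y => ?_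
    rw [pb_sw hP]
    have h2 := h1 (sw y) trivial
    have h3 := abs_pos.2 (pb_ne hP hμ (sw y))
    linarith

end Vale.Agent.P247A
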