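import Vale.Agent.P247A.Z3a

/-!
# P247, row Z3Q: quaternions and the local model
-/

set_option linter.all false

open scoped ContDiff Topology
open Set Filter Function Metric MeasureTheory

noncomputable section

namespace Vale.Agent.P247A.Z3

open Vale.Agent.P204.GX Vale.Agent.P204.T4 Vale.Agent.P247E

/-- block triangular maps -/
theorem det_tri {V W : Type} [NormedAddCommGroup V] [NormedSpace ℝ V] [FiniteDimensional ℝ V]
    [NormedAddCommGroup W] [NormedSpace ℝ W] [FiniteDimensional ℝ W] {S : V × W →L[ℝ] V × W}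
    (A : V →L[ℝ] V) (B : W →L[ℝ] W) (h1 : ∀ p, (S p).1 = A p.1) (h2 : ∀ w, (S (0, w)).2 = B w) :
    S.det = A.det * B.det := by
  let b := Module.Free.chooseBasis ℝ V
  let b' := Module.Free.chooseBasis ℝ W
  have e : LinearMap.toMatrix (b.prod b') (b.prod b') (S : V × W →ₗ[ℝ] V × W) = Matrix.fromBlocks
      (LinearMap.toMatrix b b A) 0 (LinearMap.toMatrix (b.prod b') (b.prod b')
        (S : V × W →ₗ[ℝ] V × W)).toBlocks₂₁ (LinearMap.toMatrix b' b' B) := by
    ext (i | i) (j | j) <;> simp [LinearMap.toMatrix_apply, h1, h2, Matrix.toBlocks₂₁]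
  unfold ContinuousLinearMap.det
  rw [← LinearMap.det_toMatrix (b.prod b'), e, Matrix.det_fromBlocks_zero₁₂, LinearMap.det_toMatrix,
    LinearMap.det_toMatrix]

theorem det_pm (A B : V4 →L[ℝ] V4) : (A.prodMap B).det = A.det * B.det :=
  LinearMap.det_prodMap (A : V4 →ₗ[ℝ] V4) (B : V4 →ₗ[ℝ] V4)

/-- the matrix of `f ↦ w * conj f` -/
def Pm (w : V4) : M4 :=
  ![![w 0, w 1, w 2, w 3], ![w 1, -w 0, w 3, -w 2], ![w 2, -w 3, -w 0, w 1],
    ![w 3, w 2, -w 1, -w 0]]

/-- the quaternionic pairing `w * conj f` -/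
def Pb : V4 →L[ℝ] V4 →L[ℝ] V4 := apL.comp (LinearMap.toContinuousLinearMap
  { toFun := Pm
    map_add' := fun a b => by ext i j; fin_cases i <;> fin_cases j <;> simp [Pm, add_comm]
    map_smul' := fun a b => by ext i j; fin_cases i <;> fin_cases j <;> simp [Pm] })

theorem Pb_eq (w f : V4) : Pb w f = app (Pm w) f := rfl

/-- left multiplication by a cube root of unity -/
def Zq : V4 →L[ℝ] V4 := apL ![![-1/2, -1/2, -1/2, -1/2], ![1/2, -1/2, -1/2, 1/2],
  ![1/2, 1/2, -1/2, -1/2], ![1/2, -1/2, 1/2, -1/2]]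

/-- left multiplication by `i - j` -/
def Jq : V4 →L[ℝ] V4 := apL ![![0, -1, 1, 0], ![1, 0, 0, -1], ![-1, 0, 0, -1], ![0, 1, 1, 0]]

theorem Pb_Rq (w f : V4) : Pb w f = app (Rq (cq f)) w := by
  funext i
  fin_cases i <;> simp [Pb_eq, Pm, Rq, cq, app_eq] <;> ring

theorem Z_P (w f : V4) : Pb (Zq w) f = Zq (Pb w f) := by
  funext i
  fin_cases i <;> simp [Pb_eq, Pm, Zq, apL_apply, app_eq] <;> ring

theorem Z_R (q w : V4) : Zq (app (Rq q) w) = app (Rq q) (Zq w) := by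
  funext i
  fin_cases i <;> simp [Rq, Zq, apL_apply, app_eq] <;> ring

theorem ZZ (w : V4) : Zq (Zq w) = -w - Zq w := by
  funext i
  fin_cases i <;> simp [Zq, apL_apply, app_eq] <;> ring

theorem ZZZ (w : V4) : Zq (Zq (Zq w)) = w := by
  rw [ZZ, ZZ]; abel

theorem J_Z (w : V4) : Jq (Zq w) = Zq (Zq (Jq w)) := by
  funext i
  fin_cases i <;> simp [Jq, Zq, apL_apply, app_eq] <;> ring

theorem P_R (q w f : V4) : Pb (app (Rq q) w) (app (Rq q) f) = (∑ c, q c ^ 2) • Pb w f := by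
  funext i
  fin_cases i <;> simp [Pb_eq, Pm, Rq, app_eq, Fin.sum_univ_four] <;> ring

theorem ssq_pos {f : V4} (h : f ≠ 0) : 0 < ∑ c, f c ^ 2 := by
  obtain ⟨c, hc⟩ := Function.ne_iff.1 h
  exact Finset.sum_pos' (fun _ _ => sq_nonneg _) ⟨c, by simp, sq_pos_iff.2 hc⟩

theorem det_Pb {w : V4} (h : w ≠ 0) : (Pb w).det < 0 := by
  have : (Pb w).det = -(∑ c, w c ^ 2) ^ 2 := by
    refine (det_apL (Pm w)).trans ?_
    simp [det4, mn, Pm, Fin.sum_univ_four]
    ring
  rw [this, neg_lt_zero]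
  exact pow_pos (ssq_pos h) 2

theorem det_Pf {f : V4} (h : f ≠ 0) : 0 < (Pb.flip f).det := by
  have : (Pb.flip f).det = (∑ c, f c ^ 2) ^ 2 := by
    rw [show Pb.flip f = apL (Rq (cq f)) from ContinuousLinearMap.ext fun w => Pb_Rq w f, det_apL]
    simp [det4, mn, Rq, cq, Fin.sum_univ_four]
    ring
  rw [this]
  exact pow_pos (ssq_pos h) 2

theorem det_Jq : 0 < Jq.det := by
  rw [Jq, det_apL]
  simp [det4, mn]
  norm_num

theorem P_zero {w f : V4} (h : Pb w f = 0) (hf : f ≠ 0) : w = 0 :=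
  (injective_iff_map_eq_zero _).1 (det_ne.1 (det_Pf hf).ne') w h

theorem J_zero {w : V4} (h : Jq w = 0) : w = 0 :=
  (injective_iff_map_eq_zero _).1 (det_ne.1 det_Jq.ne') w h

theorem surj_of {V : Type} [NormedAddCommGroup V] [NormedSpace ℝ V] [FiniteDimensional ℝ V]
    {A : V →L[ℝ] V} (h : A.det ≠ 0) : Surjective A :=
  (LinearMap.injective_iff_surjective (f := (A : V →ₗ[ℝ] V))).1 (det_ne.1 h)

/-- the linear part of the equivariant map -/
def AA : V4 × V4 →L[ℝ] V4 × V4 →L[ℝ] E3 := (LinearMap.mk₂ ℝ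
  (fun (p w : V4 × V4) => ((Pb w.1 p.1, Pb w.1 p.2 + Jq (Pb w.2 p.1), Pb w.2 p.2) : E3))
  (fun _ _ _ => by simp [add_add_add_comm]) (fun _ _ _ => by simp)
  (fun _ _ _ => by simp [add_add_add_comm]) fun _ _ _ => by simp).toContinuousBilinearMap

theorem AA_eq (p w : V4 × V4) :
    AA p w = (Pb w.1 p.1, Pb w.1 p.2 + Jq (Pb w.2 p.1), Pb w.2 p.2) := rfl

/-- the discrete Fourier transform -/
def WL : E3 →ₗ[ℝ] V4 × V4 where
  toFun y := (y.1 + Zq y.2.1 + Zq (Zq y.2.2), y.1 + Zq (Zq y.2.1) + Zq y.2.2)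
  map_add' a b := by
    simp only [Prod.fst_add, Prod.snd_add, map_add, Prod.mk_add_mk, Prod.mk.injEq]
    constructor <;> abel
  map_smul' a b := by
    simp only [Prod.smul_fst, Prod.smul_snd, map_smul, Prod.smul_mk, smul_add, RingHom.id_apply]

/-- the discrete Fourier transform of the frame components -/
def NN : M4 →L[ℝ] E3 →L[ℝ] V4 × V4 := (LinearMap.mk₂ ℝ
  (fun (N : M4) (y : E3) => WL (apL N y.1, apL N y.2.1, apL N y.2.2))
  (fun _ _ _ => by rw [← map_add WL, map_add apL]; rfl)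
  (fun _ _ _ => by rw [← map_smul WL, map_smul apL]; rfl)
  (fun _ _ _ => by simp only [← map_add WL, Prod.fst_add, Prod.snd_add, map_add (apL _)]; rfl)
  fun _ _ _ => by
    simp only [← map_smul WL, Prod.smul_fst, Prod.smul_snd, map_smul (apL _)]
    rfl).toContinuousBilinearMap

theorem NN_eq (N : M4) (y : E3) : NN N y = (apL N y.1 + Zq (apL N y.2.1) + Zq (Zq (apL N y.2.2)),
    apL N y.1 + Zq (Zq (apL N y.2.1)) + Zq (apL N y.2.2)) := rfl

/-- the barycentre -/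
def mL : E3 →L[ℝ] V4 := (3⁻¹ : ℝ) • (.fst ℝ V4 _ + (ContinuousLinearMap.fst ℝ V4 V4).comp
  (.snd ℝ V4 _) + (ContinuousLinearMap.snd ℝ V4 V4).comp (.snd ℝ V4 _))

theorem mL_eq (y : E3) : mL y = (3⁻¹ : ℝ) • (y.1 + y.2.1 + y.2.2) := rfl

theorem mL_dg (m : V4) : mL (dg m) = m := by
  simp only [mL_eq, dg]; module

theorem mL_sh (y : E3) : mL (sh y) = mL y := by
  simp only [mL_eq, sh]; module

theorem NN_dg (N : M4) (m : V4) : NN N (dg m) = 0 := by
  simp only [NN_eq, dg, ZZ, Prod.mk_eq_zero]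
  constructor <;> abel

/-- the action on the target -/
def gL : E3 →L[ℝ] E3 := d3 (Zq.comp Zq) (Zq.comp Zq) Zq

theorem gL_cube (v : E3) : gL (gL (gL v)) = v := by
  obtain ⟨a, b, c⟩ := v
  simp [gL, d3, ZZZ]

theorem AA_sh (p : V4 × V4) (N : M4) (y : E3) : AA p (NN N (sh y)) = gL (AA p (NN N y)) := by
  have e : NN N (sh y) = (Zq (Zq (NN N y).1), Zq (NN N y).2) := by
    simp only [NN_eq, sh, map_add, ZZZ, Prod.mk.injEq]
    constructor <;> abel
  rw [e]
  simp [AA_eq, gL, d3, Z_P, J_Z]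

theorem AA_R {q : V4} (hq : ∑ c, q c ^ 2 = 1) (u v : V4) (N : M4) (y : E3) :
    AA (app (Rq q) u, app (Rq q) v) (NN (mm (Rq q) N) y) = AA (u, v) (NN N y) := by
  simp only [AA_eq, NN_eq, apL_apply, app_mm, Z_R, ← app_add, P_R, hq, one_smul]

theorem NN_mm (N T : M4) (y : E3) : NN (mm N T) y = NN N (d3 (apL T) (apL T) (apL T) y) := by
  simp only [NN_eq, apL_apply, app_mm]; rfl

theorem NN_zero {N : M4} (hN : Injective (apL N)) {y : E3} (h : NN N y = 0) : y ∈ range dg := by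
  have h1 := congrArg Prod.fst h
  have h2 := congrArg Prod.snd h
  have h3 := congrArg Zq h1
  have h4 := congrArg Zq h2
  simp only [NN_eq, map_add, map_sub, map_neg, ZZ, Prod.fst_zero, Prod.snd_zero, map_zero]
    at h1 h2 h3 h4
  refine ⟨y.1, Prod.ext rfl (Prod.ext (hN ?_) (hN ?_))⟩
  · change apL N y.1 = _
    linear_combination (norm := module) (2 / 3 : ℝ) • h1 + (1 / 3 : ℝ) • h2 + (1 / 3 : ℝ) • h3 -
      (1 / 3 : ℝ) • h4
  · change apL N y.1 = _
    linear_combination (norm := module) (1 / 3 : ℝ) • h1 + (2 / 3 : ℝ) • h2 - (1 / 3 : ℝ) • h3 +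
      (1 / 3 : ℝ) • h4

theorem inj_Φ {N : M4} (hN : Injective (apL N)) : Injective (mL.prod (NN N)) :=
  (injective_iff_map_eq_zero _).2 fun y h => by
    obtain ⟨m, rfl⟩ := NN_zero hN (congrArg Prod.snd h)
    exact congrArg dg ((mL_dg m).symm.trans (congrArg Prod.fst h))

/-- the universal sign -/
def s₀ : ℤ := SignType.sign (mL.prod (NN oneM)).det

theorem s₀_sq : s₀ * s₀ = 1 := by
  have h := det_ne.2 (inj_Φ (N := oneM) fun a b h => by simpa only [apL_apply, app_one] using h)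
  rcases lt_or_gt_of_ne h with k | k <;> simp [s₀, k]

theorem sign_Φ {N N' : M4} (h : ∀ v, app N' (app N v) = v) :
    (SignType.sign (mL.prod (NN N)).det : ℤ) = s₀ := by
  have e : mL.prod (NN N) = (d3 (apL N') (.id ℝ _) (.id ℝ _)).comp ((mL.prod (NN oneM)).comp
      (d3 (apL N) (apL N) (apL N))) := ContinuousLinearMap.ext fun y => by
    refine Prod.ext ?_ ((congrArg (fun T => NN T y) (one_mm N).symm).trans (NN_mm _ _ _))
    change mL y = apL N' ((3⁻¹ : ℝ) • (apL N y.1 + apL N y.2.1 + apL N y.2.2))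
    simp only [map_smul, map_add, apL_apply, h, mL_eq]
  have k : (apL N').det * (apL N).det = 1 := by
    rw [← det_comp, show (apL N').comp (apL N) = .id ℝ _ from ContinuousLinearMap.ext h]
    exact LinearMap.det_id
  have i : (ContinuousLinearMap.id ℝ V4).det = 1 := LinearMap.det_id
  have p : 0 < (apL N).det * (apL N).det := mul_self_pos.2 (right_ne_zero_of_mul_eq_one k)
  rw [e, det_comp, det_comp, det_d3, det_d3, i, show ∀ a b c : ℝ, a * (1 * 1) * (b * (c * (c * c)))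
    = b * (c * c) * (a * c) from fun a b c => by ring, k, mul_one, sign_mul, sign_pos p, mul_one, s₀]

/-- the local model -/
def Fm (n : V4 → M4) (p : V4 → V4 × V4) (y : E3) : E3 := AA (p (mL y)) (NN (n (mL y)) y)

variable {n : V4 → M4} {p : V4 → V4 × V4}

theorem Fm_sm (hn : ContDiff ℝ ∞ n) (hp : ContDiff ℝ ∞ p) : ContDiff ℝ ∞ (Fm n p) :=
  (AA.contDiff.comp (hp.comp mL.contDiff)).clm_apply
    ((NN.contDiff.comp (hn.comp mL.contDiff)).clm_apply contDiff_id)

theorem Fm_sh (y : E3) : Fm n p (sh y) = gL (Fm n p y) := by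
  rw [Fm, mL_sh, AA_sh, Fm]

theorem Fm_dg (m : V4) : Fm n p (dg m) = 0 := by
  rw [Fm, NN_dg, map_zero]

theorem Fm_d (hn : ContDiff ℝ ∞ n) (hp : ContDiff ℝ ∞ p) (y h : E3) :
    fderiv ℝ (Fm n p) y h = AA (p (mL y)) (NN (n (mL y)) h + NN (fderiv ℝ n (mL y) (mL h)) y) +
      AA (fderiv ℝ p (mL y) (mL h)) (NN (n (mL y)) y) := by
  have k := AA.hasFDerivAt_of_bilinear ((hp.differentiable (by simp) _).hasFDerivAt.comp y
    mL.hasFDerivAt) (NN.hasFDerivAt_of_bilinear ((hn.differentiable (by simp) _).hasFDerivAt.comp y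
      mL.hasFDerivAt) (hasFDerivAt_id y))
  rw [show fderiv ℝ (Fm n p) y = _ from k.fderiv]
  rfl

/-- the vector of the perturbation -/
def ee : E3 := (0, fun _ => 1, 0)

/-- the data of a zero -/
structure ZD (p : V4 → V4 × V4) (m : V4) (w : V4 × V4) (s : ℤ) : Prop where
  loc : ∀ᶠ z in 𝓝 m, ∀ v (t : ℝ), AA (p z) v + t • ee = 0 →
    (t = 0 → v = 0) ∧ (t ≠ 0 → z = m ∧ v = t • w)
  sol : AA (p m) w + ee = 0
  sgn : ∀ t : ℝ, t ≠ 0 → ∀ (α : V4 →L[ℝ] V4 × V4) (S : E3 →L[ℝ] E3),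
    (∀ y, S y = AA (p m) (y.2 + α y.1) + AA (fderiv ℝ p m y.1) (t • w)) →
    (SignType.sign S.det : ℤ) = s

theorem ZD.model (hn : ContDiff ℝ ∞ n) (hp : ContDiff ℝ ∞ p) {n' : V4 → M4}
    (hn' : ∀ y v, app (n' y) (app (n y) v) = v) {m : V4} {w : V4 × V4} {s : ℤ} (h : ZD p m w s) :
    ∃ d : E3, (∀ᶠ y in 𝓝 (dg m), (Fm n p y = 0 → y ∈ range dg) ∧
      ∀ t : ℝ, t ≠ 0 → Fm n p y + t • ee = 0 → y = dg m + t • d) ∧
      ∀ t : ℝ, t ≠ 0 → Fm n p (dg m + t • d) + t • ee = 0 ∧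
        (SignType.sign (fderiv ℝ (Fm n p) (dg m + t • d)).det : ℤ) = s * s₀ := by
  have i : ∀ z, Injective (apL (n z)) := fun z => LeftInverse.injective (hn' z)
  obtain ⟨d, hd⟩ := surj_of (det_ne.2 (inj_Φ (i m))) (0, w)
  have d1 : ∀ t : ℝ, mL (dg m + t • d) = m := fun t => by
    rw [map_add, map_smul, mL_dg, show mL d = 0 from congrArg Prod.fst hd, smul_zero, add_zero]
  have d2 : ∀ t : ℝ, NN (n m) (dg m + t • d) = t • w := fun t => by
    rw [map_add, map_smul, NN_dg, show NN (n m) d = w from congrArg Prod.snd hd, zero_add]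
  refine ⟨d, ?_, fun t ht => ⟨?_, ?_⟩⟩
  · have c : Tendsto mL (𝓝 (dg m)) (𝓝 m) := by
      simpa only [mL_dg] using mL.continuous.tendsto (dg m)
    filter_upwards [c.eventually h.loc] with y hy
    refine ⟨fun k => NN_zero (i _) ((hy _ 0 (by simpa [Fm] using k)).1 rfl), fun t ht k => ?_⟩
    obtain ⟨k1, k2⟩ := (hy _ t k).2 ht
    exact inj_Φ (i m) (Prod.ext (k1.trans (d1 t).symm) ((k1 ▸ k2 :).trans (d2 t).symm))
  · rw [Fm, d1, d2, map_smul, ← smul_add, h.sol, smul_zero]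
  · let α := (NN.flip (dg m + t • d)).comp (fderiv ℝ n m)
    let S := (AA (p m)).comp (.snd ℝ V4 _ + α.comp (.fst ℝ V4 _)) +
      (AA.flip (t • w)).comp ((fderiv ℝ p m).comp (.fst ℝ V4 (V4 × V4)))
    rw [show fderiv ℝ (Fm n p) (dg m + t • d) = S.comp (mL.prod (NN (n m))) from
      ContinuousLinearMap.ext fun y => by rw [Fm_d hn hp, d1, d2]; rfl, det_comp, sign_mul,
      SignType.coe_mul, h.sgn t ht α S fun _ => rfl, sign_Φ (hn' m)]

theorem ev_zero {u : V4 → V4} {m : V4} (hu : DifferentiableAt ℝ u m)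
    (h : (fderiv ℝ u m).det ≠ 0) : ∀ᶠ z in 𝓝 m, u z = 0 → z = m := by
  obtain ⟨K, -, hK⟩ := (fderiv ℝ u m : V4 →ₗ[ℝ] V4).exists_antilipschitzWith
    (LinearMap.ker_eq_bot.2 (det_ne.1 h))
  exact (eventually_nhdsWithin_iff.1 (hu.hasFDerivAt.eventually_ne (c := 0) ⟨K, hK⟩)).mono
    fun z k => not_imp_not.1 k

theorem one_ne : (fun _ => 1 : V4) ≠ 0 := fun h => one_ne_zero (congrFun h 0)

theorem sign_neg_mul {a b c : ℝ} (ha : a < 0) (hc : 0 < c) :
    (SignType.sign (a * b * c) : ℤ) = -SignType.sign b := by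
  simp [sign_mul, sign_neg ha, sign_pos hc]

theorem zd1 {u v : V4 → V4} {m : V4} (hu : DifferentiableAt ℝ u m) (hv : DifferentiableAt ℝ v m)
    (h0 : u m = 0) (h1 : v m ≠ 0) (h : (fderiv ℝ u m).det ≠ 0) :
    ∃ w, ZD (fun z => (u z, v z)) m w (-SignType.sign (fderiv ℝ u m).det) := by
  obtain ⟨w, hw⟩ := surj_of (det_Pf h1).ne' (-fun _ => 1)
  replace hw : Pb w (v m) = -fun _ => 1 := hw
  have w0 : w ≠ 0 := fun k => one_ne (by simpa [k] using hw)
  refine ⟨(w, 0), ?_, by simp [AA_eq, ee, h0, hw], fun t ht α S hS => ?_⟩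
  · filter_upwards [ev_zero hu h, hv.continuousAt.eventually_ne h1] with z k1 k2 y t k
    simp only [AA_eq, ee, Prod.smul_mk, Prod.mk_add_mk, Prod.mk_eq_zero, smul_zero, add_zero] at k
    obtain ⟨a, b, c⟩ := k
    have c' := P_zero c k2
    rw [c', map_zero, ContinuousLinearMap.zero_apply, map_zero, add_zero] at b
    refine ⟨fun e => Prod.ext (P_zero (by simpa [e] using b) k2) c', fun e => ?_⟩
    obtain rfl : z = m := k1 (by_contra fun q => one_ne ((smul_eq_zero.1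
      (by simpa [P_zero a q] using b)).resolve_left e))
    refine ⟨rfl, Prod.ext (sub_eq_zero.1 (P_zero ?_ k2)) (by simpa using c')⟩
    simpa [hw] using b
  · rw [det_tri ((Pb (t • w)).comp (fderiv ℝ u m)) ((Pb.flip (v m)).prodMap (Pb.flip (v m)))
      (fun y => by simp [hS, AA_eq, h0, hu.fderiv_prodMk hv])
      (fun y => by simp [hS, AA_eq, h0]; rfl), det_comp, det_pm]
    exact sign_neg_mul (det_Pb (smul_ne_zero ht w0)) (mul_pos (det_Pf h1) (det_Pf h1))

theorem zd2 {u v : V4 → V4} {m : V4} (hu : DifferentiableAt ℝ u m) (hv : DifferentiableAt ℝ v m)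
    (h0 : v m = 0) (h1 : u m ≠ 0) (h : (fderiv ℝ v m).det ≠ 0) :
    ∃ w, ZD (fun z => (u z, v z)) m w (-SignType.sign (fderiv ℝ v m).det) := by
  have j : 0 < (Jq.comp (Pb.flip (u m))).det := det_comp Jq _ ▸ mul_pos det_Jq (det_Pf h1)
  obtain ⟨w, hw⟩ := surj_of j.ne' (-fun _ => 1)
  replace hw : Jq (Pb w (u m)) = -fun _ => 1 := hw
  have w0 : w ≠ 0 := fun k => one_ne (by simpa [k] using hw)
  refine ⟨(0, w), ?_, by simp [AA_eq, ee, h0, hw], fun t ht α S hS => ?_⟩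
  · filter_upwards [ev_zero hv h, hu.continuousAt.eventually_ne h1] with z k1 k2 y t k
    simp only [AA_eq, ee, Prod.smul_mk, Prod.mk_add_mk, Prod.mk_eq_zero, smul_zero, add_zero] at k
    obtain ⟨a, b, c⟩ := k
    have a' := P_zero a k2
    rw [a', map_zero, ContinuousLinearMap.zero_apply, zero_add] at b
    refine ⟨fun e => Prod.ext a' (P_zero (J_zero (by simpa [e] using b)) k2), fun e => ?_⟩
    obtain rfl : z = m := k1 (by_contra fun q => one_ne ((smul_eq_zero.1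
      (by simpa [P_zero c q] using b)).resolve_left e))
    refine ⟨rfl, Prod.ext (by simpa using a') (sub_eq_zero.1 (P_zero (J_zero ?_) k2))⟩
    simpa [hw] using b
  · have e : S.det = (shL.comp (shL.comp S)).det := by
      rw [det_comp, det_comp, det_shL, one_mul, one_mul]
    have q : ∀ y, (shL.comp (shL.comp S)) y = ((S y).2.2, (S y).1, (S y).2.1) := fun _ => rfl
    rw [e, det_tri ((Pb (t • w)).comp (fderiv ℝ v m)) ((Pb.flip (u m)).prodMap
      (Jq.comp (Pb.flip (u m)))) (fun y => by simp [q, hS, AA_eq, h0, hu.fderiv_prodMk hv])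
      (fun y => by simp only [q]; simp [hS, AA_eq, h0]; rfl), det_comp, det_pm]
    exact sign_neg_mul (det_Pb (smul_ne_zero ht w0)) (mul_pos (det_Pf h1) j)

end Vale.Agent.P247A.Z3
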