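import Vale.Agent.P247A.SpecQ
import Vale.Agent.P247E.Ch

/-!
# P247, row Z3Q: smooth maps on the threefold product
-/

set_option linter.all false

open scoped ContDiff Topology
open Set Filter Function Metric MeasureTheory

noncomputable section

namespace Vale.Agent.P247A.Z3

open Vale.Agent.P204.GX Vale.Agent.P204.T4 Vale.Agent.P247E

/-- the model space -/
abbrev E3 := V4 × V4 × V4

/-- cubes -/
abbrev T3 (X : Type) := X × X × X

/-- the cyclic shift -/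
def sh {X : Type} (x : T3 X) : T3 X := (x.2.1, x.2.2, x.1)

/-- the diagonal -/
def dg {X : Type} (x : X) : T3 X := (x, x, x)

theorem sh_dg {X : Type} (x : X) : sh (dg x) = dg x := rfl

theorem mem_dg {X : Type} {x : T3 X} (h : sh x = x) : x ∈ range dg := by
  obtain ⟨a, b, c⟩ := x
  simp only [sh, Prod.mk.injEq] at h
  obtain ⟨rfl, rfl, -⟩ := h
  exact ⟨_, rfl⟩

/-- matrices as linear maps -/
def apL : M4 →L[ℝ] V4 →L[ℝ] V4 := (LinearMap.mk₂ ℝ app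
  (fun _ _ _ => by funext i; simp [app, add_mul, Finset.sum_add_distrib])
  (fun _ _ _ => by funext i; simp [app, Finset.mul_sum, mul_assoc]) app_add
  fun _ _ _ => app_smul _ _ _).toContinuousBilinearMap

theorem apL_apply (G : M4) (v : V4) : apL G v = app G v := rfl

theorem det_apL (G : M4) : (apL G).det = det4 G :=
  (LinearMap.det_toLin' (Matrix.of G)).trans (det4_eq_det G).symm

/-- block diagonal maps -/
def d3 (A B C : V4 →L[ℝ] V4) : E3 →L[ℝ] E3 := A.prodMap (B.prodMap C)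

theorem det_d3 (A B C : V4 →L[ℝ] V4) : (d3 A B C).det = A.det * (B.det * C.det) :=
  (LinearMap.det_prodMap (A : V4 →ₗ[ℝ] V4) ((B : V4 →ₗ[ℝ] V4).prodMap (C : V4 →ₗ[ℝ] V4))).trans
    (congrArg _ (LinearMap.det_prodMap _ _))

theorem det_comp {V : Type} [NormedAddCommGroup V] [NormedSpace ℝ V] (A B : V →L[ℝ] V) :
    (A.comp B).det = A.det * B.det := LinearMap.det_comp (A : V →ₗ[ℝ] V) B

theorem det_ne {V : Type} [NormedAddCommGroup V] [NormedSpace ℝ V] [FiniteDimensional ℝ V]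
    {A : V →L[ℝ] V} : A.det ≠ 0 ↔ Injective A :=
  (LinearMap.det_eq_zero_iff_ker_ne_bot (f := (A : V →ₗ[ℝ] V))).not.trans
    (not_not.trans LinearMap.ker_eq_bot)

theorem det_cube {V : Type} [NormedAddCommGroup V] [NormedSpace ℝ V] {A : V →L[ℝ] V}
    (h : ∀ v, A (A (A v)) = v) : A.det = 1 := by
  have h1 : (A.comp (A.comp A)).det = 1 := by
    rw [show A.comp (A.comp A) = .id ℝ V from ContinuousLinearMap.ext h]
    exact LinearMap.det_id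
  rw [det_comp, det_comp] at h1
  have h2 : (A.det - 1) * (A.det ^ 2 + A.det + 1) = 0 := by linear_combination h1
  rcases mul_eq_zero.1 h2 with k | k
  · linarith
  · nlinarith [sq_nonneg (A.det + 1 / 2)]

variable {X : Type} [MetricSpace X] (M : CM X)

/-- the product charts -/
def Ψ (a : T3 M.A) (y : E3) : T3 X := (M.ψ a.1 y.1, M.ψ a.2.1 y.2.1, M.ψ a.2.2 y.2.2)

/-- the preferred chart -/
def ch3 (x : T3 X) : T3 M.A := (M.ch x.1, M.ch x.2.1, M.ch x.2.2)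

/-- the preferred coordinates -/
def cy3 (x : T3 X) : E3 := (M.cy x.1, M.cy x.2.1, M.cy x.2.2)

/-- smooth maps -/
def Sm3 {G : Type} [NormedAddCommGroup G] [NormedSpace ℝ G] (f : T3 X → G) : Prop :=
  ∀ a, ContDiff ℝ ∞ fun y => f (Ψ M a y)

/-- the differential in the preferred chart -/
def dd {G : Type} [NormedAddCommGroup G] [NormedSpace ℝ G] (f : T3 X → G) (x : T3 X) :
    E3 →L[ℝ] G := fderiv ℝ (fun y => f (Ψ M (ch3 M x) y)) (cy3 M x)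

/-- the sign of the Jacobian determinant -/
def sg (f : T3 X → E3) (x : T3 X) : ℤ := SignType.sign (dd M f x).det

theorem Ψ_cy (x : T3 X) : Ψ M (ch3 M x) (cy3 M x) = x := by
  simp only [Ψ, ch3, cy3, M.ψ_cy]

theorem Ψo (a : T3 M.A) : Topology.IsOpenEmbedding (Ψ M a) :=
  (M.ψo a.1).prodMap ((M.ψo a.2.1).prodMap (M.ψo a.2.2))

variable {M}
variable {G : Type} [NormedAddCommGroup G] [NormedSpace ℝ G]

theorem Sm3.cont {f : T3 X → G} (h : Sm3 M f) : Continuous f :=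
  continuous_iff_continuousAt.2 fun x => by
    rw [← Ψ_cy M x]
    exact (Ψo M _).continuousAt_iff.1 (h _).continuous.continuousAt

theorem Sm3.hd {f : T3 X → G} (h : Sm3 M f) (x : T3 X) :
    HasFDerivAt (fun y => f (Ψ M (ch3 M x) y)) (dd M f x) (cy3 M x) :=
  ((h _).differentiable (by simp) _).hasFDerivAt

theorem Sm3.shift {f : T3 X → G} (h : Sm3 M f) : Sm3 M fun x => f (sh x) := fun a =>
  (h (sh a)).comp (f := sh) (contDiff_snd.fst.prodMk (contDiff_snd.snd.prodMk contDiff_fst))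

theorem sg_ne {f : T3 X → E3} {x : T3 X} : sg M f x ≠ 0 ↔ Injective (dd M f x) := by
  rw [← det_ne, sg]
  rcases lt_trichotomy (dd M f x).det 0 with h | h | h
  · simp [h, h.ne]
  · simp [h]
  · simp [h, h.ne']

theorem ev_chart {p : T3 X → Prop} {a : T3 M.A} {y : E3} :
    (∀ᶠ x in 𝓝 (Ψ M a y), p x) ↔ ∀ᶠ z in 𝓝 y, p (Ψ M a z) := by
  rw [← (Ψo M a).map_nhds_eq, eventually_map]

theorem det_τ {a b : M.A} {y : V4} (h : y ∈ M.O a b) : 0 < (fderiv ℝ (M.τ a b) y).det := by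
  rw [show fderiv ℝ (M.τ a b) y = apL (M.Dt a b y) from ContinuousLinearMap.ext fun v =>
    (app_Dm (M.differentiableAt_τ h) v).symm, det_apL]
  exact M.det_Dt_pos h

/-- the sign can be computed in every chart -/
theorem sg_chart {f : T3 X → E3} (h : Sm3 M f) (a : T3 M.A) (y : E3) :
    sg M f (Ψ M a y) = SignType.sign (fderiv ℝ (fun z => f (Ψ M a z)) y).det := by
  have h1 := M.mem_O_ch a.1 y.1
  have h2 := M.mem_O_ch a.2.1 y.2.1
  have h3 := M.mem_O_ch a.2.2 y.2.2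
  set b := ch3 M (Ψ M a y)
  have k : HasFDerivAt (Prod.map (M.τ a.1 b.1) (Prod.map (M.τ a.2.1 b.2.1) (M.τ a.2.2 b.2.2)))
      (d3 _ _ _) y := (M.differentiableAt_τ h1).hasFDerivAt.prodMap _
        ((M.differentiableAt_τ h2).hasFDerivAt.prodMap _ (M.differentiableAt_τ h3).hasFDerivAt)
  have e : Prod.map (M.τ a.1 b.1) (Prod.map (M.τ a.2.1 b.2.1) (M.τ a.2.2 b.2.2)) y =
      cy3 M (Ψ M a y) := Prod.ext (M.τ_ch _ _) (Prod.ext (M.τ_ch _ _) (M.τ_ch _ _))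
  have k2 := ((e ▸ h.hd (Ψ M a y)).comp y k).congr_of_eventuallyEq
    (f₁ := fun z => f (Ψ M a z)) (by
      filter_upwards [(((M.isOpen_O _ _).prod ((M.isOpen_O _ _).prod (M.isOpen_O _ _))).mem_nhds
        (show y ∈ _ ×ˢ _ ×ˢ _ from ⟨h1, h2, h3⟩))] with z hz
      exact congrArg f (Prod.ext (M.ψ_τ hz.1).symm (Prod.ext (M.ψ_τ hz.2.1).symm
        (M.ψ_τ hz.2.2).symm)))
  rw [k2.fderiv, det_comp, det_d3, sign_mul, sign_pos (mul_pos (det_τ h1)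
    (mul_pos (det_τ h2) (det_τ h3))), mul_one, sg]

/-- the shift as a linear map -/
def shL : E3 →L[ℝ] E3 := ((ContinuousLinearMap.fst ℝ V4 V4).comp (.snd ℝ V4 _)).prod
  (((ContinuousLinearMap.snd ℝ V4 V4).comp (.snd ℝ V4 _)).prod (.fst ℝ V4 _))

theorem det_shL : shL.det = 1 := det_cube fun _ => rfl

theorem sg_shift {f : T3 X → E3} (h : Sm3 M f) {g : E3 →L[ℝ] E3} (hg : ∀ v, g (g (g v)) = v)
    (e : ∀ x, f (sh x) = g (f x)) (x : T3 X) : sg M f (sh x) = sg M f x := by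
  have k1 := (h.hd (sh x)).comp (cy3 M x) shL.hasFDerivAt
  have k2 := g.hasFDerivAt.comp (cy3 M x) (h.hd x)
  have k3 := congrArg ContinuousLinearMap.det (k1.unique (k2.congr_of_eventuallyEq
    (.of_forall fun z => e (Ψ M (ch3 M x) z))))
  rw [det_comp, det_comp, det_shL, det_cube hg, mul_one, one_mul] at k3
  exact congrArg (fun t : ℝ => ((SignType.sign t : SignType) : ℤ)) k3

theorem dd_congr {f f' : T3 X → G} {x : T3 X} (h : f' =ᶠ[𝓝 x] f) : dd M f' x = dd M f x := by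
  rw [← Ψ_cy M x] at h
  exact EventuallyEq.fderiv_eq (ev_chart.1 h)

theorem dd_add {f : T3 X → G} {ρ : T3 X → ℝ} (hf : Sm3 M f) (hρ : Sm3 M ρ) (h0 : ∀ x, 0 ≤ ρ x)
    {x : T3 X} (hx : ρ x = 0) (c : G) : dd M (fun x => f x + ρ x • c) x = dd M f x := by
  have k : dd M ρ x = 0 := IsLocalMin.fderiv_eq_zero (.of_forall fun z => by
    simp only [Ψ_cy, hx, h0])
  have := ((hf.hd x).add ((hρ.hd x).smul_const c)).fderiv
  rw [k] at this
  exact this.trans (by ext <;> simp)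

theorem Sm3.pert {f : T3 X → G} {ρ : T3 X → ℝ} (hf : Sm3 M f) (hρ : Sm3 M ρ) (c : G) :
    Sm3 M fun x => f x + ρ x • c := fun a => (hf a).add ((hρ a).smul contDiff_const)

theorem sm3_mul {κ₁ κ₂ κ₃ : X → ℝ} (h₁ : M.Sm0 κ₁) (h₂ : M.Sm0 κ₂) (h₃ : M.Sm0 κ₃) :
    Sm3 M fun x => κ₁ x.1 * (κ₂ x.2.1 * κ₃ x.2.2) := fun a =>
  ((h₁ a.1).comp contDiff_fst).mul (((h₂ a.2.1).comp contDiff_snd.fst).mul
    ((h₃ a.2.2).comp contDiff_snd.snd))

/-- bump functions -/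
theorem bump1 (M : CM X) (x : X) {O : Set X} (hO : O ∈ 𝓝 x) : ∃ κ : X → ℝ, M.Sm0 κ ∧
    (∀ z, κ z ∈ Icc (0 : ℝ) 1) ∧ (∀ᶠ z in 𝓝 x, κ z = 1) ∧
    ∃ K, IsClosed K ∧ K ⊆ O ∧ ∀ z ∉ K, κ z = 0 := by
  obtain ⟨a, y, -, rfl⟩ := M.cov x
  obtain ⟨r, r0, hr⟩ := nhds_basis_closedBall.mem_iff.1
    ((M.continuous_ψ a).continuousAt.preimage_mem_nhds hO)
  let φ : ContDiffBump y := ⟨r / 2, r, half_pos r0, half_lt_self r0⟩
  refine ⟨M.ext0 a φ, M.sm0_ext0 a φ.contDiff φ.hasCompactSupport, fun z => ⟨M.ext0_nonneg a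
    (fun _ => φ.nonneg) z, ?_⟩, ?_, _, ((isCompact_closedBall y r).image
      (M.continuous_ψ a)).isClosed, image_subset_iff.2 hr, fun z => M.ext0_eq_zero a fun z hz =>
        φ.zero_of_le_dist (not_le.1 hz).le⟩
  · unfold CM.ext0
    split_ifs
    exacts [φ.le_one, zero_le_one]
  · rw [← (M.ψo a).map_nhds_eq, eventually_map]
    filter_upwards [φ.eventuallyEq_one] with z hz
    rw [M.ext0_ψ_self, hz]; rfl

theorem bump3 (M : CM X) (x : T3 X) {O : Set (T3 X)} (hO : O ∈ 𝓝 x) : ∃ ρ : T3 X → ℝ, Sm3 M ρ ∧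
    (∀ z, ρ z ∈ Icc (0 : ℝ) 1) ∧ (∀ᶠ z in 𝓝 x, ρ z = 1) ∧
    ∃ K, IsClosed K ∧ K ⊆ O ∧ ∀ z ∉ K, ρ z = 0 := by
  obtain ⟨O₁, h₁, O', h', s⟩ := mem_nhds_prod_iff.1 hO
  obtain ⟨O₂, h₂, O₃, h₃, s'⟩ := mem_nhds_prod_iff.1 h'
  obtain ⟨κ₁, a₁, b₁, c₁, K₁, d₁, e₁, f₁⟩ := bump1 M _ h₁
  obtain ⟨κ₂, a₂, b₂, c₂, K₂, d₂, e₂, f₂⟩ := bump1 M _ h₂
  obtain ⟨κ₃, a₃, b₃, c₃, K₃, d₃, e₃, f₃⟩ := bump1 M _ h₃
  refine ⟨_, sm3_mul a₁ a₂ a₃, fun z => ⟨mul_nonneg (b₁ _).1 (mul_nonneg (b₂ _).1 (b₃ _).1),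
    mul_le_one₀ (b₁ _).2 (mul_nonneg (b₂ _).1 (b₃ _).1) (mul_le_one₀ (b₂ _).2 (b₃ _).1 (b₃ _).2)⟩,
    ?_, K₁ ×ˢ K₂ ×ˢ K₃, d₁.prod (d₂.prod d₃), (prod_mono e₁ ((prod_mono e₂ e₃).trans s')).trans s,
    fun z hz => ?_⟩
  · filter_upwards [c₁.prod_nhds (c₂.prod_nhds c₃)] with z hz
    simp [hz.1, hz.2.1, hz.2.2]
  · by_contra k
    simp only [mul_eq_zero, not_or] at k
    exact hz ⟨by_contra fun e => k.1 (f₁ _ e), by_contra fun e => k.2.1 (f₂ _ e),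
      by_contra fun e => k.2.2 (f₃ _ e)⟩

/-- cut-off functions -/
theorem cut3 (M : CM X) {C O : Set (T3 X)} (hC : IsCompact C) (hO : ∀ x ∈ C, O ∈ 𝓝 x) :
    ∃ ρ : T3 X → ℝ, Sm3 M ρ ∧ (∀ z, ρ z ∈ Icc (0 : ℝ) 1) ∧ (∀ z, ρ z ≠ 0 → z ∈ O) ∧
      ∀ x ∈ C, ∀ᶠ z in 𝓝 x, ρ z = 1 := by
  refine hC.induction_on (p := fun C => ∃ ρ : T3 X → ℝ, Sm3 M ρ ∧ (∀ z, ρ z ∈ Icc (0 : ℝ) 1) ∧
    (∀ z, ρ z ≠ 0 → z ∈ O) ∧ ∀ x ∈ C, ∀ᶠ z in 𝓝 x, ρ z = 1)
    ⟨fun _ => 0, fun _ => contDiff_const, by simp, by simp, by simp⟩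
    (fun s t h ⟨ρ, a, b, c, d⟩ => ⟨ρ, a, b, c, fun x hx => d x (h hx)⟩) ?_ fun x hx => ?_
  · rintro s t ⟨ρ, a, b, c, d⟩ ⟨ρ', a', b', c', d'⟩
    refine ⟨fun z => 1 - (1 - ρ z) * (1 - ρ' z), fun i => contDiff_const.sub
      ((contDiff_const.sub (a i)).mul (contDiff_const.sub (a' i))), fun z => ⟨?_, ?_⟩,
      fun z hz => by_contra fun k => hz ?_, fun x hx => ?_⟩
    · nlinarith [(b z).1, (b z).2, (b' z).1, (b' z).2]
    · nlinarith [(b z).2, (b' z).2]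
    · simp [not_not.1 (mt (c z) k), not_not.1 (mt (c' z) k)]
    · rcases hx with hx | hx
      · filter_upwards [d x hx] with z hz using by simp [hz]
      · filter_upwards [d' x hx] with z hz using by simp [hz]
  · obtain ⟨ρ, a, b, c, K, -, e, f⟩ := bump3 M x (hO x hx)
    exact ⟨_, nhdsWithin_le_nhds c.eventually_nhds, ρ, a, b,
      fun z hz => e (by_contra fun k => hz (f z k)), fun _ h => h⟩

/-- the theorem of Sard -/
theorem sard {f : T3 X → E3} {ρ : T3 X → ℝ} (hf : Sm3 M f) (hρ : Sm3 M ρ) : ∃ c : E3, ∀ x,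
    ρ x ≠ 0 → f x + ρ x • c = 0 → sg M (fun x => f x + ρ x • c) x ≠ 0 := by
  let h : T3 M.A → E3 → E3 := fun a y => -((ρ (Ψ M a y))⁻¹ • f (Ψ M a y))
  have d : ∀ a y, ρ (Ψ M a y) ≠ 0 → DifferentiableAt ℝ (h a) y := fun a y k =>
    ((((hρ a).differentiable (by simp) y).inv k).smul ((hf a).differentiable (by simp) y)).neg
  obtain ⟨c, hc⟩ := (ae_all_iff.2 fun a => measure_eq_zero_iff_ae_notMem.1
    (addHaar_image_eq_zero_of_det_fderivWithin_eq_zero Measure.addHaar (f := h a) (f' := fderiv ℝ (h a))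
      (s := {y | ρ (Ψ M a y) ≠ 0 ∧ (fderiv ℝ (h a) y).det = 0})
      (fun p k => (d a p k.1).hasFDerivAt.hasFDerivWithinAt) fun p k => k.2)).exists
  refine ⟨c, fun x hx h0 => sg_ne.2 ?_⟩
  have hx' : ρ (Ψ M (ch3 M x) (cy3 M x)) ≠ 0 := by rwa [Ψ_cy]
  have e1 : h (ch3 M x) (cy3 M x) = c := by
    simp only [h, Ψ_cy, eq_neg_of_add_eq_zero_left h0, smul_neg, neg_neg, smul_smul,
      inv_mul_cancel₀ hx, one_smul]
  have i := det_ne.1 fun k => hc _ ⟨_, ⟨hx', k⟩, e1⟩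
  have k := ((hρ.hd x).smul ((d _ _ hx').hasFDerivAt.const_sub c)).congr_of_eventuallyEq
    (f₁ := fun y => f (Ψ M (ch3 M x) y) + ρ (Ψ M (ch3 M x) y) • c) (by
      filter_upwards [(hρ _).continuous.continuousAt.eventually_ne hx'] with z hz
      simp only [h, Pi.smul_apply', sub_neg_eq_add, smul_add, smul_smul, mul_inv_cancel₀ hz,
        one_smul, add_comm])
  refine (injective_iff_map_eq_zero _).2 fun v hv => (injective_iff_map_eq_zero _).1 i v ?_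
  rw [dd, k.fderiv] at hv
  simpa [e1, hx'] using hv

theorem fin3 [CompactSpace X] {f : T3 X → E3} (hf : Sm3 M f) (h : ∀ x, f x = 0 → sg M f x ≠ 0) :
    {x | f x = 0}.Finite := by
  by_contra k
  obtain ⟨x, hx, ha⟩ := Set.Infinite.exists_accPt_of_subset_isCompact k
    (isClosed_eq hf.cont continuous_const (g := fun _ => 0)).isCompact fun x hx => hx
  obtain ⟨K, -, hK⟩ := (dd M f x : E3 →ₗ[ℝ] E3).exists_antilipschitzWith
    (LinearMap.ker_eq_bot.2 (sg_ne.1 (h x hx)))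
  rw [accPt_iff_frequently, ← Ψ_cy M x, ← (Ψo M _).map_nhds_eq, frequently_map] at ha
  have := (hf.hd x).eventually_ne (c := 0) ⟨K, hK⟩
  obtain ⟨z, h1, h2⟩ := (ha.and_eventually (eventually_nhdsWithin_iff.1 this)).exists
  exact h2 (fun e => h1.1 (congrArg _ e)) h1.2

theorem deg3 (D : DEG0_statement) [CompactSpace X] {f : T3 X → E3} (hf : Sm3 M f)
    (h : ∀ x, f x = 0 → sg M f x ≠ 0) (Z : Finset (T3 X)) (hZ : ∀ x, x ∈ Z ↔ f x = 0) :
    ∑ x ∈ Z, sg M f x = 0 := by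
  have e : ∀ k : Z, (M.ψ (ch3 M k).1 (cy3 M k).1, M.ψ (ch3 M k).2.1 (cy3 M k).2.1,
      M.ψ (ch3 M k).2.2 (cy3 M k).2.2) = k.1 := fun k => Ψ_cy M k
  rw [← Finset.sum_coe_sort]
  refine D X M f (fun a b c => hf (a, b, c)) Z (fun k => ch3 M k) (fun k => cy3 M k) ?_ ?_ _
    (fun k => rfl) fun k => det_ne.2 (sg_ne.1 (h _ ((hZ _).1 k.2)))
  · simp only [e]; exact Subtype.val_injective
  · simp only [e, ← hZ]
    exact fun x => ⟨fun k => ⟨⟨x, k⟩, rfl⟩, fun ⟨k, e⟩ => e ▸ k.2⟩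

end Vale.Agent.P247A.Z3
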