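import Vale.Agent.P247I.Gen
import Vale.Agent.P247A.Z3a

/-!
# P247, row Z3Q: generic sections which avoid a finite set, adapted weights
-/

set_option linter.all false

open scoped ContDiff Topology
open Set Filter Function Metric MeasureTheory

noncomputable section

namespace Vale.Agent.P247A.Z3

open Vale.Agent.P204.GX Vale.Agent.P204.T4 Vale.Agent.P247E Vale.Agent.P247I

variable {X : Type} [MetricSpace X] {M : CM X} {V : Type} [NormedAddCommGroup V]
  [InnerProductSpace ℝ V]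

theorem zl_cy (M : CM X) (x : X) : M.zl (M.ch x) (M.cy x) ≠ 0 := by
  rw [CM.zl, CM.zeta, M.ext0_ψ_self, P204.GX.chi.one_of_mem_closedBall
    (mem_closedBall_zero_iff.2 (M.norm_cy x).le)]
  exact one_div_ne_zero (zero_lt_one.trans_le (M.sig_ge _)).ne'

/-- a generic section which does not vanish on a given finite set -/
theorem gen2 (E : Bun M V) (ι : V4 ≃L[ℝ] V) {S : Set X} (hS : S.Finite) : ∃ s ∈ E.Sm,
    (∀ x, s x = 0 → Injective (fderiv ℝ (E.lo (M.ch x) s) (M.cy x))) ∧ ∀ x ∈ S, s x ≠ 0 := by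
  let σ : M.A → Fin 4 → X → V := fun b i => E.ext b fun y => M.zl b y • ι (Pi.single i 1)
  have hσ : ∀ b i, σ b i ∈ E.Sm := fun b i => E.ext_mem b ((M.contDiff_zl b).smul contDiff_const)
    (M.hasCompactSupport_zl b).smul_right
  let f : M.A → V4 → (M.A → V4) → V := fun a y c => ∑ b, ∑ i, c b i • E.lo a (σ b i) y
  have f1 : ∀ a y c, E.lo a (∑ b, ∑ i, c b i • σ b i) y = f a y c := fun a y c => by
    simp only [f, Bun.lo, Finset.sum_apply, Pi.smul_apply, map_sum, map_smul]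
  have f2 : ∀ a y c v, f a y (c - Pi.single a v) = f a y c - M.zl a y • ι v := fun a y c v => by
    simp only [f, Pi.sub_apply, sub_smul, Finset.sum_sub_distrib]
    rw [Finset.sum_eq_single a (f := fun b => ∑ i, (Pi.single a v : M.A → V4) b i • _)
      (fun b _ hb => by simp [hb]) (by simp)]
    simp only [σ, E.lo_ext, Pi.single_eq_same, smul_comm (v _), ← Finset.smul_sum, ← map_smul,
      ← map_sum, ← pi_eq_sum_univ']
  let j := fun a => ContinuousLinearMap.single ℝ (fun _ : M.A => V4) a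
  let Θ : M.A → (M.A → V4) → M.A → V4 := fun a p =>
    p + j a (-p a - (M.zl a (p a))⁻¹ • ι.symm (f a (p a) (p - j a (p a))))
  have dz := fun a => (M.contDiff_zl a).differentiable (by simp)
  have dΘ : ∀ a p, M.zl a (p a) ≠ 0 → DifferentiableAt ℝ (Θ a) p := fun a p h => by
    have := fun b i => (hσ b i a).differentiable (by simp)
    have := dz a
    simp only [Θ, f]
    fun_prop (disch := assumption)
  let l : X → (M.A → V4) →ₗ[ℝ] V := fun x =>
    { toFun := f (M.ch x) (M.cy x)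
      map_add' := fun a b => by simp only [f, Pi.add_apply, add_smul, Finset.sum_add_distrib]
      map_smul' := fun a b => by
        simp only [f, Pi.smul_apply, smul_eq_mul, mul_smul, Finset.smul_sum, RingHom.id_apply] }
  have hl : ∀ x, ∀ᵐ c : M.A → V4, c ∉ LinearMap.ker (l x) := fun x =>
    measure_eq_zero_iff_ae_notMem.1 (Measure.addHaar_submodule volume _ fun k => by
      have k1 : ∀ c, f (M.ch x) (M.cy x) c = 0 := fun c => (k ▸ Submodule.mem_top :
        c ∈ LinearMap.ker (l x))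
      have k2 := f2 (M.ch x) (M.cy x) 0 fun _ => 1
      rw [k1, k1, zero_sub, eq_comm, neg_eq_zero, smul_eq_zero, map_eq_zero_iff _ ι.injective] at k2
      exact k2.elim (zl_cy M x) fun h => one_ne_zero (congrFun h 0))
  obtain ⟨c, hc, hc'⟩ := ((ae_all_iff.2 fun a => measure_eq_zero_iff_ae_notMem.1
    (addHaar_image_eq_zero_of_det_fderivWithin_eq_zero volume (f := Θ a) (f' := fderiv ℝ (Θ a))
      (s := {p | M.zl a (p a) ≠ 0 ∧ (fderiv ℝ (Θ a) p).det = 0})
      (fun p h => (dΘ a p h.1).hasFDerivAt.hasFDerivWithinAt) fun p h => h.2)).and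
        ((ae_ball_iff hS.countable).2 fun x _ => hl x)).exists
  have hs : ∑ b, ∑ i, c b i • σ b i ∈ E.Sm :=
    E.Sm.sum_mem fun b _ => E.Sm.sum_mem fun i _ => E.Sm.smul_mem _ (hσ b i)
  refine ⟨_, hs, fun x hx => ?_, fun x hx k => hc' x hx ((f1 _ _ c).symm.trans
    (lo_eq_zero.2 (by rwa [M.ψ_cy])))⟩
  have ha := zl_cy M x
  rw [← M.ψ_cy x] at hx
  generalize M.cy x = y at *
  generalize M.ch x = a at *
  refine (injective_iff_map_eq_zero _).2 fun ξ hξ => by_contra fun h0 => ?_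
  have p1 : ∀ z, (c + j a (z - c a)) a = z := fun z => by simp [j]
  have e1 : ∀ z, M.zl a z ≠ 0 → Θ a (c + j a (z - c a)) =
      c - j a ((M.zl a z)⁻¹ • ι.symm (E.lo a (∑ b, ∑ i, c b i • σ b i) z)) := fun z hz => by
    have : c + j a (z - c a) - j a z = c - Pi.single a (c a) := by
      rw [map_sub]; simp only [j, ContinuousLinearMap.single_apply]; abel
    simp only [Θ, p1, this, f2, f1]
    simp only [map_sub, map_smul, smul_sub, smul_smul, inv_mul_cancel₀ hz,
      ContinuousLinearEquiv.symm_apply_apply, one_smul, map_neg]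
    abel
  have z0 := (lo_eq_zero (E := E)).2 hx
  have d1 := ((dΘ a (c + j a (y - c a)) (by rwa [p1])).hasFDerivAt.comp y
    (((j a).hasFDerivAt.comp y ((hasFDerivAt_id y).sub_const (c a))).const_add c))
  have d2 := ((j a).hasFDerivAt.comp y (((dz a y).inv ha).hasFDerivAt.smul
    (ι.symm.hasFDerivAt.comp y ((hs a).differentiable (by simp) y).hasFDerivAt))).const_sub c
  have d3 := congrArg (fun L : V4 →L[ℝ] M.A → V4 => L ξ) (d1.unique (d2.congr_of_eventuallyEq
    (((dz a).continuous.continuousAt.eventually_ne ha).mono e1)))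
  refine hc a ⟨c + j a (y - c a), ⟨by rwa [p1], LinearMap.det_eq_zero_iff_ker_ne_bot.2
    ((Submodule.ne_bot_iff _).2 ⟨j a ξ, by simpa [hξ, z0] using d3, by simpa [j] using h0⟩)⟩, ?_⟩
  rw [e1 y ha, z0]
  simp

/-- weights adapted to a finite set -/
structure Wt (M : CM X) (Z : Finset X) {ι : Type} (a : ι → M.A) (θ : ι → X → ℝ) : Prop where
  sm : ∀ i, M.Sm0 (θ i)
  nn : ∀ i x, 0 ≤ θ i x
  supp : ∀ i x, θ i x ≠ 0 → x ∈ M.ψ (a i) '' ball 0 2
  pos : ∀ x, ∃ i, θ i x ≠ 0
  loc : ∀ z ∈ Z, ∃ i, a i = M.ch z ∧ ∀ᶠ x in 𝓝 z, θ i x = 1 ∧ ∀ j, j ≠ i → θ j x = 0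

theorem exists_wt (M : CM X) (Z : Finset X) :
    ∃ θ : M.A ⊕ Z → X → ℝ, Wt M Z (Sum.elim id fun z : Z => M.ch z) θ := by
  classical
  have h : ∀ z : Z, M.ψ (M.ch z) '' ball 0 2 ∩ (↑(Z.erase z) : Set X)ᶜ ∈ 𝓝 (z : X) := fun z =>
    inter_mem (((M.ψo _).isOpenMap _ isOpen_ball).mem_nhds ⟨_, mem_ball_zero_iff.2
      ((M.norm_cy _).trans one_lt_two), M.ψ_cy _⟩)
      ((Finset.finite_toSet _).isClosed.isOpen_compl.mem_nhds (by simp))
  choose κ k1 k2 k3 K k4 k5 k6 using fun z : Z => bump1 M z (h z)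
  refine ⟨Sum.elim (fun a x => M.zeta a x * ∏ z, (1 - κ z x)) κ, ?_, ?_, ?_, fun x => ?_,
    fun z hz => ⟨.inr ⟨z, hz⟩, rfl, ?_⟩⟩
  · rintro (a | z)
    exacts [fun b => (M.sm0_zeta a b).mul (contDiff_prod fun z _ => contDiff_const.sub (k1 z b)),
      k1 z]
  · rintro (a | z) x
    exacts [mul_nonneg (M.zeta_nonneg a x) (Finset.prod_nonneg fun z _ => sub_nonneg.2 (k2 z x).2),
      (k2 z x).1]
  · rintro (a | z) x hx
    exacts [by_contra fun k => left_ne_zero_of_mul hx (M.zeta_eq_zero a k),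
      (k5 z (by_contra fun k => hx (k6 z x k))).1]
  · by_cases k : ∃ z, κ z x ≠ 0
    · exact k.elim fun z hz => ⟨.inr z, hz⟩
    · push Not at k
      have := zl_cy M x
      rw [CM.zl, M.ψ_cy] at this
      exact ⟨.inl (M.ch x), by simpa [k] using this⟩
  · have : ∀ᶠ x in 𝓝 z, ∀ z' : Z, z' ≠ ⟨z, hz⟩ → κ z' x = 0 := eventually_all.2 fun z' => by
      by_cases e : z' = ⟨z, hz⟩
      · simp [e]
      · filter_upwards [(k4 z').isOpen_compl.mem_nhds fun k => (k5 z' k).2 (Finset.mem_erase.2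
          ⟨fun q => e (Subtype.ext q.symm), hz⟩)] with x hx _ using k6 z' x hx
    filter_upwards [k3 ⟨z, hz⟩, this] with x h1 h2
    refine ⟨h1, ?_⟩
    rintro (a | z') e
    · exact mul_eq_zero_of_right _ (Finset.prod_eq_zero (Finset.mem_univ ⟨z, hz⟩) (by simp [h1]))
    · exact h2 z' fun q => e (congrArg _ q)

/-- the coordinates, cut off -/
def xi (M : CM X) (a : M.A) (x : X) : V4 := fun i => M.ext0 a (fun y => theta y * y i) x

theorem xi_sm (a b : M.A) : ContDiff ℝ ∞ fun y => xi M a (M.ψ b y) := contDiff_pi.2 fun i =>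
  M.sm0_ext0 a (theta.contDiff.mul (contDiff_apply ℝ ℝ i)) theta.hasCompactSupport.mul_right b

theorem xi_ψ (a : M.A) {y : V4} (h : y ∈ ball (0 : V4) 2) : xi M a (M.ψ a y) = y := by
  funext i
  rw [xi, M.ext0_ψ_self, theta_one ((mem_ball_zero_iff.1 h).le.trans (by norm_num)), one_mul]

theorem xi_d {a b : M.A} {y : V4} (h : M.ψ b y ∈ M.ψ a '' ball 0 2) : y ∈ M.O b a ∧
    xi M a (M.ψ b y) = M.τ b a y ∧
    HasFDerivAt (fun z => xi M a (M.ψ b z)) (apL (M.Dt b a y)) y := by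
  have k : y ∈ M.O b a := image_subset_range _ _ h
  have e : (fun z => xi M a (M.ψ b z)) =ᶠ[𝓝 y] M.τ b a := by
    filter_upwards [(M.continuous_ψ b).continuousAt.preimage_mem_nhds
      (((M.ψo a).isOpenMap _ isOpen_ball).mem_nhds h)] with z ⟨w, h1, h2⟩
    rw [M.τ_eq_inv ⟨w, h2⟩, ← h2, xi_ψ a h1, M.inv_ψ]
  refine ⟨k, e.self_of_nhds, HasFDerivAt.congr_of_eventuallyEq ?_ e⟩
  rw [show apL (M.Dt b a y) = fderiv ℝ (M.τ b a) y from ContinuousLinearMap.ext fun v =>
    app_Dm (M.differentiableAt_τ k) v]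
  exact (M.differentiableAt_τ k).hasFDerivAt

/-- a map which vanishes on the diagonal, nondegenerately, has no other zeros nearby -/
theorem ev_dg {H : E3 → V4 × V4} {L : E3 →L[ℝ] V4 × V4} {m : V4} (hH : ContDiff ℝ ∞ H)
    (hL : HasFDerivAt H L (dg m)) (h0 : ∀ z, H (dg z) = 0) (hi : ∀ y, L y = 0 → y ∈ range dg) :
    ∀ᶠ y in 𝓝 (dg m), H y = 0 → y ∈ range dg := by
  have i : Injective ((ContinuousLinearMap.fst ℝ V4 (V4 × V4)).prod L) :=
    (injective_iff_map_eq_zero _).2 fun y h => by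
      obtain ⟨z, rfl⟩ := hi y (congrArg Prod.snd h)
      exact congrArg dg (congrArg Prod.fst h)
  let T : E3 ≃L[ℝ] E3 := (LinearEquiv.ofInjectiveEndo ((ContinuousLinearMap.fst ℝ V4
    (V4 × V4)).prod L : E3 →ₗ[ℝ] E3) i).toContinuousLinearEquiv
  have s : HasStrictFDerivAt (fun y : E3 => (y.1, H y)) (T : E3 →L[ℝ] E3) (dg m) :=
    (contDiff_fst.prodMk hH).contDiffAt.hasStrictFDerivAt' (hasFDerivAt_fst.prodMk hL) (by simp)
  have c : Tendsto (fun y : E3 => dg y.1) (𝓝 (dg m)) (𝓝 (dg m)) :=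
    (continuous_fst.prodMk (continuous_fst.prodMk continuous_fst)).tendsto (dg m)
  filter_upwards [s.eventually_left_inverse, c.eventually s.eventually_left_inverse] with y a b k
  rw [k] at a
  rw [h0] at b
  exact ⟨y.1, b.symm.trans a⟩

end Vale.Agent.P247A.Z3
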