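import Vale.Agent.P247A.Z3b
import Vale.Agent.P247A.Z3c
import Vale.Agent.P247A.Z3d
import Vale.Agent.P247E.Bq2

/-!
# P247, row Z3Q: the Euler number is divisible by three
-/

set_option linter.all false

open scoped ContDiff Topology
open Set Filter Function Metric MeasureTheory

noncomputable section

namespace Vale.Agent.P247A.Z3

open Vale.Agent.P204.GX Vale.Agent.P204.T4 Vale.Agent.P247E
open Vale.Agent.P247.H74 (e)
open Vale.Agent.P247.H647 (Sp)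

variable {X : Type} [MetricSpace X] (Q : QM X)

/-- the components of a section in the smooth frame -/
def uu (a : Q.A) (φ : X → Sp) (y : V4) : V4 := vecL (Q.t1.lo a φ y)

/-- the components of a pair of sections -/
def pp (φ ψ : X → Sp) (a : Q.A) (y : V4) : V4 × V4 := (uu Q a φ y, uu Q a ψ y)

/-- the equivariant map -/
def FF (φ ψ : X → Sp) {ι : Type} [Fintype ι] (a : ι → Q.A) (θ : ι → X → ℝ) (x : T3 X) : E3 :=
  ∑ i, (θ i x.1 * (θ i x.2.1 * θ i x.2.2)) • Fm (Q.n (a i)) (pp Q φ ψ (a i))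
    (xi Q.toCM (a i) x.1, xi Q.toCM (a i) x.2.1, xi Q.toCM (a i) x.2.2)

variable {Q} {φ ψ : X → Sp} {ι : Type} [Fintype ι] {a : ι → Q.A} {θ : ι → X → ℝ} {Z : Finset X}

theorem uu_sm (h : φ ∈ Q.t1.Sm) (a : Q.A) : ContDiff ℝ ∞ (uu Q a φ) := vecL.contDiff.comp (h a)

theorem vec_ψ (a : Q.A) (φ : X → Sp) (y : V4) :
    vec (φ (Q.ψ a y)) = app (Rq (Q.p a y)) (uu Q a φ y) := by
  rw [← Q.t1.u_lo a φ y, uu, vecL_apply, ← vec_sgm]
  exact congrArg vec (one_smul ℂ (sgm (Q.p a y) _))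

theorem vec_zero {v : Sp} : vec v = 0 ↔ v = 0 :=
  map_eq_zero_iff vecL (LeftInverse.injective spn_vec)

theorem uu_zero {x : X} : uu Q (Q.ch x) φ (Q.cy x) = 0 ↔ φ x = 0 := by
  rw [uu, vecL_apply, vec_zero, P247I.lo_eq_zero, Q.ψ_cy]

theorem uu_d (h : φ ∈ Q.t1.Sm) (a : Q.A) (y : V4) :
    fderiv ℝ (uu Q a φ) y = vecL.comp (fderiv ℝ (Q.t1.lo a φ) y) :=
  (vecL.hasFDerivAt.comp y ((h a).differentiable (by simp) y).hasFDerivAt).fderiv

theorem jdet_eq (h : φ ∈ Q.t1.Sm) (x : X) :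
    jdet Q φ x = (fderiv ℝ (uu Q (Q.ch x) φ) (Q.cy x)).det := by
  rw [uu_d h, jdet, ← det4_eq_det, ← det_apL]
  refine congrArg _ (ContinuousLinearMap.ext fun v => funext fun i => ?_)
  rw [clm_vec (vecL.comp _), Finset.sum_apply]
  simp only [apL_apply, app, Pi.smul_apply, smul_eq_mul, mul_comm (v _)]
  rfl

theorem FF_sm (h : φ ∈ Q.t1.Sm) (h' : ψ ∈ Q.t1.Sm) (w : Wt Q.toCM Z a θ) :
    Sm3 Q.toCM (FF Q φ ψ a θ) := fun b => ContDiff.sum fun i _ =>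
  (sm3_mul (w.sm i) (w.sm i) (w.sm i) b).smul ((Fm_sm (Q.n_smooth _) ((uu_sm h _).prodMk
    (uu_sm h' _))).comp (((xi_sm _ _).comp contDiff_fst).prodMk (((xi_sm _ _).comp
      contDiff_snd.fst).prodMk ((xi_sm _ _).comp contDiff_snd.snd))))

theorem FF_sh (x : T3 X) : FF Q φ ψ a θ (sh x) = gL (FF Q φ ψ a θ x) := by
  rw [FF, FF, map_sum]
  refine Finset.sum_congr rfl fun i _ => ?_
  rw [map_smul, ← Fm_sh]
  exact congrArg (· • _) (by simp only [sh]; ring)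

theorem FF_dg (x : X) : FF Q φ ψ a θ (dg x) = 0 :=
  Finset.sum_eq_zero fun i _ => smul_eq_zero_of_right _ (Fm_dg _)

theorem FF_d (h : φ ∈ Q.t1.Sm) (h' : ψ ∈ Q.t1.Sm) (w : Wt Q.toCM Z a θ) (b : Q.A) (y : V4) :
    HasFDerivAt (fun z => FF Q φ ψ a θ (Ψ Q.toCM (dg b) z))
      ((∑ i, θ i (Q.ψ b y) * (θ i (Q.ψ b y) * θ i (Q.ψ b y))) •
        (AA (vec (φ (Q.ψ b y)), vec (ψ (Q.ψ b y)))).comp (NN (Q.m b y))) (dg y) := by
  rw [Finset.sum_smul]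
  refine HasFDerivAt.fun_sum fun i _ => ?_
  have s := Fm_sm (Q.n_smooth (a i)) ((uu_sm h (a i)).prodMk (uu_sm h' (a i)))
  have d := ((xi_sm (M := Q.toCM) (a i) b).differentiable (by simp) y).hasFDerivAt
  have k := ((sm3_mul (w.sm i) (w.sm i) (w.sm i) (dg b)).differentiable (by simp)
    (dg y)).hasFDerivAt.smul ((s.differentiable (by simp) _).hasFDerivAt.comp (dg y)
      (d.prodMap (dg y) (d.prodMap (y, y) d)))
  refine k.congr_fderiv (ContinuousLinearMap.ext fun v => ?_)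
  change (θ i (Q.ψ b y) * (θ i (Q.ψ b y) * θ i (Q.ψ b y))) • fderiv ℝ (Fm _ _)
    (dg (xi Q.toCM (a i) (Q.ψ b y))) (d3 _ _ _ v) +
    (_ : ℝ) • Fm _ _ (dg _) = (_ : ℝ) • AA _ (NN _ v)
  rw [Fm_dg, smul_zero, add_zero]
  by_cases k0 : θ i (Q.ψ b y) = 0
  · simp [k0]
  obtain ⟨k1, k2, k3⟩ := xi_d (w.supp i _ k0)
  rw [k3.fderiv, k2, Fm_d (Q.n_smooth _) ((uu_sm h _).prodMk (uu_sm h' _)), NN_dg, NN_dg, map_zero,
    add_zero, add_zero, mL_dg, Q.m_coc k1, NN_mm, ← Q.ψ_τ k1, vec_ψ, vec_ψ, Q.m_eq,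
    AA_R (Q.p_unit _ _)]

theorem FF_reg (h : φ ∈ Q.t1.Sm) (h' : ψ ∈ Q.t1.Sm) (w : Wt Q.toCM Z a θ) {x : X} (h1 : φ x ≠ 0)
    (h2 : ψ x ≠ 0) : ∀ᶠ z in 𝓝 (dg x), (FF Q φ ψ a θ z).1 = 0 → (FF Q φ ψ a θ z).2.2 = 0 →
      z ∈ range dg := by
  rw [← Q.ψ_cy x] at h1 h2 ⊢
  generalize Q.cy x = y at *
  generalize Q.ch x = b at *
  have s := FF_sm h h' w (dg b)
  have d := FF_d h h' w b y
  obtain ⟨i, hi⟩ := w.pos (Q.ψ b y)
  have p := (w.nn i _).lt_of_ne' hi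
  have c := (Finset.sum_pos' (fun j _ => mul_nonneg (w.nn j (Q.ψ b y)) (mul_self_nonneg
    (θ j (Q.ψ b y)))) ⟨i, Finset.mem_univ i, mul_pos p (mul_pos p p)⟩).ne'
  refine (ev_chart (a := dg b) (y := dg y)).2 ((ev_dg (s.fst.prodMk s.snd.snd)
    (d.fst.prodMk d.snd.snd) (fun z => ?_) fun v hv => ?_).mono fun z k k1 k2 => ?_)
  · exact congrArg (fun v : E3 => (v.1, v.2.2)) (FF_dg (Q.ψ b z))
  · refine NN_zero (LeftInverse.injective (Q.m'_m b y)) (Prod.ext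
      (P_zero ((smul_eq_zero.1 (congrArg Prod.fst hv)).resolve_left c) (mt vec_zero.1 h1))
      (P_zero ((smul_eq_zero.1 (congrArg Prod.snd hv)).resolve_left c) (mt vec_zero.1 h2)))
  · obtain ⟨u, rfl⟩ := k (Prod.ext k1 k2)
    exact ⟨_, rfl⟩

theorem FF_loc (w : Wt Q.toCM Z a θ) {z : X} (hz : z ∈ Z) :
    (fun y => FF Q φ ψ a θ (Ψ Q.toCM (dg (Q.ch z)) y)) =ᶠ[𝓝 (dg (Q.cy z))]
      Fm (Q.n (Q.ch z)) (pp Q φ ψ (Q.ch z)) := by
  obtain ⟨i, hi, k⟩ := w.loc z hz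
  rw [← Q.ψ_cy z, ← (Q.ψo _).map_nhds_eq, eventually_map] at k
  have k' := k.and (isOpen_ball.mem_nhds (mem_ball_zero_iff.2 ((Q.norm_cy z).trans one_lt_two)))
  filter_upwards [k'.prod_nhds (k'.prod_nhds k')] with y ⟨k1, k2, k3⟩
  rw [FF, Finset.sum_eq_single i (fun j _ hj => by simp [Ψ, dg, k1.1.2 j hj]) (by simp), hi]
  simp only [Ψ, dg, k1.1.1, k2.1.1, k3.1.1, xi_ψ _ k1.2, xi_ψ _ k2.2, xi_ψ _ k3.2, mul_one, one_smul]

theorem chi_eq (h : NDZ Q φ) (f : {x | φ x = 0}.Finite) :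
    chi Q φ = ∑ x ∈ f.toFinset, (SignType.sign (jdet Q φ x) : ℤ) := by
  rw [chi, finsum_mem_eq_finite_toFinset_sum _ f]
  refine Finset.sum_congr rfl fun x hx => ?_
  rcases lt_or_gt_of_ne (h.2 x (f.mem_toFinset.1 hx)) with k | k
  · simp [k, k.not_gt]
  · simp [k]

theorem three (D : DEG0_statement) [CompactSpace X] (h : NDZ Q φ) (h' : NDZ Q ψ)
    (f : {x | φ x = 0}.Finite) (f' : {x | ψ x = 0}.Finite) (dj : ∀ x, φ x = 0 → ψ x ≠ 0) :
    3 ∣ chi Q φ + chi Q ψ := by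
  classical
  obtain ⟨θ, w⟩ := exists_wt Q.toCM (f.toFinset ∪ f'.toFinset)
  have mem : ∀ x, x ∈ f.toFinset ∪ f'.toFinset ↔ φ x = 0 ∨ ψ x = 0 := by simp
  let s : X → ℤ := fun x =>
    if φ x = 0 then -SignType.sign (jdet Q φ x) else -SignType.sign (jdet Q ψ x)
  have du := fun x => (uu_sm h.1 (Q.ch x)).differentiable (by simp) (Q.cy x)
  have dv := fun x => (uu_sm h'.1 (Q.ch x)).differentiable (by simp) (Q.cy x)
  have zd : ∀ z, φ z = 0 ∨ ψ z = 0 → s z ≠ 0 ∧ ∃ v, ZD (pp Q φ ψ (Q.ch z)) (Q.cy z) v (s z) := by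
    intro z hz
    by_cases k : φ z = 0
    · simp only [s, if_pos k, jdet_eq h.1]
      have := jdet_eq h.1 z ▸ h.2 z k
      exact ⟨by rcases lt_or_gt_of_ne this with q | q <;> simp [q], zd1 (du z) (dv z) (uu_zero.2 k)
        (mt uu_zero.1 (dj z k)) this⟩
    · simp only [s, if_neg k, jdet_eq h'.1]
      have := jdet_eq h'.1 z ▸ h'.2 z (hz.resolve_left k)
      exact ⟨by rcases lt_or_gt_of_ne this with q | q <;> simp [q], zd2 (du z) (dv z)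
        (uu_zero.2 (hz.resolve_left k)) (mt uu_zero.1 k) this⟩
  choose! d d1 d2 using fun z hz => (zd z hz).2.choose_spec.model (Q.n_smooth _)
    ((uu_sm h.1 _).prodMk (uu_sm h'.1 _)) (Q.n'_n (Q.ch z))
  have sF := FF_sm h.1 h'.1 w
  have t0 : ∀ z, Tendsto (fun t : ℝ => dg (Q.cy z) + t • d z) (𝓝 0) (𝓝 (dg (Q.cy z))) := fun z =>
    Continuous.tendsto' (by fun_prop) _ _ (by simp)
  have e0 : ∀ z, Ψ Q.toCM (dg (Q.ch z)) (dg (Q.cy z)) = dg z := fun z => Ψ_cy Q.toCM (dg z)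
  have key := core D gL_cube sF FF_sh ee (f.toFinset ∪ f'.toFinset)
    (fun z t => Ψ Q.toCM (dg (Q.ch z)) (dg (Q.cy z) + t • d z)) (fun z => s z * s₀)
    (fun x => ?_) (fun z _ => e0 z ▸ ((Ψo _ _).continuous.tendsto _).comp (t0 z)) fun z hz =>
      ⟨mul_ne_zero (zd z ((mem z).1 hz)).1 (left_ne_zero_of_mul_eq_one s₀_sq), ?_⟩
  · rw [← Finset.sum_mul, Finset.sum_union (Finset.disjoint_left.2 fun x p q =>
      dj x (f.mem_toFinset.1 p) (f'.mem_toFinset.1 q)), Finset.sum_congr rfl fun x p =>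
      show s x = _ from if_pos (f.mem_toFinset.1 p), Finset.sum_congr (s₁ := f'.toFinset) rfl
      fun x p => show s x = _ from if_neg fun q => dj x q (f'.mem_toFinset.1 p),
      Finset.sum_neg_distrib, Finset.sum_neg_distrib, ← chi_eq h,
      ← chi_eq h', ← neg_add] at key
    have := key.mul_right s₀
    rwa [mul_assoc, s₀_sq, mul_one, dvd_neg] at this
  · by_cases k : φ x = 0 ∨ ψ x = 0
    · rw [← e0, ev_chart]
      filter_upwards [FF_loc (φ := φ) (ψ := ψ) w ((mem x).2 k), d1 x k] with y k1 k2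
      rw [k1]
      refine ⟨fun q => ?_, fun t ht q => ⟨x, (mem x).2 k, congrArg _ (k2.2 t ht q)⟩⟩
      obtain ⟨u, rfl⟩ := k2.1 q
      exact ⟨_, rfl⟩
    · filter_upwards [FF_reg h.1 h'.1 w (not_or.1 k).1 (not_or.1 k).2] with y k1
      refine ⟨fun q => k1 (by rw [q]; rfl) (by rw [q]; rfl), fun t ht q => ?_⟩
      obtain ⟨u, rfl⟩ := k1 (by simpa [ee] using congrArg Prod.fst q)
        (by simpa [ee] using congrArg (fun v : E3 => v.2.2) q)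
      rw [FF_dg, zero_add, smul_eq_zero] at q
      exact (one_ne (congrArg (fun v : E3 => v.2.1) (q.resolve_left ht))).elim
  · filter_upwards [nhdsWithin_le_nhds ((t0 z).eventually (FF_loc (φ := φ) (ψ := ψ) w
      hz).eventually_nhds), self_mem_nhdsWithin] with t k ht
    rw [sg_chart sF, EventuallyEq.fderiv_eq k, k.self_of_nhds]
    exact d2 z ((mem z).1 hz) t ht

theorem ndz [CompactSpace X] (Q : QM X) {S : Set X} (hS : S.Finite) :
    ∃ φ, NDZ Q φ ∧ {x | φ x = 0}.Finite ∧ ∀ x ∈ S, φ x ≠ 0 := by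
  obtain ⟨φ, h1, h2, h3⟩ := gen2 Q.t1 (.equivOfInverse spnL vecL vec_spn spn_vec) hS
  refine ⟨φ, ⟨h1, fun x hx => ?_⟩, P247I.fin_zero h1 fun x hx => ⟨_, _, Q.ψ_cy x, h2 x hx⟩, h3⟩
  rw [jdet_eq h1, uu_d h1]
  exact det_ne.2 ((LeftInverse.injective spn_vec).comp (h2 x hx))

end Z3

/-- row `Z3Q` -/
theorem z3q (D : DEG0_statement) : Z3Q_statement := fun X _ _ _ _ _ Q _ => by
  obtain ⟨φ, h, f, -⟩ := Z3.ndz Q finite_empty
  obtain ⟨ψ, h', f', dj⟩ := Z3.ndz Q f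
  exact ⟨φ, ψ, h, h', Z3.three D h h' f f' dj⟩

end Vale.Agent.P247A
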