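import Vale.Agent.P247A.Z3a

/-!
# P247, row Z3Q: equivariant maps, the count modulo three
-/

set_option linter.all false

open scoped ContDiff Topology
open Set Filter Function Metric MeasureTheory

noncomputable section

namespace Vale.Agent.P247A.Z3

open Vale.Agent.P204.GX Vale.Agent.P204.T4 Vale.Agent.P247E

theorem orb {α : Type} {σ : α → α} (h3 : ∀ x, σ (σ (σ x)) = x) {s : α → ℤ}
    (hs : ∀ x, s (σ x) = s x) (S : Finset α) :
    (∀ x ∈ S, σ x ∈ S) → (∀ x ∈ S, σ x ≠ x) → 3 ∣ ∑ x ∈ S, s x := by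
  classical
  induction S using Finset.strongInduction with
  | H S ih =>
    intro h1 h2
    rcases S.eq_empty_or_nonempty with rfl | ⟨x, hx⟩
    · simp
    have a1 : σ x ≠ x := h2 x hx
    have a2 : σ (σ x) ≠ σ x := h2 _ (h1 x hx)
    have a3 : x ≠ σ (σ x) := by simpa only [h3] using h2 _ (h1 _ (h1 x hx))
    have sub : {x, σ x, σ (σ x)} ⊆ S := by
      intro y hy
      simp only [Finset.mem_insert, Finset.mem_singleton] at hy
      rcases hy with rfl | rfl | rfl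
      exacts [hx, h1 _ hx, h1 _ (h1 _ hx)]
    rw [← Finset.sum_sdiff sub, Finset.sum_insert (by simp [a1.symm, a3]),
      Finset.sum_pair a2.symm, hs (σ x), hs x]
    refine dvd_add (ih _ (Finset.sdiff_ssubset sub (by simp)) (fun y hy => ?_) fun y hy =>
      h2 y (Finset.mem_sdiff.1 hy).1) ⟨s x, by ring⟩
    rw [Finset.mem_sdiff] at hy ⊢
    refine ⟨h1 y hy.1, fun k => hy.2 ?_⟩
    rw [← h3 y]
    simp only [Finset.mem_insert, Finset.mem_singleton] at k
    rcases k with k | k | k <;> simp [k, h3]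

variable {X : Type} [MetricSpace X] {M : CM X} {g : E3 →L[ℝ] E3}

theorem cont_sh : Continuous (sh : T3 X → T3 X) :=
  continuous_snd.fst.prodMk (continuous_snd.snd.prodMk continuous_fst)

theorem cont_dg : Continuous (dg : X → T3 X) :=
  continuous_id.prodMk (continuous_id.prodMk continuous_id)

/-- the zeros in `S` are on the diagonal or nondegenerate -/
def Good (M : CM X) (f : T3 X → E3) (S : Set (T3 X)) : Prop :=
  ∀ x ∈ S, f x = 0 → x ∈ range dg ∨ sg M f x ≠ 0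

/-- nondegeneracy can be achieved on `C` -/
def Ach (M : CM X) (g : E3 →L[ℝ] E3) (C : Set (T3 X)) : Prop := ∀ f S, Sm3 M f →
  (∀ x, f (sh x) = g (f x)) → Good M f S → ∃ f', Sm3 M f' ∧ (∀ x, f' (sh x) = g (f' x)) ∧
    (∀ x, f' =ᶠ[𝓝 (dg x)] f) ∧ Good M f' (S ∪ C)

theorem step (hg : ∀ v, g (g (g v)) = v) {x₀ : T3 X} (hx : x₀ ∉ range dg) :
    ∃ t ∈ 𝓝 x₀, Ach M g t := by
  obtain ⟨U, V, hU, hV, m1, m2, dj⟩ := t2_separation fun k => hx (mem_dg k)
  obtain ⟨ρ, a, b, c, K, d, e, k⟩ := bump3 M x₀ (inter_mem (hV.mem_nhds m2)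
    (cont_sh.continuousAt.preimage_mem_nhds (hU.mem_nhds m1)))
  have q : ∀ z ∈ K, sh z ∉ K := fun z h h' => disjoint_left.1 dj (e h).2 (e h').1
  have q' : ∀ z, ρ z ≠ 0 → ρ (sh z) = 0 := fun z h => k _ (q z (by_contra fun h' => h (k z h')))
  refine ⟨_, c, fun f S hf he hS => ?_⟩
  obtain ⟨v, hv⟩ := sard hf a
  have s1 := hf.pert a v
  have s2 := s1.pert a.shift.shift (g v)
  have s3 := s2.pert a.shift (g (g v))
  set f' : T3 X → E3 := fun x => f x + ρ x • v + ρ (sh (sh x)) • g v + ρ (sh x) • g (g v)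
  have he' : ∀ x, f' (sh x) = g (f' x) := fun x => by
    simp only [f', he, map_add, map_smul, hg]
    change _ + _ + ρ x • g v + _ = _
    abel
  have k1 : ∀ x, ρ (sh x) = 0 → ρ (sh (sh x)) = 0 →
      sg M f' x = sg M (fun x => f x + ρ x • v) x := fun x h1 h2 => by
    rw [sg, dd_add s2 a.shift (fun z => (b _).1) h1, dd_add s1 a.shift.shift (fun z => (b _).1) h2,
      sg]
  have k2 : ∀ x, ρ x ≠ 0 → f' x = 0 → sg M f' x ≠ 0 := fun x h h0 => by
    have h2 : ρ (sh (sh x)) = 0 := by_contra fun h' => h (q' _ h')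
    rw [k1 x (q' x h) h2]
    exact hv x h (by simpa [f', q' x h, h2] using h0)
  refine ⟨f', s3, he', fun x => ?_, fun x hx h0 => ?_⟩
  · have n : dg x ∉ K := fun h => q _ h h
    filter_upwards [d.isOpen_compl.mem_nhds n, (d.preimage cont_sh).isOpen_compl.mem_nhds n,
      (d.preimage (cont_sh.comp cont_sh)).isOpen_compl.mem_nhds n] with z h1 h2 h3
    simp [f', k _ h1, k _ h2, k (sh (sh z)) h3]
  by_cases h1 : ρ x = 0
  swap
  · exact .inr (k2 x h1 h0)
  by_cases h2 : ρ (sh x) = 0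
  swap
  · exact .inr (sg_shift s3 hg he' x ▸ k2 _ h2 (by rw [he', h0, map_zero]))
  by_cases h3 : ρ (sh (sh x)) = 0
  swap
  · exact .inr (sg_shift s3 hg he' x ▸ sg_shift s3 hg he' (sh x) ▸ k2 _ h3
      (by rw [he', he', h0, map_zero, map_zero]))
  rw [k1 x h2 h3, sg, dd_add hf a (fun z => (b _).1) h1]
  exact hS x (hx.resolve_right fun h => one_ne_zero (h.symm.trans h1))
    (by simpa [f', h1, h2, h3] using h0)

theorem ach (hg : ∀ v, g (g (g v)) = v) {C : Set (T3 X)} (hC : IsCompact C)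
    (h : ∀ x ∈ C, x ∉ range dg) : Ach M g C := by
  refine hC.induction_on (p := Ach M g) (fun f S a b c => ⟨f, a, b, fun _ => .rfl, by simpa⟩)
    (fun s t st k f S a b c => ?_) (fun s t k k' f S a b c => ?_) fun x hx => ?_
  · obtain ⟨f', a', b', c', d'⟩ := k f S a b c
    exact ⟨f', a', b', c', fun x hx => d' x (union_subset_union_right _ st hx)⟩
  · obtain ⟨f', a', b', c', d'⟩ := k f S a b c
    obtain ⟨f'', a'', b'', c'', d''⟩ := k' f' _ a' b' d'
    exact ⟨f'', a'', b'', fun x => (c'' x).trans (c' x), by rwa [← union_assoc]⟩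
  · obtain ⟨t, a, b⟩ := step (M := M) hg (h x hx)
    exact ⟨t, nhdsWithin_le_nhds a, b⟩

/-- **the count modulo three** -/
theorem core (D : DEG0_statement) [CompactSpace X] (hg : ∀ v, g (g (g v)) = v) {F : T3 X → E3}
    (hF : Sm3 M F) (he : ∀ x, F (sh x) = g (F x)) (e : E3) (Z : Finset X) (pt : X → ℝ → T3 X)
    (s : X → ℤ) (h1 : ∀ x₀, ∀ᶠ x in 𝓝 (dg x₀), (F x = 0 → x ∈ range dg) ∧
      ∀ t : ℝ, t ≠ 0 → F x + t • e = 0 → ∃ z ∈ Z, x = pt z t)
    (h2 : ∀ z ∈ Z, Tendsto (pt z) (𝓝 0) (𝓝 (dg z)))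
    (h3 : ∀ z ∈ Z, s z ≠ 0 ∧ ∀ᶠ t in 𝓝[≠] (0 : ℝ), F (pt z t) + t • e = 0 ∧
      sg M F (pt z t) = s z) : 3 ∣ ∑ z ∈ Z, s z := by
  classical
  let N := {x | (F x = 0 → x ∈ range dg) ∧
    ∀ t : ℝ, t ≠ 0 → F x + t • e = 0 → ∃ z ∈ Z, x = pt z t}
  obtain ⟨F', a, b, c, d⟩ := ach (M := M) hg (C := (interior N)ᶜ)
    isOpen_interior.isClosed_compl.isCompact (fun x hx ⟨y, k⟩ => hx (k ▸ mem_interior_iff_mem_nhds.2
      (h1 y))) F (interior N) hF he fun x hx h0 => .inl ((interior_subset hx).1 h0)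
  obtain ⟨χ, a', b', c', d'⟩ := cut3 M (O := N ∩ {x | F' =ᶠ[𝓝 x] F}) (isCompact_range cont_dg)
    (by rintro _ ⟨y, rfl⟩; exact inter_mem (h1 y) (c y).eventually_nhds)
  obtain ⟨δ, δ0, hδ⟩ := Metric.eventually_nhds_iff.1 ((Z.eventually_all (l := 𝓝 (0 : ℝ))
    (p := fun z t => ∀ᶠ x in 𝓝 (pt z t), χ x = 1)).2 fun z hz =>
      (h2 z hz).eventually (d' _ ⟨z, rfl⟩).eventually_nhds)
  have k1 : ∀ᶠ t in 𝓝 (0 : ℝ), ∀ z ∈ Z, ∀ z' ∈ Z, z ≠ z' → pt z t ≠ pt z' t :=
    Z.eventually_all.2 fun z hz => Z.eventually_all.2 fun z' hz' => by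
      by_cases k : z = z'
      · simp [k]
      · exact (((h2 z hz).prodMk_nhds (h2 z' hz')).eventually (isClosed_diagonal.isOpen_compl
          |>.mem_nhds fun h => k (congrArg Prod.fst h))).mono fun _ h _ => h
  obtain ⟨ε, ⟨⟨ε1, ε2⟩, ε3⟩, ε0⟩ := ((((k1.and (ball_mem_nhds _ δ0)).filter_mono
    nhdsWithin_le_nhds).and (Z.eventually_all.2 fun z hz => (h3 z hz).2)).and
      (self_mem_nhdsWithin (s := {0}ᶜ))).exists
  have sG := a.pert a' (ε • e)
  set G : T3 X → E3 := fun x => F' x + χ x • ε • e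
  have o1 : ∀ x, x ∉ range dg ∧ F' x = 0 → χ x = 0 := fun x h => by_contra fun k =>
    h.1 ((c' x k).1.1 ((c' x k).2.self_of_nhds.symm.trans h.2))
  have o2 : ∀ x, x ∉ range dg ∧ F' x = 0 → sg M G x = sg M F' x := fun x h => by
    rw [sg, dd_add a a' (fun z => (b' z).1) (o1 x h), sg]
  have m1 : ∀ z ∈ Z, G =ᶠ[𝓝 (pt z ε)] fun x => F x + ε • e := fun z hz => by
    have k := hδ ε2 z hz
    filter_upwards [k, (c' _ (k.self_of_nhds.trans_ne one_ne_zero)).2] with x p q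
    simp [G, p, q]
  have m2 : ∀ z ∈ Z, sg M G (pt z ε) = s z := fun z hz => by
    rw [sg, dd_congr (m1 z hz), ← (ε3 z hz).2, sg, dd, dd, fderiv_add_const]
  have zz : ∀ x, G x = 0 ↔ (x ∉ range dg ∧ F' x = 0) ∨ ∃ z ∈ Z, pt z ε = x := fun x => by
    refine ⟨fun h => ?_, fun h => ?_⟩
    · by_cases k : χ x = 0
      · exact .inl ⟨fun m => one_ne_zero ((d' x m).self_of_nhds.symm.trans k), by simpa [G, k] using h⟩
      obtain ⟨z, hz, p⟩ := (c' x k).1.2 (χ x * ε) (mul_ne_zero k ε0)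
        (by rw [← (c' x k).2.self_of_nhds, mul_smul]; exact h)
      have q : dist (χ x * ε) 0 < δ := lt_of_le_of_lt (by
        simp only [dist_zero_right, norm_mul, Real.norm_of_nonneg (b' x).1]
        exact mul_le_of_le_one_left (norm_nonneg _) (b' x).2) ε2
      have r := (hδ q z hz).self_of_nhds
      rw [← p] at r
      exact .inr ⟨z, hz, by rw [p, r, one_mul]⟩
    · rcases h with h | ⟨z, hz, rfl⟩
      · simp [G, o1 x h, h.2]
      · exact (m1 z hz).self_of_nhds.trans (ε3 z hz).1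
  have rg : ∀ x, G x = 0 → sg M G x ≠ 0 := fun x h => by
    rcases (zz x).1 h with h | ⟨z, hz, rfl⟩
    · exact o2 x h ▸ (d x (by simp) h.2).resolve_left h.1
    · exact m2 z hz ▸ (h3 z hz).1
  have fin : {x | x ∉ range dg ∧ F' x = 0}.Finite := (fin3 sG rg).subset fun x h => (zz x).2 (.inl h)
  have tot := deg3 D sG rg (fin.toFinset ∪ Z.image fun z => pt z ε) fun x => by simp [zz]
  rw [Finset.sum_union (Finset.disjoint_left.2 fun x p q => ?_), Finset.sum_image fun z hz z' hz' k =>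
    by_contra fun n => ε1 z hz z' hz' n k, Finset.sum_congr rfl m2,
    Finset.sum_congr rfl fun x p => o2 x (fin.mem_toFinset.1 p)] at tot
  · rw [eq_neg_of_add_eq_zero_right tot, dvd_neg]
    refine orb (σ := sh) (fun _ => rfl) (sg_shift a hg b) _ (fun x hx => ?_) fun x hx k =>
      (fin.mem_toFinset.1 hx).1 (mem_dg k)
    rw [fin.mem_toFinset] at hx ⊢
    exact ⟨fun ⟨y, k⟩ => hx.1 ⟨y, congrArg (fun v => sh (sh v)) k⟩, by rw [b, hx.2, map_zero]⟩
  · obtain ⟨z, hz, rfl⟩ := Finset.mem_image.1 q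
    exact one_ne_zero ((hδ ε2 z hz).self_of_nhds.symm.trans (o1 _ (fin.mem_toFinset.1 p)))

end Vale.Agent.P247A.Z3
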